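import Vale.Agent.P291.H.Defs

set_option autoImplicit false
set_option linter.unusedSectionVars false

/-! The action on polynomials and subsets. -/

namespace Vale.Agent.P291.H

open MvPolynomial Vale.Agent.P291.G

variable (D : QData) (Z : Type)

/-! ### action -/

lemma act_xx (σ : W D) (b : B D) : act D Z σ (xx D Z b) = xx D Z (perm D σ b) := by
  rw [act, xx, rename_X]; rfl

lemma act_mul (σ τ : W D) (f : S D Z) : act D Z (σ * τ) f = act D Z σ (act D Z τ f) := by
  rw [act, act, act, rename_rename]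
  congr 2
  funext b
  cases b <;> rfl

lemma act_one (f : S D Z) : act D Z 1 f = f := by
  have h3 : act D Z 1 = AlgHom.id ℂ (S D Z) := by
    apply MvPolynomial.algHom_ext
    intro b
    rw [act, rename_X, AlgHom.id_apply]
    cases b <;> rfl
  rw [h3]; rfl

lemma act_inj (σ : W D) : Function.Injective (act D Z σ) := by
  intro f g h
  have := congrArg (act D Z σ⁻¹) h
  rwa [← act_mul, ← act_mul, inv_mul_cancel, act_one, act_one] at this

/-! ### subsets -/

lemma mem_mp (σ : W D) (A : Finset (B D)) (b : B D) : perm D σ b ∈ mp D σ A ↔ b ∈ A := by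
  rw [mp]
  exact Finset.mem_map' (perm D σ).toEmbedding

lemma mem_mp' (σ : W D) (A : Finset (B D)) (b : B D) : b ∈ mp D σ A ↔ (perm D σ).symm b ∈ A := by
  have := mem_mp D σ A ((perm D σ).symm b)
  rwa [Equiv.apply_symm_apply] at this

lemma mp_mul (σ τ : W D) (A : Finset (B D)) : mp D (σ * τ) A = mp D σ (mp D τ A) := by
  ext b
  rw [mem_mp', mem_mp', mem_mp']
  rfl

lemma mp_one (A : Finset (B D)) : mp D 1 A = A := by
  ext b
  rw [mem_mp']
  rfl

lemma mp_union (σ : W D) (A C : Finset (B D)) : mp D σ (A ∪ C) = mp D σ A ∪ mp D σ C := by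
  ext b; simp only [mem_mp', Finset.mem_union]

lemma mp_inter (σ : W D) (A C : Finset (B D)) : mp D σ (A ∩ C) = mp D σ A ∩ mp D σ C := by
  ext b; simp only [mem_mp', Finset.mem_inter]

lemma mp_sdiff (σ : W D) (A C : Finset (B D)) : mp D σ (A \ C) = mp D σ A \ mp D σ C := by
  ext b; simp only [mem_mp', Finset.mem_sdiff]

lemma mp_compl (σ : W D) (A : Finset (B D)) : mp D σ Aᶜ = (mp D σ A)ᶜ := by
  ext b; simp only [mem_mp', Finset.mem_compl]

lemma mp_inj (σ : W D) : Function.Injective (mp D σ) := by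
  intro A C h
  ext b
  rw [← mem_mp D σ A, ← mem_mp D σ C, h]

lemma mp_subset (σ : W D) (A C : Finset (B D)) : mp D σ A ⊆ mp D σ C ↔ A ⊆ C := by
  rw [mp, mp, Finset.map_subset_map]

lemma typ_mp (σ : W D) (A : Finset (B D)) : typ D (mp D σ A) = typ D A := by
  funext i
  rw [typ, typ]
  refine (Finset.card_bij (fun b _ => perm D σ b) ?_ ?_ ?_).symm
  · intro b hb
    rw [Finset.mem_filter] at hb ⊢
    exact ⟨(mem_mp D σ A b).2 hb.1, hb.2⟩
  · intro b _ c _ h
    exact (perm D σ).injective h
  · intro b hb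
    rw [Finset.mem_filter] at hb
    refine ⟨(perm D σ).symm b, ?_, Equiv.apply_symm_apply _ _⟩
    rw [Finset.mem_filter]
    refine ⟨(mem_mp' D σ A b).1 hb.1, ?_⟩
    have := perm_fst D σ ((perm D σ).symm b)
    rw [Equiv.apply_symm_apply] at this
    rw [← this]
    exact hb.2

end Vale.Agent.P291.H
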