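import Vale.Agent.P291.H.BSym

set_option autoImplicit false
set_option linter.unusedSectionVars false

/-! Comparison with the quadratic relation. -/

namespace Vale.Agent.P291.H

open MvPolynomial Vale.Agent.P291.G

variable (D : QData)

/-! ### specialization -/

lemma spec_xq (b : B D) : spec D (xq D b) = xx D (Fin D.rk) b := by
  rw [spec, xq, xx, aeval_X, Sum.elim_inl]

lemma spec_tv (a : D.A) : spec D (tv D a) = lin (YY D) (D.ta a) := by
  rw [spec, tv, aeval_X]; rfl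

lemma spec_zv (i : D.I) (k : Fin (D.w i)) : spec D (zv D i k) = lin (YY D) (D.tw i k) := by
  rw [spec, zv, aeval_X]; rfl

lemma spec_hb : spec D (hb D) = 0 := by
  rw [spec, hb, aeval_X]; rfl

lemma spec_inc (f : S D (Fin D.rk)) : spec D (inc D f) = f := by
  have h : (spec D).comp (inc D) = AlgHom.id ℂ (S D (Fin D.rk)) := by
    apply MvPolynomial.algHom_ext
    intro b
    rw [AlgHom.comp_apply, inc, rename_X, spec, aeval_X, AlgHom.id_apply]
    cases b <;> rfl
  have h2 := DFunLike.congr_fun h f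
  rwa [AlgHom.comp_apply, AlgHom.id_apply] at h2

lemma inc_act (σ : W D) (f : S D (Fin D.rk)) :
    inc D (act D (Fin D.rk) σ f) = act D (ZZ D) σ (inc D f) := by
  rw [inc, act, act, rename_rename, rename_rename]
  congr 2
  funext b
  cases b <;> rfl

/-- difference of gauge variables at the same vertex -/
noncomputable def gg (a b : B D) : S D (Fin D.rk) :=
  if a.1 = b.1 then xx D (Fin D.rk) a - xx D (Fin D.rk) b else 1

lemma spec_g0 (a b : B D) : spec D (g0 D a b) = gg D a b := by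
  unfold g0 gg
  split_ifs with h
  · rw [map_sub, spec_xq, spec_xq]
  · rw [map_one]

lemma spec_g1 (a b : B D) : spec D (g1 D a b) = gg D a b := by
  unfold g1 gg
  split_ifs with h
  · rw [map_add, map_sub, spec_xq, spec_xq, spec_hb, add_zero]
  · rw [map_one]

lemma spec_hq (b c : B D) {s : S D (ZZ D)} (hs : spec D s = 0) :
    spec D (hq D b c s) = (wF D).h b c := by
  rw [hq, map_prod]
  change _ = ∏ a with D.src a = b.1 ∧ D.tgt a = c.1,
    (xx D (Fin D.rk) c - xx D (Fin D.rk) b + lin (YY D) (D.ta a))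
  refine Finset.prod_congr rfl fun a _ => ?_
  rw [map_add, map_add, map_sub, spec_xq, spec_xq, spec_tv, hs, add_zero]

lemma spec_zq (b : B D) {s : S D (ZZ D)} (hs : spec D s = 0) :
    spec D (zq D b s) = (wF D).z b := by
  rw [zq, map_prod]
  change _ = ∏ k : Fin (D.w b.1), (lin (YY D) (D.tw b.1 k) - xx D (Fin D.rk) b)
  refine Finset.prod_congr rfl fun k _ => ?_
  rw [map_add, map_sub, spec_xq, spec_zv, hs, add_zero]

lemma spec_sh {s : S D (ZZ D)} (hs : spec D s = 0) (A : Finset (B D)) (f : S D (ZZ D)) :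
    spec D (sh D s A f) = spec D f := by
  have h : (spec D).comp (sh D s A) = spec D := by
    apply MvPolynomial.algHom_ext
    intro b
    rw [AlgHom.comp_apply, sh, aeval_X]
    cases b with
    | inl b =>
      rw [Sum.elim_inl]
      change _ = spec D (xq D b)
      split_ifs with h
      · rw [map_add, hs, add_zero]
      · rfl
    | inr b => rfl
  rw [← AlgHom.comp_apply, h]

/-! ### products over pairs -/

section pr
variable {D}
variable {R : Type} [CommRing R]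

/-- product over a rectangle -/
def rp (f : B D → B D → R) (X Y : Finset (B D)) : R := ∏ b ∈ X, ∏ c ∈ Y, f b c

/-- product over ordered pairs of distinct elements -/
def od (f : B D → B D → R) (N : Finset (B D)) : R := ∏ p ∈ N, ∏ q ∈ N.erase p, f p q

lemma rp_union_left (f : B D → B D → R) {X X' : Finset (B D)} (h : Disjoint X X')
    (Y : Finset (B D)) : rp f (X ∪ X') Y = rp f X Y * rp f X' Y := by
  rw [rp, rp, rp, Finset.prod_union h]

lemma rp_union_right (f : B D → B D → R) {Y Y' : Finset (B D)} (h : Disjoint Y Y')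
    (X : Finset (B D)) : rp f X (Y ∪ Y') = rp f X Y * rp f X Y' := by
  rw [rp, rp, rp, ← Finset.prod_mul_distrib]
  exact Finset.prod_congr rfl fun b _ => Finset.prod_union h

lemma rp_mul (f g : B D → B D → R) (X Y : Finset (B D)) :
    rp (fun b c => f b c * g b c) X Y = rp f X Y * rp g X Y := by
  rw [rp, rp, rp, ← Finset.prod_mul_distrib]
  exact Finset.prod_congr rfl fun b _ => Finset.prod_mul_distrib

lemma od_union (f : B D → B D → R) {K M : Finset (B D)} (h : Disjoint K M) :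
    od f (K ∪ M) = od f K * od f M * rp f K M * rp f M K := by
  have h1 : ∀ p ∈ K, ∏ q ∈ (K ∪ M).erase p, f p q =
      (∏ q ∈ K.erase p, f p q) * ∏ q ∈ M, f p q := by
    intro p hp
    have hpM : p ∉ M := Finset.disjoint_left.1 h hp
    rw [Finset.erase_union_distrib, Finset.erase_eq_of_notMem hpM]
    exact Finset.prod_union (h.mono_left (Finset.erase_subset _ _))
  have h2 : ∀ p ∈ M, ∏ q ∈ (K ∪ M).erase p, f p q =
      (∏ q ∈ M.erase p, f p q) * ∏ q ∈ K, f p q := by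
    intro p hp
    have hpK : p ∉ K := Finset.disjoint_right.1 h hp
    rw [Finset.erase_union_distrib, Finset.erase_eq_of_notMem hpK, Finset.union_comm]
    exact Finset.prod_union (h.symm.mono_left (Finset.erase_subset _ _))
  rw [od, Finset.prod_union h, Finset.prod_congr rfl h1, Finset.prod_congr rfl h2,
    Finset.prod_mul_distrib, Finset.prod_mul_distrib, od, od, rp, rp]
  ring

lemma od_congr {f g : B D → B D → R} {N : Finset (B D)}
    (h : ∀ p ∈ N, ∀ q ∈ N, f p q = g p q) : od f N = od g N := by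
  rw [od, od]
  refine Finset.prod_congr rfl fun p hp => Finset.prod_congr rfl fun q hq => ?_
  exact h p hp q (Finset.mem_of_mem_erase hq)

lemma rp_congr {f g : B D → B D → R} {X Y : Finset (B D)}
    (h : ∀ p ∈ X, ∀ q ∈ Y, f p q = g p q) : rp f X Y = rp g X Y := by
  rw [rp, rp]
  exact Finset.prod_congr rfl fun p hp => Finset.prod_congr rfl fun q hq => h p hp q hq

end pr

lemma cr_eq (A C : Finset (B D)) : cr D (Fin D.rk) A C = rp (gg D) A C := rfl

lemma e_eq (A : Finset (B D)) : e (wF D) A = rp (wF D).h A Aᶜ := rfl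

lemma spec_Om (N : Finset (B D)) : spec D (Om D N) = od (fun p q => gg D p q * gg D p q) N := by
  rw [Om, map_prod, od]
  refine Finset.prod_congr rfl fun p _ => ?_
  rw [map_prod]
  refine Finset.prod_congr rfl fun q _ => ?_
  rw [map_mul, spec_g0, spec_g1]

lemma gg_ne_zero {a b : B D} (h : a ≠ b) : gg D a b ≠ 0 := by
  unfold gg
  split_ifs with h1
  · rw [sub_ne_zero]
    intro h2
    exact h (Sum.inl_injective (X_injective h2))
  · exact one_ne_zero

lemma spec_Om_ne_zero (N : Finset (B D)) : spec D (Om D N) ≠ 0 := by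
  rw [spec_Om, od, Finset.prod_ne_zero_iff]
  intro p _
  rw [Finset.prod_ne_zero_iff]
  intro q hq
  have h := Finset.ne_of_mem_erase hq
  exact mul_ne_zero (gg_ne_zero D h.symm) (gg_ne_zero D h.symm)

lemma spec_pw (p q : B D) (i j : Bool) : spec D (pw D p q i j) =
    (if i = j then gg D p q else (wF D).h p q) * gg D p q := by
  have h0 : spec D (-hb D) = 0 := by rw [map_neg, spec_hb, neg_zero]
  cases i <;> cases j <;>
    simp [pw, spec_g0, spec_g1, spec_hq D p q h0, spec_hq D p q (map_zero (spec D))]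

lemma spec_ww (N K : Finset (B D)) : spec D (ww D N K) =
    od (fun p q => (if decide (p ∈ K) = decide (q ∈ K) then gg D p q else (wF D).h p q) *
      gg D p q) N := by
  rw [ww, map_prod, od]
  refine Finset.prod_congr rfl fun p _ => ?_
  rw [map_prod]
  refine Finset.prod_congr rfl fun q _ => ?_
  rw [spec_pw]

lemma spec_ww_union {K M : Finset (B D)} (h : Disjoint K M) :
    spec D (ww D (K ∪ M) K) * (rp (gg D) K M * rp (gg D) M K) =
      rp (wF D).h K M * rp (wF D).h M K * spec D (Om D (K ∪ M)) := by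
  rw [spec_ww, spec_Om, od_union _ h, od_union _ h]
  have e1 : od (fun p q => (if decide (p ∈ K) = decide (q ∈ K) then gg D p q else (wF D).h p q) *
      gg D p q) K = od (fun p q => gg D p q * gg D p q) K :=
    od_congr fun p hp q hq => by simp [hp, hq]
  have e2 : od (fun p q => (if decide (p ∈ K) = decide (q ∈ K) then gg D p q else (wF D).h p q) *
      gg D p q) M = od (fun p q => gg D p q * gg D p q) M :=
    od_congr fun p hp q hq => by
      simp [Finset.disjoint_right.1 h hp, Finset.disjoint_right.1 h hq]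
  have e3 : rp (fun p q => (if decide (p ∈ K) = decide (q ∈ K) then gg D p q else (wF D).h p q) *
      gg D p q) K M = rp (fun p q => (wF D).h p q * gg D p q) K M :=
    rp_congr fun p hp q hq => by simp [hp, Finset.disjoint_right.1 h hq]
  have e4 : rp (fun p q => (if decide (p ∈ K) = decide (q ∈ K) then gg D p q else (wF D).h p q) *
      gg D p q) M K = rp (fun p q => (wF D).h p q * gg D p q) M K :=
    rp_congr fun p hp q hq => by simp [hq, Finset.disjoint_right.1 h hp]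
  rw [e1, e2, e3, e4, rp_mul, rp_mul, rp_mul, rp_mul]
  ring

lemma spec_ww_compl (N K : Finset (B D)) :
    spec D (ww D N (N \ K)) = spec D (ww D N K) := by
  rw [spec_ww, spec_ww]
  refine od_congr fun p hp q hq => ?_
  simp only [Finset.mem_sdiff, hp, hq, true_and]
  by_cases h1 : p ∈ K <;> by_cases h2 : q ∈ K <;> simp [h1, h2]

/-! ### sign of the exchange -/

lemma gg_symm (a b : B D) : gg D a b = gg D b a ∨ gg D a b = - gg D b a := by
  unfold gg
  by_cases h : a.1 = b.1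
  · right
    rw [if_pos h, if_pos h.symm]; ring
  · left
    rw [if_neg h, if_neg (Ne.symm h)]

lemma rp_gg_dvd (X Y : Finset (B D)) : rp (gg D) X Y ∣ rp (gg D) Y X := by
  rw [rp, rp, Finset.prod_comm]
  refine Finset.prod_dvd_prod_of_dvd _ _ fun c _ => Finset.prod_dvd_prod_of_dvd _ _ fun b _ => ?_
  rcases gg_symm D b c with h | h
  · rw [h]
  · rw [h, neg_dvd]

lemma Dl_compl_dvd (C : Finset (B D)) : Dl D (Fin D.rk) Cᶜ ∣ Dl D (Fin D.rk) C := by
  have h1 := Dl_spec D (Fin D.rk) C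
  have h2 := Dl_spec D (Fin D.rk) Cᶜ
  rw [compl_compl] at h2
  obtain ⟨u, hu⟩ := rp_gg_dvd D C Cᶜ
  have h3 : cr D (Fin D.rk) Cᶜ C = cr D (Fin D.rk) C Cᶜ * u := hu
  have h4 := cr_ne_zero D (Fin D.rk) (disjoint_compl_right (a := C))
  refine ⟨u, mul_left_cancel₀ h4 ?_⟩
  rw [← h1, h2, h3]
  ring

lemma sgn_ne (σ : W D) : (sgn D σ : S D (Fin D.rk)) ≠ 0 := by
  intro h
  have h2 : ((sgn D σ * sgn D σ : ℤ) : S D (Fin D.rk)) = 0 := by
    push_cast
    rw [h, zero_mul]
  rw [sgn_sq] at h2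
  simp at h2

/-- quotients of alternating families -/
lemma exists_quo {n : D.I → ℕ} {φ : Finset (B D) → S D (Fin D.rk)} (h : φ ∈ AF D (Fin D.rk) n)
    (E : Finset (B D) → S D (Fin D.rk)) (hE : ∀ A, E A ∣ φ A) (hE0 : ∀ A, E A ≠ 0)
    (hEact : ∀ σ A, act D (Fin D.rk) σ (E A) = (sgn D σ : S D (Fin D.rk)) * E (mp D σ A)) :
    ∃ F : Finset (B D) → S D (Fin D.rk), (∀ A, φ A = E A * F A) ∧
      EF D n fun A => inc D (F A) := by
  choose F hF using hE
  have hact : ∀ σ A, act D (Fin D.rk) σ (F A) = F (mp D σ A) := by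
    intro σ A
    have h1 := h.1 σ A
    rw [hF A, hF (mp D σ A), map_mul, hEact] at h1
    have h2 : (sgn D σ : S D (Fin D.rk)) * E (mp D σ A) ≠ 0 :=
      mul_ne_zero (sgn_ne D σ) (hE0 _)
    refine mul_left_cancel₀ h2 ?_
    rw [h1]
    ring
  refine ⟨F, hF, fun σ A => ?_, fun A hA => ?_⟩
  · rw [← inc_act, hact]
  · have h1 := h.2 A hA
    rw [hF A] at h1
    rcases mul_eq_zero.1 h1 with h2 | h2
    · exact absurd h2 (hE0 A)
    · simp only [h2, map_zero]

lemma zsB_union {X Y : Finset (B D)} (h : Disjoint X Y) :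
    zs (wF D) (X ∪ Y) = zs (wF D) X * zs (wF D) Y := by
  rw [zs, zs, zs, Finset.prod_union h]

lemma spec_prod_zq (K : Finset (B D)) {s : S D (ZZ D)} (hs : spec D s = 0) :
    spec D (∏ k ∈ K, zq D k s) = zs (wF D) K := by
  rw [map_prod, zs]
  exact Finset.prod_congr rfl fun k _ => spec_zq D k hs

lemma spec_Term (ν : D.I → ℤ) (d : Dat D) (D1 D2 K : Finset (B D)) :
    spec D (Term D ν d D1 D2 K) =
      spec D (d.f (D1 ∪ K)) * spec D (d.g (D2 ∪ K)) * zs (wF D) K *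
        spec D (ww D (D1 ∪ D2)ᶜ K) := by
  have h0 : spec D (-hb D) = 0 := by rw [map_neg, spec_hb, neg_zero]
  unfold Term
  split_ifs with h
  · rw [map_mul, map_mul, map_mul, spec_sh D h0, spec_prod_zq D K (map_zero (spec D))]
  · rw [map_mul, map_mul, map_mul, spec_sh D (spec_hb D), spec_prod_zq D K h0, spec_ww_compl]
    ring

lemma h_rp_ne {X Y : Finset (B D)} (h : Disjoint X Y) : rp (wF D).h X Y ≠ 0 := by
  rw [rp, Finset.prod_ne_zero_iff]
  intro b hb
  rw [Finset.prod_ne_zero_iff]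
  intro c hc
  exact (wF D).h_ne b c fun e => Finset.disjoint_left.1 h hb (e ▸ hc)

lemma zs_ne (X : Finset (B D)) : zs (wF D) X ≠ 0 := by
  rw [zs, Finset.prod_ne_zero_iff]
  exact fun b _ => (wF D).z_ne b

/-- the identity for one term -/
lemma term_id {D1 D2 K : Finset (B D)} (hd : Disjoint D1 D2) (hK : K ⊆ (D1 ∪ D2)ᶜ)
    {φ ψ F G : Finset (B D) → S D (Fin D.rk)}
    (hφ : ∀ A, φ A = Dl D (Fin D.rk) A * F A) (hψ : ∀ C, ψ C = Dl D (Fin D.rk) Cᶜ * G C) :
    (rp (wF D).h D1 D2 ^ 2 * rp (wF D).h D1 (D1 ∪ D2)ᶜ * rp (wF D).h (D1 ∪ D2)ᶜ D2 *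
        zs (wF D) D1 * del D (Fin D.rk) ^ 2) *
      (F (D1 ∪ K) * G (D2 ∪ K) * zs (wF D) K * spec D (ww D (D1 ∪ D2)ᶜ K)) =
    (rp (gg D) D1 D2 ^ 2 * rp (gg D) D1 (D1 ∪ D2)ᶜ * rp (gg D) (D1 ∪ D2)ᶜ D2 *
        spec D (Om D (D1 ∪ D2)ᶜ)) *
      (φ (D1 ∪ K) * ψ (D2 ∪ K) * (e (wF D) (D1 ∪ K) * zs (wF D) (D1 ∪ K)) *
        e (wF D) (D2 ∪ K)ᶜ) := by
  obtain ⟨M, hM⟩ : ∃ M, M = (D1 ∪ D2)ᶜ \ K := ⟨_, rfl⟩
  have hN : (D1 ∪ D2)ᶜ = K ∪ M := by rw [hM, Finset.union_sdiff_of_subset hK]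
  have hKM : Disjoint K M := by rw [hM]; exact Finset.disjoint_sdiff
  have hm : ∀ b, (b ∉ D1 ∧ b ∉ D2) ↔ (b ∈ K ∨ b ∈ M) := by
    intro b
    have := Finset.ext_iff.1 hN b
    simpa only [Finset.mem_compl, Finset.mem_union, not_or] using this
  have d12 : ∀ b, b ∈ D1 → b ∉ D2 := fun b => fun h => Finset.disjoint_left.1 hd h
  have dKM : ∀ b, b ∈ K → b ∉ M := fun b => fun h => Finset.disjoint_left.1 hKM h
  have hD1K : Disjoint D1 K := Finset.disjoint_left.2 fun b h1 h2 => ((hm b).2 (Or.inl h2)).1 h1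
  have hD1M : Disjoint D1 M := Finset.disjoint_left.2 fun b h1 h2 => ((hm b).2 (Or.inr h2)).1 h1
  have hD2K : Disjoint D2 K := Finset.disjoint_left.2 fun b h1 h2 => ((hm b).2 (Or.inl h2)).2 h1
  have hD2M : Disjoint D2 M := Finset.disjoint_left.2 fun b h1 h2 => ((hm b).2 (Or.inr h2)).2 h1
  have c1 : (D1 ∪ K)ᶜ = D2 ∪ M := by
    ext b
    have := hm b; have := d12 b; have := dKM b
    simp only [Finset.mem_compl, Finset.mem_union]
    tauto
  have c2 : (D2 ∪ K)ᶜ = D1 ∪ M := by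
    ext b
    have := hm b; have := d12 b; have := dKM b
    simp only [Finset.mem_compl, Finset.mem_union]
    tauto
  have c3 : (D1 ∪ M)ᶜ = D2 ∪ K := by rw [← c2, compl_compl]
  have s1 := Dl_spec D (Fin D.rk) (D1 ∪ K)
  have s2 := Dl_spec D (Fin D.rk) (D1 ∪ M)
  have s3 := spec_ww_union D hKM
  rw [cr_eq, c1, rp_union_left _ hD1K, rp_union_right _ hD2M, rp_union_right _ hD2M] at s1
  rw [cr_eq, c3, rp_union_left _ hD1M, rp_union_right _ hD2K, rp_union_right _ hD2K] at s2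
  rw [hφ, hψ, e_eq, e_eq, c1, c2, c3, rp_union_left _ hD1K, rp_union_right _ hD2M,
    rp_union_right _ hD2M, rp_union_left _ hD1M, rp_union_right _ hD2K, rp_union_right _ hD2K,
    zsB_union D hD1K, hN, rp_union_right _ hKM, rp_union_left _ hKM, rp_union_right _ hKM,
    rp_union_left _ hKM]
  have s4 : del D (Fin D.rk) ^ 2 =
      (rp (gg D) D1 D2 * rp (gg D) D1 M * (rp (gg D) K D2 * rp (gg D) K M) *
        Dl D (Fin D.rk) (D1 ∪ K)) *
      (rp (gg D) D1 D2 * rp (gg D) D1 K * (rp (gg D) M D2 * rp (gg D) M K) *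
        Dl D (Fin D.rk) (D1 ∪ M)) := by
    rw [← s1, ← s2, sq]
  rw [s4]
  linear_combination (rp (wF D).h D1 D2 ^ 2 * (rp (wF D).h D1 K * rp (wF D).h D1 M) *
    (rp (wF D).h K D2 * rp (wF D).h M D2) * zs (wF D) D1 * (rp (gg D) D1 D2 ^ 2 *
    rp (gg D) D1 K * rp (gg D) D1 M * (rp (gg D) K D2 * rp (gg D) M D2) *
    Dl D (Fin D.rk) (D1 ∪ K) * Dl D (Fin D.rk) (D1 ∪ M)) *
    F (D1 ∪ K) * G (D2 ∪ K) * zs (wF D) K) * s3

/-- From the quadratic relation: `f j A = inc (φ j A / Dl A)`, `g j C = inc (ψ j C / Dl Cᶜ)`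
(`Dl_dvd`). With `N = (D1 ∪ D2)ᶜ`, `K ⊔ M = N`, `h(X, Y) = ∏_{b ∈ X, c ∈ Y} h b c` (`wF`),
`e (D1 ∪ K) zs (D1 ∪ K) e (D2 ∪ K)ᶜ = [h(D1,D2)^2 h(D1,N) h(N,D2) zs D1] * h(K,M) h(M,K) zs K`,
`cr (D1 ∪ K) (D1 ∪ K)ᶜ * cr (D2 ∪ K)ᶜ (D2 ∪ K) =
[cr D1 D2 ^ 2 * cr D1 N * cr N D2] * cr K M * cr M K`, and
`spec (ww N K) * cr K M * cr M K = h(K,M) h(M,K) * spec (Om N)` (also for `M` instead of `K`).
Since `del = cr A Aᶜ * Dl A`, for every `K`
`Dl (D1 ∪ K) * Dl (D2 ∪ K)ᶜ * (e zs e) * [cr-bracket] * spec (Om N) =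
[h-bracket] * del ^ 2 * spec (ww N K) * zs K`; the brackets do not depend on `K` and are not zero,
for `D1 = D2 = ∅` they are `1`. -/
theorem classical (ν : D.I → ℤ) {r : S D (Fin D.rk)} (h : LinRel (wF D) r) :
    ∃ L : List (Dat D), ∀ D1 D2 : Finset (B D), Disjoint D1 D2 →
      spec D (Num D ν L D1 D2) =
        if D1 = ∅ ∧ D2 = ∅ then r * spec D (Om D Finset.univ) else 0 := by
  obtain ⟨m, n, φ, ψ, h1, h2⟩ := h
  have hF : ∀ j, ∃ F : Finset (B D) → S D (Fin D.rk),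
      (∀ A, φ j A = Dl D (Fin D.rk) A * F A) ∧ EF D (n j) fun A => inc D (F A) := fun j =>
    exists_quo D (h1 j).2.1 (Dl D (Fin D.rk)) (fun A => Dl_dvd D (Fin D.rk) (h1 j).2.1 A)
      (fun A => Dl_ne_zero D (Fin D.rk) A) (fun σ A => act_Dl D (Fin D.rk) σ A)
  have hG : ∀ j, ∃ G : Finset (B D) → S D (Fin D.rk),
      (∀ C, ψ j C = Dl D (Fin D.rk) Cᶜ * G C) ∧ EF D (n j) fun C => inc D (G C) := fun j =>
    exists_quo D (h1 j).2.2 (fun C => Dl D (Fin D.rk) Cᶜ)
      (fun C => (Dl_compl_dvd D C).trans (Dl_dvd D (Fin D.rk) (h1 j).2.2 C))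
      (fun C => Dl_ne_zero D (Fin D.rk) Cᶜ)
      (fun σ C => by rw [act_Dl, mp_compl])
  choose F hF1 hF2 using hF
  choose G hG1 hG2 using hG
  refine ⟨List.ofFn fun j => ⟨n j, fun A => inc D (F j A), fun C => inc D (G j C), hF2 j, hG2 j,
    (h1 j).1⟩, fun D1 D2 hd => ?_⟩
  have hnum : spec D (Num D ν (List.ofFn fun j => (⟨n j, fun A => inc D (F j A),
      fun C => inc D (G j C), hF2 j, hG2 j, (h1 j).1⟩ : Dat D)) D1 D2) =
      ∑ j, ∑ K ∈ (D1 ∪ D2)ᶜ.powerset, F j (D1 ∪ K) * G j (D2 ∪ K) * zs (wF D) K *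
        spec D (ww D (D1 ∪ D2)ᶜ K) := by
    rw [Num, List.map_ofFn, List.sum_ofFn, map_sum]
    refine Finset.sum_congr rfl fun j _ => ?_
    rw [Function.comp_apply, map_sum]
    refine Finset.sum_congr rfl fun K _ => ?_
    rw [spec_Term, spec_inc, spec_inc]
  rw [hnum]
  set HB := rp (wF D).h D1 D2 ^ 2 * rp (wF D).h D1 (D1 ∪ D2)ᶜ * rp (wF D).h (D1 ∪ D2)ᶜ D2 *
        zs (wF D) D1 * del D (Fin D.rk) ^ 2 with hHB
  set CB := rp (gg D) D1 D2 ^ 2 * rp (gg D) D1 (D1 ∪ D2)ᶜ * rp (gg D) (D1 ∪ D2)ᶜ D2 *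
        spec D (Om D (D1 ∪ D2)ᶜ) with hCB
  have hkey : HB * (∑ j, ∑ K ∈ (D1 ∪ D2)ᶜ.powerset, F j (D1 ∪ K) * G j (D2 ∪ K) *
      zs (wF D) K * spec D (ww D (D1 ∪ D2)ᶜ K)) =
      CB * (if D1 = ∅ ∧ D2 = ∅ then r * del D (Fin D.rk) ^ 2 else 0) := by
    rw [← h2 D1 D2 hd, Finset.mul_sum, Finset.mul_sum]
    refine Finset.sum_congr rfl fun j _ => ?_
    rw [Finset.mul_sum, Finset.mul_sum]
    refine Finset.sum_congr rfl fun K hK => ?_
    rw [Finset.mem_powerset] at hK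
    exact term_id D hd hK (hF1 j) (hG1 j)
  have hdel : del D (Fin D.rk) ^ 2 ≠ 0 := pow_ne_zero 2 (del_ne_zero D (Fin D.rk))
  have hHB0 : HB ≠ 0 := by
    have g1 : Disjoint D1 (D1 ∪ D2)ᶜ :=
      disjoint_compl_right.mono_left Finset.subset_union_left
    have g2 : Disjoint (D1 ∪ D2)ᶜ D2 :=
      disjoint_compl_left.mono_right Finset.subset_union_right
    exact mul_ne_zero (mul_ne_zero (mul_ne_zero (mul_ne_zero (pow_ne_zero 2 (h_rp_ne D hd))
      (h_rp_ne D g1)) (h_rp_ne D g2)) (zs_ne D D1)) hdel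
  refine mul_left_cancel₀ hHB0 (hkey.trans ?_)
  split_ifs with hc
  · obtain ⟨rfl, rfl⟩ := hc
    rw [hHB, hCB]
    simp only [rp, zs, Finset.prod_empty, Finset.empty_union, Finset.compl_empty,
      Finset.prod_const_one, one_pow, one_mul]
    ring
  · rw [mul_zero, mul_zero]

end Vale.Agent.P291.H
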