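import Vale.Agent.P291.H.Basic

set_option autoImplicit false
set_option linter.unusedSectionVars false

/-! The weights of the representation `N`. -/

namespace Vale.Agent.P291.H

open MvPolynomial Vale.Agent.P291.G

variable (D : QData)

section wfaux

lemma wf_act_xx (σ : W D) (b : B D) :
    act D (Fin D.rk) σ (xx D (Fin D.rk) b) = xx D (Fin D.rk) (perm D σ b) := by
  rw [act, xx, rename_X]; rfl

lemma wf_act_YY (σ : W D) (j : Fin D.rk) : act D (Fin D.rk) σ (YY D j) = YY D j :=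
  actP_YY D σ j

lemma wf_act_lin (σ : W D) (m : Fin D.rk → ℤ) :
    act D (Fin D.rk) σ (lin (YY D) m) = lin (YY D) m := by
  have h := map_lin (act D (Fin D.rk) σ).toRingHom (YY D) m
  refine h.trans ?_
  congr 1
  funext j
  exact wf_act_YY D σ j

/-- evaluation at a point of the gauge torus -/
noncomputable def wfEv (c : B D) : S D (Fin D.rk) →ₐ[ℂ] ℂ :=
  aeval (Sum.elim (fun b => if b = c then 1 else 0) fun _ => 0)

lemma wfEv_xx (c b : B D) : wfEv D c (xx D (Fin D.rk) b) = if b = c then 1 else 0 := by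
  rw [wfEv, xx, aeval_X]; rfl

lemma wfEv_lin (c : B D) (m : Fin D.rk → ℤ) : wfEv D c (lin (YY D) m) = 0 := by
  have h := map_lin (wfEv D c).toRingHom (YY D) m
  refine h.trans ?_
  have h3 : ∀ j, wfEv D c (YY D j) = 0 := by
    intro j
    rw [wfEv, YY, aeval_X]; rfl
  simp [lin, h3]

lemma wf_ne1 (b c : B D) (h : b ≠ c) (m : Fin D.rk → ℤ) :
    xx D (Fin D.rk) c - xx D (Fin D.rk) b + lin (YY D) m ≠ 0 := by
  intro h0
  have h1 := congrArg (wfEv D c) h0
  rw [map_add, map_sub, wfEv_lin, wfEv_xx, wfEv_xx, if_pos rfl, if_neg h, map_zero] at h1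
  norm_num at h1

lemma wf_ne2 (b : B D) (m : Fin D.rk → ℤ) : lin (YY D) m - xx D (Fin D.rk) b ≠ 0 := by
  intro h0
  have h1 := congrArg (wfEv D b) h0
  rw [map_sub, wfEv_lin, wfEv_xx, if_pos rfl, map_zero] at h1
  norm_num at h1

end wfaux

/-- the weights of `N` -/
noncomputable def wF : Wts D (Fin D.rk) where
  h b c := ∏ a with D.src a = b.1 ∧ D.tgt a = c.1,
    (xx D (Fin D.rk) c - xx D (Fin D.rk) b + lin (YY D) (D.ta a))
  z b := ∏ k : Fin (D.w b.1), (lin (YY D) (D.tw b.1 k) - xx D (Fin D.rk) b)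
  h_act := by
    intro σ b c
    rw [map_prod]
    refine Finset.prod_congr rfl fun a _ => ?_
    rw [map_add, map_sub, wf_act_xx, wf_act_xx, wf_act_lin]
  z_act := by
    intro σ b
    rw [map_prod]
    refine Finset.prod_congr rfl fun k _ => ?_
    rw [map_sub, wf_act_xx, wf_act_lin]
    rfl
  h_ne := by
    intro b c hbc
    exact Finset.prod_ne_zero_iff.2 fun a _ => wf_ne1 D b c hbc _
  z_ne := by
    intro b
    exact Finset.prod_ne_zero_iff.2 fun k _ => wf_ne2 D b _

section wfaux2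

lemma wf_prod_fib {M : Type} [CommMonoid M] (i0 : D.I) (g : B D → M) :
    ∏ b : B D, (if i0 = b.1 then g b else 1) = ∏ r : Fin (D.v i0), g ⟨i0, r⟩ := by
  rw [Fintype.prod_sigma]
  have h : ∀ i : D.I, (∏ r : Fin (D.v i), (if i0 = i then g ⟨i, r⟩ else 1)) =
      if i0 = i then ∏ r : Fin (D.v i), g ⟨i, r⟩ else 1 := by
    intro i
    split_ifs
    · rfl
    · exact Finset.prod_const_one
  rw [Finset.prod_congr rfl fun i _ => h i, Finset.prod_ite_eq, if_pos (Finset.mem_univ _)]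

/-- the first factor of `eul` -/
noncomputable def wfE (l : B D → ℤ) : P D :=
  ∏ a, ∏ r, ∏ s, (XX D ⟨D.tgt a, s⟩ - XX D ⟨D.src a, r⟩ + lin (YY D) (D.ta a)) ^
      (l ⟨D.src a, r⟩ - l ⟨D.tgt a, s⟩).toNat

/-- the second factor of `eul` -/
noncomputable def wfZ (l : B D → ℤ) : P D :=
  ∏ i, ∏ r, ∏ k, (lin (YY D) (D.tw i k) - XX D ⟨i, r⟩) ^ (l ⟨i, r⟩).toNat

lemma wf_eul (l : B D → ℤ) : eul D (XX D) (YY D) l = wfE D l * wfZ D l := rfl

lemma wfE_eq (l : B D → ℤ) : wfE D l = ∏ b : B D, ∏ c : B D, ∏ a,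
    if D.src a = b.1 ∧ D.tgt a = c.1 then
      (XX D c - XX D b + lin (YY D) (D.ta a)) ^ (l b - l c).toNat else 1 := by
  have h1 : ∀ a, (∏ r, ∏ s, (XX D ⟨D.tgt a, s⟩ - XX D ⟨D.src a, r⟩ + lin (YY D) (D.ta a)) ^
      (l ⟨D.src a, r⟩ - l ⟨D.tgt a, s⟩).toNat) = ∏ b : B D, ∏ c : B D,
      if D.src a = b.1 ∧ D.tgt a = c.1 then
        (XX D c - XX D b + lin (YY D) (D.ta a)) ^ (l b - l c).toNat else 1 := by
    intro a
    rw [← wf_prod_fib D (D.src a) fun b => ∏ s,
      (XX D ⟨D.tgt a, s⟩ - XX D b + lin (YY D) (D.ta a)) ^ (l b - l ⟨D.tgt a, s⟩).toNat]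
    refine Finset.prod_congr rfl fun b _ => ?_
    by_cases hb : D.src a = b.1
    · rw [if_pos hb, ← wf_prod_fib D (D.tgt a) fun c =>
        (XX D c - XX D b + lin (YY D) (D.ta a)) ^ (l b - l c).toNat]
      refine Finset.prod_congr rfl fun c _ => ?_
      exact if_congr (by simp [hb]) rfl rfl
    · rw [if_neg hb]
      symm
      exact Finset.prod_eq_one fun c _ => if_neg fun h => hb h.1
  unfold wfE
  rw [Finset.prod_congr rfl fun a _ => h1 a, Finset.prod_comm]
  refine Finset.prod_congr rfl fun b _ => ?_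
  rw [Finset.prod_comm]

lemma wfE_ind (A : Finset (B D)) : wfE D (ind D A) = e (wF D) A := by
  rw [wfE_eq]
  have h1 : ∀ b c : B D, (∏ a, if D.src a = b.1 ∧ D.tgt a = c.1 then
      (XX D c - XX D b + lin (YY D) (D.ta a)) ^ (ind D A b - ind D A c).toNat else 1) =
      if b ∈ A then (if c ∈ Aᶜ then (wF D).h b c else 1) else 1 := by
    intro b c
    by_cases hb : b ∈ A
    · by_cases hc : c ∈ A
      · have hc' : c ∉ Aᶜ := by simpa using hc
        rw [if_pos hb, if_neg hc', ind, ind, if_pos hb, if_pos hc]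
        exact Finset.prod_eq_one fun a _ => by simp
      · have hc' : c ∈ Aᶜ := by simpa using hc
        rw [if_pos hb, if_pos hc', ind, ind, if_pos hb, if_neg hc]
        have h2 : ((1 : ℤ) - 0).toNat = 1 := rfl
        rw [h2]
        simp only [pow_one]
        exact (Finset.prod_filter _ _).symm
    · rw [if_neg hb, ind, if_neg hb]
      have h2 : ((0 : ℤ) - ind D A c).toNat = 0 := by
        unfold ind
        split_ifs <;> rfl
      rw [h2]
      exact Finset.prod_eq_one fun a _ => by simp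
  have h3 : ∀ b : B D, (∏ c : B D, if b ∈ A then (if c ∈ Aᶜ then (wF D).h b c else 1) else 1) =
      if b ∈ A then ∏ c ∈ Aᶜ, (wF D).h b c else 1 := by
    intro b
    split_ifs
    · rw [Finset.prod_ite_mem, Finset.univ_inter]
    · exact Finset.prod_const_one
  rw [Finset.prod_congr rfl fun b _ => Finset.prod_congr rfl fun c _ => h1 b c,
    Finset.prod_congr rfl fun b _ => h3 b, Finset.prod_ite_mem, Finset.univ_inter]
  rfl

lemma wfZ_ind (A : Finset (B D)) : wfZ D (ind D A) = zs (wF D) A := by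
  have h1 : wfZ D (ind D A) = ∏ b : B D, ∏ k : Fin (D.w b.1),
      (lin (YY D) (D.tw b.1 k) - XX D b) ^ (ind D A b).toNat := by
    rw [Fintype.prod_sigma]
    rfl
  have h2 : ∀ b : B D, (∏ k : Fin (D.w b.1),
      (lin (YY D) (D.tw b.1 k) - XX D b) ^ (ind D A b).toNat) =
      if b ∈ A then (wF D).z b else 1 := by
    intro b
    by_cases hb : b ∈ A
    · rw [if_pos hb, ind, if_pos hb]
      have h2 : (1 : ℤ).toNat = 1 := rfl
      rw [h2]
      simp only [pow_one]
      rfl
    · rw [if_neg hb, ind, if_neg hb]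
      exact Finset.prod_eq_one fun a _ => by simp
  rw [h1, Finset.prod_congr rfl fun b _ => h2 b, Finset.prod_ite_mem, Finset.univ_inter]
  rfl

end wfaux2

lemma eul_ind (A : Finset (B D)) : eul D (XX D) (YY D) (ind D A) = e (wF D) A * zs (wF D) A := by
  rw [wf_eul, wfE_ind, wfZ_ind]

lemma eul_neg_ind (A : Finset (B D)) : eul D (XX D) (YY D) (-ind D A) = e (wF D) Aᶜ := by
  rw [wf_eul, ← wfE_ind]
  have h1 : ∀ b, (-ind D A) b = ind D Aᶜ b - 1 := by
    intro b
    rw [Pi.neg_apply, ind, ind]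
    by_cases hb : b ∈ A
    · have : b ∉ Aᶜ := by simpa using hb
      rw [if_pos hb, if_neg this]; norm_num
    · have : b ∈ Aᶜ := by simpa using hb
      rw [if_neg hb, if_pos this]; norm_num
  have h2 : wfE D (-ind D A) = wfE D (ind D Aᶜ) := by
    unfold wfE
    simp only [h1, sub_sub_sub_cancel_right]
  have h3 : wfZ D (-ind D A) = 1 := by
    unfold wfZ
    refine Finset.prod_eq_one fun i _ => Finset.prod_eq_one fun r _ =>
      Finset.prod_eq_one fun k _ => ?_
    have h4 : ((-ind D A) ⟨i, r⟩).toNat = 0 := by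
      rw [Pi.neg_apply, ind]
      split_ifs <;> rfl
    rw [h4, pow_zero]
  rw [h2, h3, mul_one]

end Vale.Agent.P291.H
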