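import Vale.Agent.P291.H.Basic
import Vale.Agent.P291.H.WF

set_option autoImplicit false
set_option linter.unusedSectionVars false

/-! Step B (lifting the quadratic relations to the quantum level): definitions. -/

namespace Vale.Agent.P291.H

open MvPolynomial Vale.Agent.P291.G

variable (D : QData)

/-- flavor variables: one for every arrow, one for every framing vector, `ħ`, coordinates of `F` -/
abbrev ZZ : Type := (D.A ⊕ (Σ i : D.I, Fin (D.w i))) ⊕ (Unit ⊕ Fin D.rk)

/-- variable of an arrow -/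
noncomputable def tv (a : D.A) : S D (ZZ D) := X (Sum.inr (Sum.inl (Sum.inl a)))
/-- variable of a framing vector -/
noncomputable def zv (i : D.I) (k : Fin (D.w i)) : S D (ZZ D) :=
  X (Sum.inr (Sum.inl (Sum.inr ⟨i, k⟩)))
/-- `ħ` -/
noncomputable def hb : S D (ZZ D) := X (Sum.inr (Sum.inr (Sum.inl ())))

/-- gauge variable in the big ring -/
noncomputable abbrev xq (b : B D) : S D (ZZ D) := xx D (ZZ D) b

/-- product of the arrow weights from `b` to `c`, shifted by `s` -/
noncomputable def hq (b c : B D) (s : S D (ZZ D)) : S D (ZZ D) :=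
  ∏ a with D.src a = b.1 ∧ D.tgt a = c.1, (xq D c - xq D b + tv D a + s)

/-- product of the framing weights at `b`, shifted by `s` -/
noncomputable def zq (b : B D) (s : S D (ZZ D)) : S D (ZZ D) :=
  ∏ k : Fin (D.w b.1), (zv D b.1 k - xq D b + s)

noncomputable def g0 (a b : B D) : S D (ZZ D) := if a.1 = b.1 then xq D a - xq D b else 1
noncomputable def g1 (a b : B D) : S D (ZZ D) := if a.1 = b.1 then xq D a - xq D b + hb D else 1

/-- weight of a pair of basis vectors, `i`, `j` tell whether they are in `K` -/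
noncomputable def pw (p q : B D) (i j : Bool) : S D (ZZ D) :=
  match i, j with
  | true, false => hq D p q 0 * g1 D p q
  | false, true => hq D p q (-hb D) * g0 D p q
  | _, _ => g0 D p q * g1 D p q

/-- unfolding of `pw` (this also makes Lean generate the equations of `pw` here) -/
lemma pw_eqs (p q : B D) (i : Bool) : pw D p q i i = g0 D p q * g1 D p q := by
  cases i <;> simp only [pw]

/-- weight of `K ⊆ N` -/
noncomputable def ww (N K : Finset (B D)) : S D (ZZ D) :=
  ∏ p ∈ N, ∏ q ∈ N.erase p, pw D p q (decide (p ∈ K)) (decide (q ∈ K))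

/-- product of the roots of `N` -/
noncomputable def Om (N : Finset (B D)) : S D (ZZ D) :=
  ∏ p ∈ N, ∏ q ∈ N.erase p, g0 D p q * g1 D p q

/-- the substitution `x b ↦ x b + s` for `b ∈ A` -/
noncomputable def sh (s : S D (ZZ D)) (A : Finset (B D)) : S D (ZZ D) →ₐ[ℂ] S D (ZZ D) :=
  aeval (Sum.elim (fun b => if b ∈ A then xq D b + s else xq D b) fun z => X (Sum.inr z))

/-- equivariant families of type `n` -/
def EF (n : D.I → ℕ) (f : Finset (B D) → S D (ZZ D)) : Prop :=
  (∀ σ A, act D (ZZ D) σ (f A) = f (mp D σ A)) ∧ ∀ A, typ D A ≠ n → f A = 0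

/-- a product of a positive and a negative operator -/
structure Dat where
  n : D.I → ℕ
  f : Finset (B D) → S D (ZZ D)
  g : Finset (B D) → S D (ZZ D)
  hf : EF D n f
  hg : EF D n g
  hn : n ≠ 0

/-- numerator of the contribution of `K` to the coefficient of `u^(D1 - D2)`; the order of the
product is `E F` if `ν·n < 0` and `F E` otherwise -/
noncomputable def Term (ν : D.I → ℤ) (d : Dat D) (D1 D2 K : Finset (B D)) : S D (ZZ D) :=
  if ∑ i, ν i * d.n i < 0 then
    d.f (D1 ∪ K) * sh D (-hb D) (D1 ∪ K) (d.g (D2 ∪ K)) * (∏ k ∈ K, zq D k 0) *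
      ww D (D1 ∪ D2)ᶜ K
  else
    d.g (D2 ∪ K) * sh D (hb D) (D2 ∪ K) (d.f (D1 ∪ K)) * (∏ k ∈ K, zq D k (-hb D)) *
      ww D (D1 ∪ D2)ᶜ ((D1 ∪ D2)ᶜ \ K)

/-- numerator of the coefficient of `u^(D1 - D2)` -/
noncomputable def Num (ν : D.I → ℤ) (L : List (Dat D)) (D1 D2 : Finset (B D)) : S D (ZZ D) :=
  (L.map fun d => ∑ K ∈ (D1 ∪ D2)ᶜ.powerset, Term D ν d D1 D2 K).sum

/-- specialization to `F` and `ħ = 0` -/
noncomputable def spec : S D (ZZ D) →ₐ[ℂ] S D (Fin D.rk) :=
  aeval (Sum.elim (fun b => xx D (Fin D.rk) b) (Sum.elim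
    (Sum.elim (fun a => lin (YY D) (D.ta a)) fun p => lin (YY D) (D.tw p.1 p.2))
    (Sum.elim (fun _ => 0) fun j => YY D j)))

/-- inclusion of the small ring -/
noncomputable def inc : S D (Fin D.rk) →ₐ[ℂ] S D (ZZ D) :=
  rename (Sum.map id fun j => Sum.inr (Sum.inr j))

/-- weight of the cocharacter `l` on the arrow part: `∏_{⟨χ,l⟩<0} χ ∏_{⟨χ,l⟩>0} (ħ - χ)` -/
noncomputable def elq (l : B D → ℤ) : S D (ZZ D) :=
  (∏ a, ∏ r, ∏ s, if l ⟨D.tgt a, s⟩ < l ⟨D.src a, r⟩ then
      xq D ⟨D.tgt a, s⟩ - xq D ⟨D.src a, r⟩ + tv D a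
    else if l ⟨D.src a, r⟩ < l ⟨D.tgt a, s⟩ then
      hb D - (xq D ⟨D.tgt a, s⟩ - xq D ⟨D.src a, r⟩ + tv D a) else 1) *
  ∏ i, ∏ r, ∏ k, if 0 < l ⟨i, r⟩ then zv D i k - xq D ⟨i, r⟩
    else if l ⟨i, r⟩ < 0 then hb D - (zv D i k - xq D ⟨i, r⟩) else 1

end Vale.Agent.P291.H
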