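import Vale.Agent.P291.H.BDefs

set_option autoImplicit false
set_option linter.unusedSectionVars false

/-! The numerators at `x b = x a + ħ`. -/

namespace Vale.Agent.P291.H

open MvPolynomial Vale.Agent.P291.G

variable (D : QData)

/-- the substitution `x b ↦ x a + ħ` -/
noncomputable def sb (a b : B D) : S D (ZZ D) →ₐ[ℂ] S D (ZZ D) :=
  aeval (Sum.elim (fun c => if c = b then xq D a + hb D else xq D c) fun z => X (Sum.inr z))

lemma sb_xq (a b c : B D) : sb D a b (xq D c) = if c = b then xq D a + hb D else xq D c := by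
  change sb D a b (X (Sum.inl c)) = _
  rw [sb, aeval_X]; rfl

lemma sb_inr (a b : B D) (z : ZZ D) : sb D a b (X (Sum.inr z)) = X (Sum.inr z) := by
  rw [sb, aeval_X]; rfl

lemma sb_hb (a b : B D) : sb D a b (hb D) = hb D := sb_inr D a b _
lemma sb_tv (a b : B D) (t : D.A) : sb D a b (tv D t) = tv D t := sb_inr D a b _
lemma sb_zv (a b : B D) (i : D.I) (k : Fin (D.w i)) : sb D a b (zv D i k) = zv D i k :=
  sb_inr D a b _

lemma sb_xb (a b : B D) : sb D a b (xq D b) = xq D a + hb D := by rw [sb_xq, if_pos rfl]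

lemma sb_xc {a b c : B D} (h : c ≠ b) : sb D a b (xq D c) = xq D c := by rw [sb_xq, if_neg h]

/-- its kernel is generated by `x b - x a - ħ` -/
lemma sb_eq_zero {a b : B D} (hab : a ≠ b) {f : S D (ZZ D)} (h : sb D a b f = 0) :
    (xq D a - xq D b + hb D) ∣ f := by
  rw [← Ideal.mem_span_singleton]
  set I : Ideal (S D (ZZ D)) := Ideal.span {xq D a - xq D b + hb D} with hI
  have hb1 : (Ideal.Quotient.mkₐ ℂ I) (xq D a + hb D) = (Ideal.Quotient.mkₐ ℂ I) (xq D b) := by
    rw [Ideal.Quotient.mkₐ_eq_mk, Ideal.Quotient.eq]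
    have : xq D a + hb D - xq D b = xq D a - xq D b + hb D := by ring
    rw [this]
    exact Ideal.mem_span_singleton_self _
  have h1 : (Ideal.Quotient.mkₐ ℂ I).comp (sb D a b) = Ideal.Quotient.mkₐ ℂ I := by
    apply MvPolynomial.algHom_ext
    intro t
    rw [AlgHom.comp_apply]
    rcases t with c | z
    · have e1 := sb_xq D a b c
      rw [xq, xx] at e1
      rw [e1]
      split_ifs with h2
      · rw [hb1, h2]; rfl
      · rfl
    · rw [sb_inr]
  have h4 : (Ideal.Quotient.mkₐ ℂ I) (sb D a b f) = (Ideal.Quotient.mkₐ ℂ I) f :=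
    DFunLike.congr_fun h1 f
  rw [h, map_zero, Ideal.Quotient.mkₐ_eq_mk] at h4
  exact Ideal.Quotient.eq_zero_iff_mem.1 h4.symm

/-- `x a - x b + ħ` is prime -/
lemma prime_hb (a b : B D) (hab : a ≠ b) : Prime (xq D a - xq D b + hb D) := by
  classical
  apply Irreducible.prime
  have hc : coeff (Finsupp.single (Sum.inl a) 1) (xq D a - xq D b + hb D) = 1 := by
    rw [coeff_add, coeff_sub, xq, xq, xx, xx, hb, coeff_X, coeff_X, coeff_X, if_pos rfl, if_neg,
      if_neg]
    · ring
    · rw [Finsupp.single_left_inj Nat.one_ne_zero]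
      simp
    · rw [Finsupp.single_left_inj Nat.one_ne_zero]
      intro h
      exact hab (Sum.inl_injective h).symm
  apply irreducible_of_totalDegree_eq_one
  · apply le_antisymm
    · refine (totalDegree_add _ _).trans (max_le ((totalDegree_sub _ _).trans ?_) ?_)
      · simp [xq, xx]
      · simp [hb]
    · rw [← not_lt, Nat.lt_one_iff, totalDegree_eq_zero_iff]
      intro h0
      have := h0 (Finsupp.single (Sum.inl a) 1)
        (by rw [mem_support_iff, hc]; exact one_ne_zero) (Sum.inl a)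
      simp at this
  · intro x hx
    have := hx (Finsupp.single (Sum.inl a) 1)
    rw [hc] at this
    exact isUnit_of_dvd_one this


/-- the common factor -/
noncomputable def cmf (N₀ : Finset (B D)) (a b : B D) : S D (ZZ D) :=
  (hq D a b (-hb D) * g0 D a b * (hq D b a 0 * g1 D b a)) * ∏ m ∈ N₀,
    (hq D m a 0 * hq D a m (-hb D) * (g0 D m a * g1 D m a) * (g0 D a m * g1 D a m) *
      (g0 D m b * g1 D b m))

lemma BSub_prod_insert {ι M : Type} [DecidableEq ι] [CommMonoid M] (F : ι → ι → M) (a : ι)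
    (N : Finset ι) (ha : a ∉ N) :
    ∏ p ∈ insert a N, ∏ q ∈ (insert a N).erase p, F p q =
      (∏ m ∈ N, F a m * F m a) * ∏ p ∈ N, ∏ q ∈ N.erase p, F p q := by
  have h1 : ∏ p ∈ N, ∏ q ∈ (insert a N).erase p, F p q =
      ∏ p ∈ N, (F p a * ∏ q ∈ N.erase p, F p q) := by
    refine Finset.prod_congr rfl fun p hp => ?_
    have hpa : p ≠ a := by rintro rfl; exact ha hp
    rw [Finset.erase_insert_of_ne hpa.symm, Finset.prod_insert]
    intro h
    exact ha (Finset.mem_of_mem_erase h)
  rw [Finset.prod_insert ha, Finset.erase_insert ha, h1, Finset.prod_mul_distrib,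
    Finset.prod_mul_distrib, mul_assoc]

lemma BSub_hq {a b m : B D} (hab : a ≠ b) (hv : a.1 = b.1) (hmb : m ≠ b) :
    sb D a b (hq D b m 0) = sb D a b (hq D a m (-hb D)) := by
  unfold hq
  rw [hv, map_prod, map_prod]
  refine Finset.prod_congr rfl fun t _ => ?_
  simp only [map_add, map_sub, map_neg, map_zero, sb_xb, sb_xc D hmb, sb_xc D hab, sb_tv, sb_hb]
  ring

lemma BSub_hq' {a b m : B D} (hab : a ≠ b) (hv : a.1 = b.1) (hmb : m ≠ b) :
    sb D a b (hq D m b (-hb D)) = sb D a b (hq D m a 0) := by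
  unfold hq
  rw [hv, map_prod, map_prod]
  refine Finset.prod_congr rfl fun t _ => ?_
  simp only [map_add, map_sub, map_neg, map_zero, sb_xb, sb_xc D hmb, sb_xc D hab, sb_tv, sb_hb]
  ring

lemma BSub_g0b {a b m : B D} (hab : a ≠ b) (hv : a.1 = b.1) (hmb : m ≠ b) :
    sb D a b (g0 D b m) = sb D a b (g1 D a m) := by
  unfold g0 g1
  rw [hv]
  split_ifs
  · simp only [map_add, map_sub, sb_xb, sb_xc D hmb, sb_xc D hab, sb_hb]
    ring
  · rfl

lemma BSub_g1b {a b m : B D} (hab : a ≠ b) (hv : a.1 = b.1) (hmb : m ≠ b) :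
    sb D a b (g1 D m b) = sb D a b (g0 D m a) := by
  unfold g0 g1
  rw [hv]
  split_ifs
  · simp only [map_add, map_sub, sb_xb, sb_xc D hmb, sb_xc D hab, sb_hb]
    ring
  · rfl

lemma BSub_pw {a b m : B D} (hab : a ≠ b) (hv : a.1 = b.1) (hmb : m ≠ b) (i : Bool) :
    sb D a b (pw D b m true i * pw D m b i true * (pw D a m false i * pw D m a i false)) =
      sb D a b (hq D m a 0 * hq D a m (-hb D) * (g0 D m a * g1 D m a) * (g0 D a m * g1 D a m) *
        (g0 D m b * g1 D b m)) := by
  have e1 := BSub_hq D hab hv hmb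
  have e2 := BSub_hq' D hab hv hmb
  have e3 := BSub_g0b D hab hv hmb
  have e4 := BSub_g1b D hab hv hmb
  cases i
  · simp only [pw, map_mul, e1, e2]
    ring
  · simp only [pw, map_mul, e3, e4]
    ring

lemma sb_ww {N₀ K₀ : Finset (B D)} {a b : B D} (hab : a ≠ b) (hv : a.1 = b.1) (ha : a ∉ N₀)
    (hb' : b ∉ N₀) (hK : K₀ ⊆ N₀) :
    sb D a b (ww D (insert a (insert b N₀)) (insert b K₀)) =
      sb D a b (cmf D N₀ a b) * sb D a b (ww D N₀ K₀) := by
  have haK : a ∉ insert b K₀ := by
    rw [Finset.mem_insert]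
    rintro (h | h)
    · exact hab h
    · exact ha (hK h)
  have hbK : b ∈ insert b K₀ := Finset.mem_insert_self _ _
  have haN : a ∉ insert b N₀ := by
    rw [Finset.mem_insert]
    rintro (h | h)
    · exact hab h
    · exact ha h
  have hmem : ∀ m ∈ N₀, (m ∈ insert b K₀ ↔ m ∈ K₀) := by
    intro m hm
    rw [Finset.mem_insert]
    constructor
    · rintro (h | h)
      · exact absurd (h ▸ hm) hb'
      · exact h
    · exact Or.inr
  have e0 : ∏ p ∈ N₀, ∏ q ∈ N₀.erase p,
      pw D p q (decide (p ∈ insert b K₀)) (decide (q ∈ insert b K₀)) = ww D N₀ K₀ := by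
    refine Finset.prod_congr rfl fun p hp => Finset.prod_congr rfl fun q hq' => ?_
    rw [decide_eq_decide.2 (hmem p hp),
      decide_eq_decide.2 (hmem q (Finset.mem_of_mem_erase hq'))]
  have e1 : decide (a ∈ insert b K₀) = false := decide_eq_false haK
  have e2 : decide (b ∈ insert b K₀) = true := decide_eq_true hbK
  have e3 : ww D (insert a (insert b N₀)) (insert b K₀) =
      (hq D a b (-hb D) * g0 D a b * (hq D b a 0 * g1 D b a)) *
      (∏ m ∈ N₀, (pw D b m true (decide (m ∈ insert b K₀)) *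
        pw D m b (decide (m ∈ insert b K₀)) true *
        (pw D a m false (decide (m ∈ insert b K₀)) *
          pw D m a (decide (m ∈ insert b K₀)) false))) * ww D N₀ K₀ := by
    have h := BSub_prod_insert (fun p q => pw D p q (decide (p ∈ insert b K₀))
      (decide (q ∈ insert b K₀))) a (insert b N₀) haN
    have h' := BSub_prod_insert (fun p q => pw D p q (decide (p ∈ insert b K₀))
      (decide (q ∈ insert b K₀))) b N₀ hb'
    unfold ww at e0 ⊢
    have e6 : pw D a b false true = hq D a b (-hb D) * g0 D a b := rfl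
    have e7 : pw D b a true false = hq D b a 0 * g1 D b a := rfl
    have e8 : (∏ m ∈ N₀, (pw D b m true (decide (m ∈ insert b K₀)) *
        pw D m b (decide (m ∈ insert b K₀)) true *
        (pw D a m false (decide (m ∈ insert b K₀)) *
          pw D m a (decide (m ∈ insert b K₀)) false))) =
        (∏ m ∈ N₀, pw D b m true (decide (m ∈ insert b K₀)) *
        pw D m b (decide (m ∈ insert b K₀)) true) *
        ∏ m ∈ N₀, (pw D a m false (decide (m ∈ insert b K₀)) *
          pw D m a (decide (m ∈ insert b K₀)) false) := Finset.prod_mul_distrib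
    rw [h, h', Finset.prod_insert hb', e0, e1, e2, e8, e6, e7]
    ring
  have e5 : sb D a b (∏ m ∈ N₀, (pw D b m true (decide (m ∈ insert b K₀)) *
        pw D m b (decide (m ∈ insert b K₀)) true *
        (pw D a m false (decide (m ∈ insert b K₀)) *
          pw D m a (decide (m ∈ insert b K₀)) false))) =
      sb D a b (∏ m ∈ N₀, (hq D m a 0 * hq D a m (-hb D) * (g0 D m a * g1 D m a) *
        (g0 D a m * g1 D a m) * (g0 D m b * g1 D b m))) := by
    rw [map_prod, map_prod]
    refine Finset.prod_congr rfl fun m hm => ?_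
    apply BSub_pw D hab hv
    rintro rfl
    exact hb' hm
  rw [e3, cmf]
  generalize hq D a b (-hb D) * g0 D a b * (hq D b a 0 * g1 D b a) = P
  rw [map_mul, map_mul, e5, map_mul]

/-- the other weights vanish: the factor `g1 a b` -/
lemma sb_ww_zero {N K : Finset (B D)} {a b : B D} (hab : a ≠ b) (hv : a.1 = b.1) (ha : a ∈ N)
    (hb' : b ∈ N) (hK : ¬ (a ∉ K ∧ b ∈ K)) : sb D a b (ww D N K) = 0 := by
  have h1 : sb D a b (g1 D a b) = 0 := by
    rw [g1, if_pos hv]
    simp only [map_add, map_sub, sb_xb, sb_xc D hab, sb_hb]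
    ring
  have h2 : sb D a b (pw D a b (decide (a ∈ K)) (decide (b ∈ K))) = 0 := by
    by_cases haK : a ∈ K
    · by_cases hbK : b ∈ K
      · simp [pw, haK, hbK, h1]
      · simp [pw, haK, hbK, h1]
    · by_cases hbK : b ∈ K
      · exact absurd ⟨haK, hbK⟩ hK
      · simp [pw, haK, hbK, h1]
  unfold ww
  rw [map_prod]
  apply Finset.prod_eq_zero ha
  rw [map_prod]
  exact Finset.prod_eq_zero (Finset.mem_erase.2 ⟨hab.symm, hb'⟩) h2


lemma BSub_sh_xq (s : S D (ZZ D)) (A : Finset (B D)) (c : B D) :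
    sh D s A (xq D c) = if c ∈ A then xq D c + s else xq D c := by
  change sh D s A (X (Sum.inl c)) = _
  rw [sh, aeval_X]; rfl

lemma BSub_sh_inr (s : S D (ZZ D)) (A : Finset (B D)) (z : ZZ D) :
    sh D s A (X (Sum.inr z)) = X (Sum.inr z) := by
  rw [sh, aeval_X]; rfl

lemma BSub_act_inr (σ : W D) (z : ZZ D) :
    act D (ZZ D) σ (X (Sum.inr z)) = X (Sum.inr z) := by
  rw [act, rename_X]; rfl

/-- a Weyl group element which swaps `a` and `b` -/
lemma BSub_swap {a b : B D} (hab : a ≠ b) (hv : a.1 = b.1) :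
    ∃ σ : W D, perm D σ = Equiv.swap a b := by
  obtain ⟨i, r⟩ := a
  obtain ⟨j, s⟩ := b
  simp only at hv
  subst hv
  exact ⟨tr D i r s, perm_tr D i r s⟩

lemma BSub_mp {a b : B D} {σ : W D} (hσ : perm D σ = Equiv.swap a b) {C : Finset (B D)}
    (ha' : a ∉ C) (hb'' : b ∉ C) : mp D σ (insert a C) = insert b C := by
  have h0 : mp D σ C = C := by
    ext c
    rw [mem_mp', hσ, Equiv.symm_swap, Equiv.swap_apply_def]
    split_ifs with h1 h2
    · subst h1; exact ⟨fun h => absurd h hb'', fun h => absurd h ha'⟩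
    · subst h2; exact ⟨fun h => absurd h ha', fun h => absurd h hb''⟩
    · rfl
  have h1 : mp D σ (insert a C) = insert (perm D σ a) (mp D σ C) := by
    unfold mp
    rw [Finset.map_insert]
    rfl
  rw [h1, h0, hσ, Equiv.swap_apply_left]

/-- composite with the shifts: if `b ∈ A`, `a ∉ A` then at `x b = x a + ħ` the shifted polynomials
of an equivariant family at `C ∪ b` and `C ∪ a` agree -/
lemma sb_sh_neg {n : D.I → ℕ} {g : Finset (B D) → S D (ZZ D)} (hg : EF D n g)
    {A C : Finset (B D)} {a b : B D} (hab : a ≠ b) (hv : a.1 = b.1) (ha : a ∉ A) (hb' : b ∈ A)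
    (ha' : a ∉ C) (hb'' : b ∉ C) :
    sb D a b (sh D (-hb D) A (g (insert b C))) = sb D a b (sh D (-hb D) A (g (insert a C))) := by
  obtain ⟨σ, hσ⟩ := BSub_swap D hab hv
  rw [← BSub_mp D hσ ha' hb'', ← hg.1 σ (insert a C)]
  have h1 : ((sb D a b).comp (sh D (-hb D) A)).comp (act D (ZZ D) σ) =
      (sb D a b).comp (sh D (-hb D) A) := by
    apply MvPolynomial.algHom_ext
    intro t
    rw [AlgHom.comp_apply, AlgHom.comp_apply, AlgHom.comp_apply]
    rcases t with c | z
    · change sb D a b (sh D (-hb D) A (act D (ZZ D) σ (xq D c))) =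
        sb D a b (sh D (-hb D) A (xq D c))
      rw [act_xx, hσ, Equiv.swap_apply_def]
      split_ifs with h1 h2
      · subst h1
        rw [BSub_sh_xq, BSub_sh_xq, if_pos hb', if_neg ha, map_add, map_neg, sb_xb, sb_hb,
          sb_xc D hab]
        ring
      · subst h2
        rw [BSub_sh_xq, BSub_sh_xq, if_pos hb', if_neg ha, map_add, map_neg, sb_xb, sb_hb,
          sb_xc D hab]
        ring
      · rfl
    · rw [BSub_act_inr]
  exact DFunLike.congr_fun h1 (g (insert a C))

lemma sb_sh_pos {n : D.I → ℕ} {g : Finset (B D) → S D (ZZ D)} (hg : EF D n g)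
    {A C : Finset (B D)} {a b : B D} (hab : a ≠ b) (hv : a.1 = b.1) (ha : a ∈ A) (hb' : b ∉ A)
    (ha' : a ∉ C) (hb'' : b ∉ C) :
    sb D a b (sh D (hb D) A (g (insert a C))) = sb D a b (sh D (hb D) A (g (insert b C))) := by
  obtain ⟨σ, hσ⟩ := BSub_swap D hab hv
  rw [← BSub_mp D hσ ha' hb'', ← hg.1 σ (insert a C)]
  have h1 : ((sb D a b).comp (sh D (hb D) A)).comp (act D (ZZ D) σ) =
      (sb D a b).comp (sh D (hb D) A) := by
    apply MvPolynomial.algHom_ext
    intro t
    rw [AlgHom.comp_apply, AlgHom.comp_apply, AlgHom.comp_apply]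
    rcases t with c | z
    · change sb D a b (sh D (hb D) A (act D (ZZ D) σ (xq D c))) =
        sb D a b (sh D (hb D) A (xq D c))
      rw [act_xx, hσ, Equiv.swap_apply_def]
      split_ifs with h1 h2
      · subst h1
        rw [BSub_sh_xq, BSub_sh_xq, if_pos ha, if_neg hb', map_add, sb_xb, sb_hb,
          sb_xc D hab]
      · subst h2
        rw [BSub_sh_xq, BSub_sh_xq, if_pos ha, if_neg hb', map_add, sb_xb, sb_hb,
          sb_xc D hab]
      · rfl
    · rw [BSub_act_inr]
  exact (DFunLike.congr_fun h1 (g (insert a C))).symm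

lemma BSub_zq {a b : B D} (hab : a ≠ b) (hv : a.1 = b.1) :
    sb D a b (zq D a (-hb D)) = sb D a b (zq D b 0) := by
  obtain ⟨i, r⟩ := a
  obtain ⟨j, s⟩ := b
  simp only at hv
  subst hv
  unfold zq
  rw [map_prod, map_prod]
  refine Finset.prod_congr rfl fun k _ => ?_
  simp only [map_add, map_sub, map_neg, map_zero, sb_xb, sb_xc D hab, sb_hb, sb_zv]
  ring

/-- the sum over the subsets of `insert a (insert b N)` which contain `p` and not `q` -/
lemma BSub_sum {M ι : Type} [AddCommMonoid M] [DecidableEq ι] {a b : ι} {N : Finset ι}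
    (hab : a ≠ b) (ha : a ∉ N) (hb' : b ∉ N) (F : Finset ι → M) (G : Finset ι → M)
    (h0 : ∀ K ⊆ insert a (insert b N), ¬ (a ∉ K ∧ b ∈ K) → F K = 0)
    (h1 : ∀ K ⊆ N, F (insert b K) = G K) :
    ∑ K ∈ (insert a (insert b N)).powerset, F K = ∑ K ∈ N.powerset, G K := by
  have haN : a ∉ insert b N := by
    rw [Finset.mem_insert]
    rintro (h | h)
    · exact hab h
    · exact ha h
  rw [Finset.sum_powerset_insert haN, Finset.sum_powerset_insert hb']
  have e1 : ∑ K ∈ N.powerset, F K = 0 := by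
    apply Finset.sum_eq_zero
    intro K hK
    rw [Finset.mem_powerset] at hK
    apply h0
    · exact hK.trans ((Finset.subset_insert _ _).trans (Finset.subset_insert _ _))
    · rintro ⟨-, h⟩
      exact hb' (hK h)
  have e2 : ∑ K ∈ (insert b N).powerset, F (insert a K) = 0 := by
    apply Finset.sum_eq_zero
    intro K hK
    rw [Finset.mem_powerset] at hK
    apply h0
    · exact Finset.insert_subset_insert _ hK
    · rintro ⟨h, -⟩
      exact h (Finset.mem_insert_self _ _)
  rw [e1, e2, zero_add, add_zero]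
  refine Finset.sum_congr rfl fun K hK => ?_
  rw [Finset.mem_powerset] at hK
  exact h1 K hK

lemma BSub_term (ν : D.I → ℤ) (d : Dat D) {D1 D2 N : Finset (B D)} {a b : B D}
    (hab : a ≠ b) (hv : a.1 = b.1) (ha1 : a ∉ D1) (ha2 : a ∉ D2) (hb1 : b ∉ D1) (hb2 : b ∉ D2)
    (haN : a ∉ N) (hbN : b ∉ N) (hN : (D1 ∪ D2)ᶜ = insert a (insert b N))
    (hN' : (insert b D1 ∪ insert a D2)ᶜ = N) :
    ∑ K ∈ (D1 ∪ D2)ᶜ.powerset, sb D a b (Term D ν d D1 D2 K) =
      ∑ K ∈ ((insert b D1 ∪ insert a D2)ᶜ).powerset, sb D a b (zq D b 0 * cmf D N a b) *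
        sb D a b (Term D ν d (insert b D1) (insert a D2) K) := by
  have haM : a ∈ (D1 ∪ D2)ᶜ := by rw [hN]; simp
  have hbM : b ∈ (D1 ∪ D2)ᶜ := by rw [hN]; simp
  by_cases hs : ∑ i, ν i * d.n i < 0
  · rw [hN, hN']
    apply BSub_sum hab haN hbN
    · intro K hK hab'
      unfold Term
      rw [if_pos hs, map_mul, sb_ww_zero D hab hv haM hbM hab', mul_zero]
    · intro K hK
      have haK : a ∉ K := fun h => haN (hK h)
      have hbK : b ∉ K := fun h => hbN (hK h)
      unfold Term
      rw [if_pos hs, if_pos hs, hN, hN']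
      have e1 : D1 ∪ insert b K = insert b D1 ∪ K := by
        ext c; simp only [Finset.mem_union, Finset.mem_insert]; tauto
      have e2 : D2 ∪ insert b K = insert b (D2 ∪ K) := by
        ext c; simp only [Finset.mem_union, Finset.mem_insert]; tauto
      have e3 : insert a D2 ∪ K = insert a (D2 ∪ K) := by
        ext c; simp only [Finset.mem_union, Finset.mem_insert]; tauto
      have e4 := sb_sh_neg D d.hg (A := insert b D1 ∪ K) (C := D2 ∪ K) hab hv
        (by simp [hab, ha1, haK]) (by simp) (by simp [ha2, haK]) (by simp [hb2, hbK])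
      rw [e1, e2, e3, Finset.prod_insert hbK]
      simp only [map_mul]
      rw [e4, sb_ww D hab hv haN hbN hK]
      ring
  · have hswap : insert a (insert b N) = insert b (insert a N) := Finset.insert_comm _ _ _
    rw [hN, hN', hswap]
    apply BSub_sum hab.symm hbN haN
    · intro K hK hab'
      unfold Term
      rw [if_neg hs, map_mul, sb_ww_zero D hab hv haM hbM, mul_zero]
      rintro ⟨h1, h2⟩
      rw [Finset.mem_sdiff] at h1 h2
      apply hab'
      refine ⟨h2.2, ?_⟩
      by_contra h3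
      exact h1 ⟨haM, h3⟩
    · intro K hK
      have haK : a ∉ K := fun h => haN (hK h)
      have hbK : b ∉ K := fun h => hbN (hK h)
      unfold Term
      rw [if_neg hs, if_neg hs, hN, hN']
      have e1 : D2 ∪ insert a K = insert a D2 ∪ K := by
        ext c; simp only [Finset.mem_union, Finset.mem_insert]; tauto
      have e2 : D1 ∪ insert a K = insert a (D1 ∪ K) := by
        ext c; simp only [Finset.mem_union, Finset.mem_insert]; tauto
      have e3 : insert b D1 ∪ K = insert b (D1 ∪ K) := by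
        ext c; simp only [Finset.mem_union, Finset.mem_insert]; tauto
      have e4 := sb_sh_pos D d.hf (A := insert a D2 ∪ K) (C := D1 ∪ K) hab hv
        (by simp) (by simp [hab.symm, hb2, hbK]) (by simp [ha1, haK]) (by simp [hb1, hbK])
      have e5 : insert a (insert b N) \ insert a K = insert b (N \ K) := by
        ext c
        simp only [Finset.mem_sdiff, Finset.mem_insert, not_or]
        constructor
        · rintro ⟨h1 | h1 | h1, h2, h3⟩
          · exact absurd h1 h2
          · exact Or.inl h1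
          · exact Or.inr ⟨h1, h3⟩
        · rintro (h1 | ⟨h1, h2⟩)
          · subst h1
            exact ⟨Or.inr (Or.inl rfl), hab.symm, hbK⟩
          · exact ⟨Or.inr (Or.inr h1), fun h => haN (h ▸ h1), h2⟩
      rw [e1, e2, e3, e5, Finset.prod_insert haK]
      simp only [map_mul]
      rw [e4, sb_ww D hab hv haN hbN Finset.sdiff_subset, BSub_zq D hab hv]
      ring

/-- The numerator at `x b = x a + ħ` is a multiple of the numerator of `(D1 ∪ b, D2 ∪ a)`.
Terms with `E F` order: only `K = K₀ ∪ b`, `a ∉ K`; `F E` order: only `K = K₀ ∪ a`, `b ∉ K`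
(`sb_ww_zero`, for `F E` applied to `N \ K`). They are the terms `K₀` of `(D1 ∪ b, D2 ∪ a)`
times `sb (zq b 0) * sb (cmf N₀ a b)`, `N₀ = (D1 ∪ D2 ∪ {a, b})ᶜ`; note
`sb (zq b 0) = sb (zq a (-ħ))`. -/
theorem sb_Num (ν : D.I → ℤ) (L : List (Dat D)) {D1 D2 : Finset (B D)} {a b : B D}
    (hd : Disjoint D1 D2) (hab : a ≠ b)
    (hv : a.1 = b.1) (ha : a ∈ (D1 ∪ D2)ᶜ) (hb' : b ∈ (D1 ∪ D2)ᶜ) :
    sb D a b (Num D ν L D1 D2) =
      sb D a b (zq D b 0 * cmf D (insert b D1 ∪ insert a D2)ᶜ a b) *
        sb D a b (Num D ν L (insert b D1) (insert a D2)) := by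
  rw [Finset.mem_compl, Finset.mem_union, not_or] at ha hb'
  have h1 : (D1 ∪ D2)ᶜ = insert a (insert b (insert b D1 ∪ insert a D2)ᶜ) := by
    ext c
    simp only [Finset.mem_compl, Finset.mem_union, Finset.mem_insert, not_or]
    constructor
    · rintro ⟨h1, h2⟩
      by_cases h3 : c = a
      · exact Or.inl h3
      · by_cases h4 : c = b
        · exact Or.inr (Or.inl h4)
        · exact Or.inr (Or.inr ⟨⟨h4, h1⟩, h3, h2⟩)
    · rintro (h1 | h1 | h1)
      · subst h1; exact ha
      · subst h1; exact hb'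
      · exact ⟨h1.1.2, h1.2.2⟩
  have h2 := fun d => BSub_term D ν d hab hv ha.1 ha.2 hb'.1 hb'.2 (by simp) (by simp) h1 rfl
  unfold Num
  induction L with
  | nil => simp
  | cons d L ih =>
    rw [List.map_cons, List.sum_cons, List.map_cons, List.sum_cons, map_add, map_add, ih,
      map_sum, map_sum, h2 d, ← Finset.mul_sum]
    ring

end Vale.Agent.P291.H
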