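import Vale.Agent.P291.H.BSym
import Vale.Agent.P291.H.BSub

set_option autoImplicit false
set_option linter.unusedSectionVars false

/-! Divisibility of the numerators. -/

namespace Vale.Agent.P291.H

open MvPolynomial Vale.Agent.P291.G

variable (D : QData)

lemma pw_dvd_ww {N K : Finset (B D)} {a b : B D} (hab : a ≠ b) (ha : a ∈ N) (hb' : b ∈ N) :
    pw D a b (decide (a ∈ K)) (decide (b ∈ K)) ∣ ww D N K := by
  refine dvd_trans ?_ (Finset.dvd_prod_of_mem _ ha)
  exact Finset.dvd_prod_of_mem (fun q => pw D a q (decide (a ∈ K)) (decide (q ∈ K)))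
    (Finset.mem_erase.2 ⟨hab.symm, hb'⟩)

/-- every weight is divisible by `x a - x b` -/
lemma dvd_ww {N K : Finset (B D)} {a b : B D} (hab : a ≠ b) (hv : a.1 = b.1) (ha : a ∈ N)
    (hb' : b ∈ N) : (xq D a - xq D b) ∣ ww D N K := by
  by_cases h1 : a ∈ K
  · by_cases h2 : b ∈ K
    · refine dvd_trans ?_ (pw_dvd_ww D (K := K) hab ha hb')
      rw [decide_eq_true h1, decide_eq_true h2]
      show _ ∣ g0 D a b * g1 D a b
      rw [g0, if_pos hv]
      exact Dvd.intro _ rfl
    · refine dvd_trans ?_ (pw_dvd_ww D (K := K) hab.symm hb' ha)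
      rw [decide_eq_true h1, decide_eq_false h2]
      show _ ∣ hq D b a (-hb D) * g0 D b a
      rw [g0, if_pos hv.symm]
      exact dvd_mul_of_dvd_right ⟨-1, by ring⟩ _
  · refine dvd_trans ?_ (pw_dvd_ww D (K := K) hab ha hb')
    by_cases h2 : b ∈ K
    · rw [decide_eq_false h1, decide_eq_true h2]
      show _ ∣ hq D a b (-hb D) * g0 D a b
      rw [g0, if_pos hv]
      exact dvd_mul_of_dvd_right dvd_rfl _
    · rw [decide_eq_false h1, decide_eq_false h2]
      show _ ∣ g0 D a b * g1 D a b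
      rw [g0, if_pos hv]
      exact Dvd.intro _ rfl

/-! ### relatively prime linear forms -/

/-- the linear forms `x a - x b`, `x a - x b + ħ` -/
noncomputable def lf (a b : B D) (k : Bool) : S D (ZZ D) :=
  xq D a - xq D b + (if k = true then hb D else 0)

lemma lf_false (a b : B D) : lf D a b false = xq D a - xq D b := by
  rw [lf, if_neg Bool.false_ne_true, add_zero]

lemma lf_true (a b : B D) : lf D a b true = xq D a - xq D b + hb D := by
  rw [lf, if_pos rfl]

lemma lf_prime {a b : B D} (hab : a ≠ b) (k : Bool) : Prime (lf D a b k) := by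
  classical
  cases k
  · rw [lf_false]
    exact (GUfd.irreducible_sub (fun h => hab (Sum.inl_injective h))).prime
  · rw [lf_true]
    exact prime_hb D a b hab

lemma eval_lf (pt : B D ⊕ ZZ D → ℂ) (a b : B D) (k : Bool) :
    eval pt (lf D a b k) = pt (Sum.inl a) - pt (Sum.inl b) +
      (if k = true then pt (Sum.inr (Sum.inr (Sum.inl ()))) else 0) := by
  rw [lf, map_add, map_sub]
  have h1 : ∀ c : B D, eval pt (xq D c) = pt (Sum.inl c) := fun c => eval_X _
  have h2 : eval pt (hb D) = pt (Sum.inr (Sum.inr (Sum.inl ()))) := eval_X _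
  rw [h1, h1]
  split_ifs
  · rw [h2]
  · rw [map_zero]

lemma lf_not_dvd {a b c d : B D} {k l : Bool} (hcd : c ≠ d)
    (h1 : ¬ (c = a ∧ d = b ∧ k = l)) (h2 : ¬ (c = b ∧ d = a ∧ k = false ∧ l = false)) :
    ¬ lf D a b k ∣ lf D c d l := by
  rintro ⟨q, hq'⟩
  by_cases hc : c = a ∨ c = b
  · by_cases hd : d = a ∨ d = b
    · -- same pair
      by_cases hab : a = b
      · subst hab
        rcases hc with rfl | rfl <;> rcases hd with h | h <;> exact hcd h.symm
      let pt : B D ⊕ ZZ D → ℂ := Sum.elim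
        (fun e => if e = a then (if k = true then -1 else 0) else 0) (fun _ => 1)
      have h3 := congrArg (eval pt) hq'
      rw [map_mul, eval_lf, eval_lf] at h3
      have pa : pt (Sum.inl a) = if k = true then -1 else 0 := by simp [pt]
      have pb : pt (Sum.inl b) = 0 := by
        have : ¬ b = a := fun h => hab h.symm
        simp [pt, this]
      have ph : pt (Sum.inr (Sum.inr (Sum.inl ()))) = 1 := rfl
      rcases hc with rfl | rfl
      · rcases hd with rfl | rfl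
        · exact hcd rfl
        · rw [pa, pb, ph] at h3
          cases k <;> cases l <;> simp at h3 h1
      · rcases hd with rfl | rfl
        · rw [pa, pb, ph] at h3
          cases k <;> cases l <;> simp at h3 h2
        · exact hcd rfl
    · let pt : B D ⊕ ZZ D → ℂ := Sum.elim (fun e => if e = d then 1 else 0) (fun _ => 0)
      have h3 := congrArg (eval pt) hq'
      rw [map_mul, eval_lf, eval_lf] at h3
      have pa : pt (Sum.inl a) = 0 := by
        have : ¬ a = d := fun h => hd (Or.inl h.symm)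
        simp [pt, this]
      have pb : pt (Sum.inl b) = 0 := by
        have : ¬ b = d := fun h => hd (Or.inr h.symm)
        simp [pt, this]
      have pc : pt (Sum.inl c) = 0 := by simp [pt, hcd]
      have pd : pt (Sum.inl d) = 1 := by simp [pt]
      have ph : pt (Sum.inr (Sum.inr (Sum.inl ()))) = 0 := rfl
      rw [pa, pb, pc, pd, ph] at h3
      simp at h3
  · let pt : B D ⊕ ZZ D → ℂ := Sum.elim (fun e => if e = c then 1 else 0) (fun _ => 0)
    have h3 := congrArg (eval pt) hq'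
    rw [map_mul, eval_lf, eval_lf] at h3
    have pa : pt (Sum.inl a) = 0 := by
      have : ¬ a = c := fun h => hc (Or.inl h.symm)
      simp [pt, this]
    have pb : pt (Sum.inl b) = 0 := by
      have : ¬ b = c := fun h => hc (Or.inr h.symm)
      simp [pt, this]
    have pc : pt (Sum.inl c) = 1 := by simp [pt]
    have pd : pt (Sum.inl d) = 0 := by simp [pt, hcd.symm]
    have ph : pt (Sum.inr (Sum.inr (Sum.inl ()))) = 0 := rfl
    rw [pa, pb, pc, pd, ph] at h3
    simp at h3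

lemma lf_relPrime {a b c d : B D} {k l : Bool} (hab : a ≠ b) (hcd : c ≠ d)
    (h1 : ¬ (c = a ∧ d = b ∧ k = l)) (h2 : ¬ (c = b ∧ d = a ∧ k = false ∧ l = false)) :
    IsRelPrime (lf D a b k) (lf D c d l) :=
  (lf_prime D hab k).irreducible.isRelPrime_iff_not_dvd.2 (lf_not_dvd D hcd h1 h2)

/-- all factors of a pair -/
noncomputable def TT (a b : B D) : S D (ZZ D) := (g0 D a b * g1 D a b) * (g0 D b a * g1 D b a)

lemma TT_pos {a b : B D} (hv : a.1 = b.1) :
    TT D a b = (lf D a b false * lf D a b true) * (lf D b a false * lf D b a true) := by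
  rw [TT, g0, g1, g0, g1, if_pos hv, if_pos hv, if_pos hv.symm, if_pos hv.symm, lf_false, lf_true,
    lf_false, lf_true]

lemma TT_neg {a b : B D} (hv : a.1 ≠ b.1) : TT D a b = 1 := by
  rw [TT, g0, g1, g0, g1, if_neg hv, if_neg hv, if_neg (Ne.symm hv), if_neg (Ne.symm hv)]
  ring

lemma TT_relPrime {a b c d : B D} (hab : a ≠ b) (hcd : c ≠ d)
    (hne : ¬ ((c = a ∧ d = b) ∨ (c = b ∧ d = a))) : IsRelPrime (TT D a b) (TT D c d) := by
  by_cases h1 : a.1 = b.1
  swap
  · rw [TT_neg D h1]; exact isRelPrime_one_left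
  by_cases h2 : c.1 = d.1
  swap
  · rw [TT_neg D h2]; exact isRelPrime_one_right
  rw [TT_pos D h1, TT_pos D h2]
  have e1 : ∀ k l, IsRelPrime (lf D a b k) (lf D c d l) := fun k l =>
    lf_relPrime D hab hcd (fun h => hne (Or.inl ⟨h.1, h.2.1⟩)) (fun h => hne (Or.inr ⟨h.1, h.2.1⟩))
  have e2 : ∀ k l, IsRelPrime (lf D a b k) (lf D d c l) := fun k l =>
    lf_relPrime D hab hcd.symm (fun h => hne (Or.inr ⟨h.2.1, h.1⟩))
      (fun h => hne (Or.inl ⟨h.2.1, h.1⟩))
  have e3 : ∀ k l, IsRelPrime (lf D b a k) (lf D c d l) := fun k l =>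
    lf_relPrime D hab.symm hcd (fun h => hne (Or.inr ⟨h.1, h.2.1⟩))
      (fun h => hne (Or.inl ⟨h.1, h.2.1⟩))
  have e4 : ∀ k l, IsRelPrime (lf D b a k) (lf D d c l) := fun k l =>
    lf_relPrime D hab.symm hcd.symm (fun h => hne (Or.inl ⟨h.2.1, h.1⟩))
      (fun h => hne (Or.inr ⟨h.2.1, h.1⟩))
  have f1 : ∀ k, IsRelPrime (lf D a b k)
      ((lf D c d false * lf D c d true) * (lf D d c false * lf D d c true)) := fun k =>
    ((e1 k _).mul_right (e1 k _)).mul_right ((e2 k _).mul_right (e2 k _))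
  have f2 : ∀ k, IsRelPrime (lf D b a k)
      ((lf D c d false * lf D c d true) * (lf D d c false * lf D d c true)) := fun k =>
    ((e3 k _).mul_right (e3 k _)).mul_right ((e4 k _).mul_right (e4 k _))
  exact ((f1 _).mul_left (f1 _)).mul_left ((f2 _).mul_left (f2 _))

lemma TT_dvd {a b : B D} (hab : a ≠ b) {f : S D (ZZ D)}
    (h0 : a.1 = b.1 → (xq D a - xq D b) ^ 2 ∣ f)
    (h1 : a.1 = b.1 → (xq D a - xq D b + hb D) ∣ f)
    (h2 : a.1 = b.1 → (xq D b - xq D a + hb D) ∣ f) : TT D a b ∣ f := by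
  by_cases hv : a.1 = b.1
  swap
  · rw [TT_neg D hv]; exact one_dvd _
  have e1 : IsRelPrime (lf D a b false) (lf D a b true) :=
    lf_relPrime D hab hab (by simp) (by simp)
  have e2 : IsRelPrime (lf D a b false) (lf D b a true) :=
    lf_relPrime D hab hab.symm (by simp) (by simp)
  have e3 : IsRelPrime (lf D a b true) (lf D b a true) :=
    lf_relPrime D hab hab.symm (fun h => hab h.1.symm) (by simp)
  have d0 : lf D a b false ^ 2 ∣ f := by rw [lf_false]; exact h0 hv
  have d1 : lf D a b true ∣ f := by rw [lf_true]; exact h1 hv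
  have d2 : lf D b a true ∣ f := by rw [lf_true]; exact h2 hv
  have h3 : lf D a b false ^ 2 * lf D a b true * lf D b a true ∣ f := by
    refine IsRelPrime.mul_dvd ?_ (IsRelPrime.mul_dvd ?_ d0 d1) d2
    · refine IsRelPrime.mul_left ?_ e3
      rw [sq]; exact e2.mul_left e2
    · rw [sq]; exact e1.mul_left e1
  have h4 : TT D a b = -(lf D a b false ^ 2 * lf D a b true * lf D b a true) := by
    rw [TT_pos D hv, lf_false, lf_true, lf_false, lf_true]; ring
  rw [h4]
  exact (neg_dvd (α := S D (ZZ D))).2 h3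

/-- the product over ordered pairs as a product over unordered pairs -/
lemma Om_eq (N : Finset (B D)) (e : B D → ℕ) (he : Function.Injective e) :
    Om D N = ∏ p ∈ N.offDiag.filter (fun p => e p.1 < e p.2), TT D p.1 p.2 := by
  have h1 : Om D N = ∏ p ∈ N.offDiag, g0 D p.1 p.2 * g1 D p.1 p.2 := by
    rw [Om, Finset.prod_sigma']
    refine Finset.prod_bij (fun x _ => (x.1, x.2)) ?_ ?_ ?_ ?_
    · rintro ⟨a, b⟩ h
      rw [Finset.mem_sigma, Finset.mem_erase] at h
      exact Finset.mem_offDiag.2 ⟨h.1, h.2.2, h.2.1.symm⟩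
    · rintro ⟨a, b⟩ _ ⟨c, d⟩ _ h
      simp only [Prod.mk.injEq] at h
      obtain ⟨rfl, rfl⟩ := h
      rfl
    · rintro ⟨a, b⟩ h
      rw [Finset.mem_offDiag] at h
      exact ⟨⟨a, b⟩, Finset.mem_sigma.2 ⟨h.1, Finset.mem_erase.2 ⟨h.2.2.symm, h.2.1⟩⟩, rfl⟩
    · rintro ⟨a, b⟩ _
      rfl
  have h2 := Finset.prod_filter_mul_prod_filter_not N.offDiag (fun p => e p.1 < e p.2)
    (fun p => g0 D p.1 p.2 * g1 D p.1 p.2)
  have h3 : ∏ p ∈ N.offDiag.filter (fun p => ¬ e p.1 < e p.2), g0 D p.1 p.2 * g1 D p.1 p.2 =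
      ∏ p ∈ N.offDiag.filter (fun p => e p.1 < e p.2), g0 D p.2 p.1 * g1 D p.2 p.1 := by
    refine Finset.prod_bij (fun x _ => (x.2, x.1)) ?_ ?_ ?_ ?_
    · rintro ⟨a, b⟩ h
      rw [Finset.mem_filter, Finset.mem_offDiag] at h
      rw [Finset.mem_filter, Finset.mem_offDiag]
      refine ⟨⟨h.1.2.1, h.1.1, h.1.2.2.symm⟩, ?_⟩
      exact lt_of_le_of_ne (not_lt.1 h.2) (fun h' => h.1.2.2 (he h').symm)
    · rintro ⟨a, b⟩ _ ⟨c, d⟩ _ h
      simp only [Prod.mk.injEq] at h
      obtain ⟨rfl, rfl⟩ := h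
      rfl
    · rintro ⟨a, b⟩ h
      rw [Finset.mem_filter, Finset.mem_offDiag] at h
      refine ⟨(b, a), ?_, rfl⟩
      rw [Finset.mem_filter, Finset.mem_offDiag]
      exact ⟨⟨h.1.2.1, h.1.1, h.1.2.2.symm⟩, not_lt.2 h.2.le⟩
    · rintro ⟨a, b⟩ _
      rfl
  rw [h1, ← h2, h3, ← Finset.prod_mul_distrib]
  rfl

/-- the criterion for divisibility by `Om N`: the factors `(x a - x b) (x b - x a)` (unordered
pairs) and `x a - x b + ħ` (ordered pairs) are pairwise relatively prime -/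
lemma Om_dvd {N : Finset (B D)} {f : S D (ZZ D)}
    (h0 : ∀ a ∈ N, ∀ b ∈ N, a ≠ b → a.1 = b.1 → (xq D a - xq D b) ^ 2 ∣ f)
    (h1 : ∀ a ∈ N, ∀ b ∈ N, a ≠ b → a.1 = b.1 → (xq D a - xq D b + hb D) ∣ f) :
    Om D N ∣ f := by
  set e : B D → ℕ := fun b => (Fintype.equivFin (B D) b : ℕ) with he
  have hei : Function.Injective e := fun a b h => (Fintype.equivFin (B D)).injective (Fin.ext h)
  rw [Om_eq D N e hei]
  refine Finset.prod_dvd_of_isRelPrime ?_ fun p hp => ?_
  · intro p hp q hq' hpq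
    have hp2 := Finset.mem_filter.1 (Finset.mem_coe.1 hp)
    have hq2 := Finset.mem_filter.1 (Finset.mem_coe.1 hq')
    rw [Finset.mem_offDiag] at hp2 hq2
    refine TT_relPrime D hp2.1.2.2 hq2.1.2.2 ?_
    rintro (⟨h3, h4⟩ | ⟨h3, h4⟩)
    · exact hpq (Prod.ext h3.symm h4.symm)
    · have h5 := hq2.2
      rw [h3, h4] at h5
      exact lt_asymm h5 hp2.2
  · rw [Finset.mem_filter, Finset.mem_offDiag] at hp
    obtain ⟨⟨ha, hb', hab⟩, _⟩ := hp
    exact TT_dvd D hab (h0 _ ha _ hb' hab) (h1 _ ha _ hb' hab)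
      (fun hv => h1 _ hb' _ ha hab.symm hv.symm)

lemma dvd_Num (ν : D.I → ℤ) (L : List (Dat D)) {D1 D2 : Finset (B D)} {a b : B D}
    (hab : a ≠ b) (hv : a.1 = b.1) (ha : a ∈ (D1 ∪ D2)ᶜ) (hb' : b ∈ (D1 ∪ D2)ᶜ) :
    (xq D a - xq D b) ∣ Num D ν L D1 D2 := by
  rw [Num]
  refine List.dvd_sum ?_
  intro t ht
  obtain ⟨d, _, rfl⟩ := List.mem_map.1 ht
  refine Finset.dvd_sum fun K _ => ?_
  rw [Term]
  split_ifs
  · exact dvd_mul_of_dvd_right (dvd_ww D hab hv ha hb') _
  · exact dvd_mul_of_dvd_right (dvd_ww D hab hv ha hb') _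

lemma sq_dvd_Num (ν : D.I → ℤ) (L : List (Dat D)) {D1 D2 : Finset (B D)} {a b : B D}
    (hab : a ≠ b) (hv : a.1 = b.1) (ha : a ∈ (D1 ∪ D2)ᶜ) (hb' : b ∈ (D1 ∪ D2)ᶜ) :
    (xq D a - xq D b) ^ 2 ∣ Num D ν L D1 D2 := by
  obtain ⟨q, hq'⟩ := dvd_Num D ν L hab hv ha hb'
  obtain ⟨i, r⟩ := a
  obtain ⟨j, s⟩ := b
  obtain rfl : i = j := hv
  rw [Finset.mem_compl, Finset.mem_union, not_or] at ha hb'
  have h1 := act_Num D ν L (tr D i r s) D1 D2
  rw [mp_tr D (iff_of_false ha.1 hb'.1), mp_tr D (iff_of_false ha.2 hb'.2), hq', map_mul, map_sub,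
    act_xx, act_xx,
    perm_tr, Equiv.swap_apply_left, Equiv.swap_apply_right] at h1
  have hne : xq D ⟨i, r⟩ - xq D ⟨i, s⟩ ≠ 0 := by
    have := (lf_prime D hab false).ne_zero
    rwa [lf_false] at this
  have h2 : act D (ZZ D) (tr D i r s) q = -q := by
    apply mul_left_cancel₀ hne
    have h3 : (xq D ⟨i, r⟩ - xq D ⟨i, s⟩) * act D (ZZ D) (tr D i r s) q =
        -((xx D (ZZ D) ⟨i, s⟩ - xx D (ZZ D) ⟨i, r⟩) * act D (ZZ D) (tr D i r s) q) := by
      ring
    rw [h3, h1]
    ring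
  have h4 : (xq D ⟨i, r⟩ - xq D ⟨i, s⟩) ∣ q :=
    dvd_of_tr D (ZZ D) i (fun h => hab (by rw [h])) h2
  rw [hq', sq]
  exact mul_dvd_mul_left _ h4

/-- DIVISIBILITY. If all numerators of the next level vanish then `Om` divides the numerator.
By `dvd_ww`, `x a - x b` divides the numerator; it is invariant under the transposition of `a, b`
(`act_Num`), so the quotient is alternating and divisible by `x a - x b` once more. The factors
`x a - x b + ħ` by `sb_Num`, `sb_eq_zero`. -/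
theorem Om_dvd_Num (ν : D.I → ℤ) (L : List (Dat D)) {D1 D2 : Finset (B D)}
    (hd : Disjoint D1 D2)
    (H : ∀ a ∈ (D1 ∪ D2)ᶜ, ∀ b ∈ (D1 ∪ D2)ᶜ, a ≠ b → a.1 = b.1 →
      Num D ν L (insert b D1) (insert a D2) = 0) :
    Om D (D1 ∪ D2)ᶜ ∣ Num D ν L D1 D2 := by
  refine Om_dvd D (fun a ha b hb' hab hv => sq_dvd_Num D ν L hab hv ha hb')
    (fun a ha b hb' hab hv => ?_)
  refine sb_eq_zero D hab ?_
  rw [sb_Num D ν L hd hab hv ha hb', H a ha b hb' hab hv, map_zero, mul_zero]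

end Vale.Agent.P291.H
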