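import Vale.Agent.P291.H.BSym

set_option autoImplicit false
set_option linter.unusedSectionVars false

/-! Lifting functions on the pairs of disjoint subsets of type `n` to products. -/

namespace Vale.Agent.P291.H

open MvPolynomial Vale.Agent.P291.G

variable (D : QData)

lemma bl_sh_inr (s : S D (ZZ D)) (A : Finset (B D)) (z : ZZ D) :
    sh D s A (X (Sum.inr z)) = X (Sum.inr z) := by
  rw [sh, aeval_X]
  rfl

lemma bl_sh_xq (s : S D (ZZ D)) (A : Finset (B D)) (b : B D) :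
    sh D s A (xq D b) = if b ∈ A then xq D b + s else xq D b := by
  rw [sh, xq, xx, aeval_X]
  rfl

lemma bl_sh_hb (s : S D (ZZ D)) (A : Finset (B D)) : sh D s A (hb D) = hb D :=
  bl_sh_inr D s A _

lemma bl_sh_fix {s : S D (ZZ D)} (hs : s = hb D ∨ s = -hb D) (s' : S D (ZZ D))
    (A : Finset (B D)) : sh D s' A s = s := by
  rcases hs with rfl | rfl
  · exact bl_sh_hb D s' A
  · rw [map_neg, bl_sh_hb]

lemma sh_inj {s : S D (ZZ D)} (hs : s = hb D ∨ s = -hb D) (A : Finset (B D)) :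
    Function.Injective (sh D s A) := by
  have h : (sh D (-s) A).comp (sh D s A) = AlgHom.id ℂ (S D (ZZ D)) := by
    apply MvPolynomial.algHom_ext
    rintro (b | z)
    · rw [AlgHom.comp_apply, AlgHom.id_apply]
      have h1 : sh D s A (X (Sum.inl b)) = if b ∈ A then xq D b + s else xq D b :=
        bl_sh_xq D s A b
      rw [h1]
      split_ifs with hb'
      · rw [map_add, bl_sh_fix D hs, bl_sh_xq, if_pos hb', neg_add_cancel_right]
        rfl
      · rw [bl_sh_xq, if_neg hb']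
        rfl
    · rw [AlgHom.comp_apply, AlgHom.id_apply, bl_sh_inr, bl_sh_inr]
  have h2 : ∀ f, sh D (-s) A (sh D s A f) = f := fun f => by
    rw [← AlgHom.comp_apply, h]
    rfl
  intro f g hfg
  have h3 := congrArg (sh D (-s) A) hfg
  rwa [h2, h2] at h3

lemma bl_act_inr (Z : Type) (σ : W D) (z : Z) : act D Z σ (X (Sum.inr z)) = X (Sum.inr z) := by
  rw [act, rename_X]
  rfl

lemma bl_act_lin (σ : W D) (m : Fin D.rk → ℤ) :
    act D (Fin D.rk) σ (lin (YY D) m) = lin (YY D) m := by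
  have h := map_lin (act D (Fin D.rk) σ).toRingHom (YY D) m
  have h2 : (fun j => (act D (Fin D.rk) σ).toRingHom (YY D j)) = YY D := by
    funext j
    exact bl_act_inr D (Fin D.rk) σ j
  rw [h2] at h
  exact h

lemma bl_spec_xq (b : B D) : spec D (xq D b) = xx D (Fin D.rk) b := by
  rw [spec, xq, xx, aeval_X]
  rfl

lemma spec_act (σ : W D) (f : S D (ZZ D)) :
    spec D (act D (ZZ D) σ f) = act D (Fin D.rk) σ (spec D f) := by
  have h : (spec D).comp (act D (ZZ D) σ) = (act D (Fin D.rk) σ).comp (spec D) := by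
    apply MvPolynomial.algHom_ext
    rintro (b | z)
    · rw [AlgHom.comp_apply, AlgHom.comp_apply]
      have h1 : act D (ZZ D) σ (X (Sum.inl b)) = xq D (perm D σ b) := act_xx D (ZZ D) σ b
      have h2 : spec D (X (Sum.inl b)) = xx D (Fin D.rk) b := bl_spec_xq D b
      rw [h1, h2, bl_spec_xq, act_xx]
    · rw [AlgHom.comp_apply, AlgHom.comp_apply, bl_act_inr]
      have h3 : spec D (X (Sum.inr z)) = (Sum.elim
        (Sum.elim (fun a => lin (YY D) (D.ta a)) fun p => lin (YY D) (D.tw p.1 p.2))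
        (Sum.elim (fun _ => 0) fun j => YY D j)) z := by
        rw [spec, aeval_X]
        rfl
      rw [h3]
      rcases z with ((a | p) | (u | j))
      · exact (bl_act_lin D σ _).symm
      · exact (bl_act_lin D σ _).symm
      · exact (map_zero _).symm
      · exact (bl_act_inr D (Fin D.rk) σ j).symm
  have h4 := congrArg (fun g : S D (ZZ D) →ₐ[ℂ] S D (Fin D.rk) => g f) h
  exact h4

lemma bl_spec_del : spec D (del D (ZZ D)) = del D (Fin D.rk) := by
  rw [del, del, map_prod]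
  refine Finset.prod_congr rfl fun i _ => ?_
  rw [AlgHom.map_det]
  congr 1
  ext r c
  rw [AlgHom.mapMatrix_apply, Matrix.map_apply, Matrix.vandermonde_apply, map_pow,
    Matrix.vandermonde_apply, show spec D (xx D (ZZ D) ⟨i, r⟩) = _ from bl_spec_xq D _]

lemma spec_Dl_ne_zero (A : Finset (B D)) : spec D (Dl D (ZZ D) A) ≠ 0 := by
  intro h
  have h1 := congrArg (spec D) (Dl_spec D (ZZ D) A)
  rw [map_mul, h, mul_zero, bl_spec_del] at h1
  exact del_ne_zero D (Fin D.rk) h1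

/-- pairs at the same vertex -/
def bl_prs (N D2 : Finset (B D)) : Finset (B D × B D) := (N ×ˢ D2).filter fun p => p.1.1 = p.2.1

lemma bl_mem_prs (N D2 : Finset (B D)) (p : B D × B D) :
    p ∈ bl_prs D N D2 ↔ (p.1 ∈ N ∧ p.2 ∈ D2) ∧ p.1.1 = p.2.1 := by
  rw [bl_prs, Finset.mem_filter, Finset.mem_product]

lemma bl_cr (Z : Type) (N D2 : Finset (B D)) :
    cr D Z N D2 = ∏ p ∈ bl_prs D N D2, (xx D Z p.1 - xx D Z p.2) := by
  rw [cr, bl_prs, Finset.prod_filter, Finset.prod_product]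

/-- `cr N D2` divides `Dl D1` if `N`, `D2` are disjoint from each other and from `D1` -/
lemma cr_dvd_Dl (Z : Type) {D1 D2 N : Finset (B D)} (h : Disjoint D1 D2) (h1 : Disjoint N D1)
    (h2 : Disjoint N D2) : cr D Z N D2 ∣ Dl D Z D1 := by
  classical
  rw [bl_cr]
  have hne : ∀ p ∈ bl_prs D N D2, p.1 ≠ p.2 := by
    intro p hp he
    rw [bl_mem_prs] at hp
    exact Finset.disjoint_left.1 h2 hp.1.1 (he ▸ hp.1.2)
  refine Finset.prod_dvd_of_isRelPrime ?_ fun p hp => ?_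
  · intro p hp q hq hpq
    have hp' := (bl_mem_prs D N D2 p).1 hp
    have hq' := (bl_mem_prs D N D2 q).1 hq
    refine GUfd.isRelPrime_sub (fun e => hne p hp (Sum.inl_injective e))
      (fun e => hne q hq (Sum.inl_injective e)) ?_
    rintro (⟨e1, e2⟩ | ⟨e1, e2⟩)
    · exact hpq (Prod.ext (Sum.inl_injective e1).symm (Sum.inl_injective e2).symm)
    · have e3 : q.1 = p.2 := Sum.inl_injective e1
      exact Finset.disjoint_left.1 h2 hq'.1.1 (e3 ▸ hp'.1.2)
  · have hp' := (bl_mem_prs D N D2 p).1 hp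
    have hne' := hne p hp
    obtain ⟨⟨i, r⟩, ⟨j, t⟩⟩ := p
    simp only at hp' hne' ⊢
    obtain ⟨⟨ha, hb'⟩, hij⟩ := hp'
    subst hij
    have hrt : r ≠ t := by
      rintro rfl
      exact hne' rfl
    refine dvd_of_tr D Z i hrt ?_
    have hA : (⟨i, r⟩ : B D) ∉ D1 := Finset.disjoint_left.1 h1 ha
    have hB : (⟨i, t⟩ : B D) ∉ D1 := fun hc => Finset.disjoint_left.1 h hc hb'
    rw [act_Dl, mp_tr D (iff_of_false hA hB), sgn_tr D i hrt]
    push_cast
    ring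

lemma bl_mp_mem {σ : W D} {A : Finset (B D)} (h : mp D σ A = A) (b : B D) :
    perm D σ b ∈ A ↔ b ∈ A := by
  have h1 := mem_mp D σ A b
  rwa [h] at h1

/-- reindexing the product over the pairs by the second component -/
lemma bl_reindex_snd {N D2 : Finset (B D)} {σ : W D} (h : mp D σ D2 = D2)
    (f : B D → B D → S D (ZZ D)) :
    ∏ p ∈ bl_prs D N D2, f p.1 (perm D σ p.2) = ∏ p ∈ bl_prs D N D2, f p.1 p.2 := by
  refine Finset.prod_equiv (Equiv.prodCongr (Equiv.refl _) (perm D σ)) (fun p => ?_)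
    (fun p _ => rfl)
  rw [bl_mem_prs, bl_mem_prs]
  simp only [Equiv.prodCongr_apply, Prod.map_fst, Prod.map_snd, Equiv.refl_apply]
  rw [bl_mp_mem D h, perm_fst]

lemma bl_reindex_fst {N D2 : Finset (B D)} {σ : W D} (h : mp D σ N = N)
    (f : B D → B D → S D (ZZ D)) :
    ∏ p ∈ bl_prs D N D2, f (perm D σ p.1) p.2 = ∏ p ∈ bl_prs D N D2, f p.1 p.2 := by
  refine Finset.prod_equiv (Equiv.prodCongr (perm D σ) (Equiv.refl _)) (fun p => ?_)
    (fun p _ => rfl)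
  rw [bl_mem_prs, bl_mem_prs]
  simp only [Equiv.prodCongr_apply, Prod.map_fst, Prod.map_snd, Equiv.refl_apply]
  rw [bl_mp_mem D h, perm_fst]

/-- the product vanishes unless `τ` fixes `D2` -/
lemma bl_prod_tau {D1 D2 : Finset (B D)} {τ : W D} (hd : Disjoint D1 D2) (h1 : mp D τ D1 = D1) :
    ∏ p ∈ bl_prs D (D1 ∪ D2)ᶜ D2, (xq D (perm D τ p.1) - xq D p.2)
      = if mp D τ D2 = D2 then cr D (ZZ D) (D1 ∪ D2)ᶜ D2 else 0 := by
  set N := (D1 ∪ D2)ᶜ with hN
  by_cases hex : ∃ a ∈ N, perm D τ a ∈ D2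
  · obtain ⟨a, haN, ha2⟩ := hex
    have h2 : mp D τ D2 ≠ D2 := by
      intro h2
      rw [bl_mp_mem D h2] at ha2
      rw [hN, Finset.mem_compl, Finset.mem_union, not_or] at haN
      exact haN.2 ha2
    rw [if_neg h2]
    refine Finset.prod_eq_zero (i := (a, perm D τ a)) ?_ (sub_self _)
    rw [bl_mem_prs]
    exact ⟨⟨haN, ha2⟩, (perm_fst D τ a).symm⟩
  · push Not at hex
    have hsub : mp D τ N ⊆ N := by
      intro b hb'
      rw [mem_mp'] at hb'
      have h3 := hex _ hb'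
      rw [Equiv.apply_symm_apply] at h3
      have h4 : (perm D τ).symm b ∉ D1 := by
        rw [hN, Finset.mem_compl, Finset.mem_union, not_or] at hb'
        exact hb'.1
      have h5 : b ∉ D1 := by
        intro h6
        apply h4
        have h7 := bl_mp_mem D h1 ((perm D τ).symm b)
        rw [Equiv.apply_symm_apply] at h7
        exact h7.1 h6
      rw [hN, Finset.mem_compl, Finset.mem_union, not_or]
      exact ⟨h5, h3⟩
    have hNN : mp D τ N = N := Finset.eq_of_subset_of_card_le hsub (by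
      rw [mp, Finset.card_map])
    have h22 : mp D τ D2 = D2 := by
      have e1 : D2 = (D1 ∪ N)ᶜ := by
        ext b
        rw [hN, Finset.mem_compl, Finset.mem_union, Finset.mem_compl, Finset.mem_union]
        constructor
        · intro hb' hc
          rcases hc with hc | hc
          · exact Finset.disjoint_left.1 hd hc hb'
          · exact hc (Or.inr hb')
        · intro hc
          push Not at hc
          rcases hc.2 with hc2 | hc2
          · exact absurd hc2 hc.1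
          · exact hc2
      have e2 : mp D τ ((D1 ∪ N)ᶜ) = (D1 ∪ N)ᶜ := by
        rw [mp_compl, mp_union, h1, hNN]
      rw [e1]
      exact e2
    rw [if_pos h22, bl_reindex_fst D hNN (fun a b => xq D a - xq D b), bl_cr]

lemma bl_sgn_sq (σ : W D) : (sgn D σ : S D (ZZ D)) * (sgn D σ : S D (ZZ D)) = 1 := by
  rw [← Int.cast_mul, sgn_sq, Int.cast_one]

lemma bl_sgn_ne (σ : W D) : (sgn D σ : S D (ZZ D)) ≠ 0 := by
  intro h
  have h1 := bl_sgn_sq D σ
  rw [h, mul_zero] at h1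
  exact zero_ne_one h1

/-- `K₀ * G` is alternating under the common stabilizer -/
lemma bl_K_alt {D1 D2 : Finset (B D)} {K₀ G : S D (ZZ D)}
    (hK₀ : Dl D (ZZ D) D1 = cr D (ZZ D) (D1 ∪ D2)ᶜ D2 * K₀) {τ : W D}
    (h1 : mp D τ D1 = D1) (h2 : mp D τ D2 = D2) (hG : act D (ZZ D) τ G = G) :
    (sgn D τ : S D (ZZ D)) * act D (ZZ D) τ (K₀ * G) = K₀ * G := by
  have hN : mp D τ (D1 ∪ D2)ᶜ = (D1 ∪ D2)ᶜ := by rw [mp_compl, mp_union, h1, h2]
  have hne : cr D (ZZ D) (D1 ∪ D2)ᶜ D2 ≠ 0 := by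
    refine cr_ne_zero D (ZZ D) (Finset.disjoint_left.2 fun b hb1 hb2 => ?_)
    rw [Finset.mem_compl, Finset.mem_union, not_or] at hb1
    exact hb1.2 hb2
  have h3 := congrArg (act D (ZZ D) τ) hK₀
  rw [act_Dl, h1, map_mul, act_cr, hN, h2, hK₀] at h3
  have h4 : act D (ZZ D) τ K₀ = (sgn D τ : S D (ZZ D)) * K₀ := by
    refine mul_left_cancel₀ hne ?_
    rw [← h3]
    ring
  rw [map_mul, h4, hG]
  calc (sgn D τ : S D (ZZ D)) * ((sgn D τ : S D (ZZ D)) * K₀ * G)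
      = ((sgn D τ : S D (ZZ D)) * (sgn D τ : S D (ZZ D))) * (K₀ * G) := by ring
    _ = K₀ * G := by rw [bl_sgn_sq, one_mul]

lemma bl_orb_self (A₀ : Finset (B D)) (p : S D (ZZ D)) : orb D (ZZ D) A₀ p A₀ =
    ∑ τ ∈ Finset.univ.filter fun τ : W D => mp D τ A₀ = A₀,
      (sgn D τ : S D (ZZ D)) * act D (ZZ D) τ p := by
  rw [orb, Finset.sum_filter]

/-- the shifted second factor -/
lemma bl_second {s : S D (ZZ D)} {D1 D2 : Finset (B D)} (hd : Disjoint D1 D2)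
    {t : Finset (B D × B D)} (ht : ∀ p ∈ t, p.2 ∈ D2) {σ : W D} (h2 : mp D σ D2 = D2) :
    sh D s D1 ((sgn D σ : S D (ZZ D)) *
      act D (ZZ D) σ (Dl D (ZZ D) D2 * ∏ p ∈ t, (-xq D p.2)))
      = sh D s D1 (Dl D (ZZ D) D2) * ∏ p ∈ t, (-xq D (perm D σ p.2)) := by
  have h3 : (sgn D σ : S D (ZZ D)) *
      act D (ZZ D) σ (Dl D (ZZ D) D2 * ∏ p ∈ t, (-xq D p.2))
      = Dl D (ZZ D) D2 * ∏ p ∈ t, (-xq D (perm D σ p.2)) := by
    rw [map_mul, act_Dl, h2, map_prod]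
    have h4 : ∀ p ∈ t, act D (ZZ D) σ (-xq D p.2) = -xq D (perm D σ p.2) := by
      intro p _
      rw [map_neg, xq, act_xx]
    rw [Finset.prod_congr rfl h4]
    calc (sgn D σ : S D (ZZ D)) * ((sgn D σ : S D (ZZ D)) * Dl D (ZZ D) D2 *
          ∏ p ∈ t, (-xq D (perm D σ p.2)))
        = ((sgn D σ : S D (ZZ D)) * (sgn D σ : S D (ZZ D))) * (Dl D (ZZ D) D2 *
          ∏ p ∈ t, (-xq D (perm D σ p.2))) := by ring
      _ = _ := by rw [bl_sgn_sq, one_mul]
  rw [h3, map_mul, map_prod]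
  congr 1
  refine Finset.prod_congr rfl fun p hp => ?_
  have h5 : perm D σ p.2 ∉ D1 := fun h6 =>
    Finset.disjoint_left.1 hd h6 ((bl_mp_mem D h2 p.2).2 (ht p hp))
  rw [map_neg, bl_sh_xq, if_neg h5]

/-- the constant -/
noncomputable def bl_c (D1 D2 : Finset (B D)) : ℕ :=
  (Finset.univ.filter fun σ : W D => mp D σ D2 = D2).card *
    (Finset.univ.filter fun τ : W D => mp D τ D1 = D1 ∧ mp D τ D2 = D2).card

lemma bl_c_ne_zero (D1 D2 : Finset (B D)) : bl_c D D1 D2 ≠ 0 := by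
  refine mul_ne_zero (Finset.card_ne_zero.2 ⟨1, ?_⟩) (Finset.card_ne_zero.2 ⟨1, ?_⟩)
  · rw [Finset.mem_filter]
    exact ⟨Finset.mem_univ _, mp_one D D2⟩
  · rw [Finset.mem_filter]
    exact ⟨Finset.mem_univ _, mp_one D D1, mp_one D D2⟩

lemma bl_main {s : S D (ZZ D)} {D1 D2 : Finset (B D)}
    (hd : Disjoint D1 D2) {K₀ G : S D (ZZ D)}
    (hK₀ : Dl D (ZZ D) D1 = cr D (ZZ D) (D1 ∪ D2)ᶜ D2 * K₀)
    (hG : ∀ σ, mp D σ D1 = D1 → mp D σ D2 = D2 → act D (ZZ D) σ G = G) :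
    ∑ t ∈ (bl_prs D (D1 ∪ D2)ᶜ D2).powerset,
      orb D (ZZ D) D1 ((∏ p ∈ t, xq D p.1) * (K₀ * G)) D1 *
        sh D s D1 (orb D (ZZ D) D2
          (Dl D (ZZ D) D2 * ∏ p ∈ bl_prs D (D1 ∪ D2)ᶜ D2 \ t, (-xq D p.2)) D2)
      = (bl_c D D1 D2 : S D (ZZ D)) *
        (Dl D (ZZ D) D1 * G * sh D s D1 (Dl D (ZZ D) D2)) := by
  set T := bl_prs D (D1 ∪ D2)ᶜ D2 with hT
  set St1 := Finset.univ.filter fun τ : W D => mp D τ D1 = D1 with hSt1
  set St2 := Finset.univ.filter fun σ : W D => mp D σ D2 = D2 with hSt2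
  have e1 : ∀ t ∈ T.powerset,
      orb D (ZZ D) D1 ((∏ p ∈ t, xq D p.1) * (K₀ * G)) D1 *
        sh D s D1 (orb D (ZZ D) D2
          (Dl D (ZZ D) D2 * ∏ p ∈ T \ t, (-xq D p.2)) D2)
      = ∑ τ ∈ St1, ∑ σ ∈ St2, ((sgn D τ : S D (ZZ D)) * act D (ZZ D) τ (K₀ * G) *
          sh D s D1 (Dl D (ZZ D) D2)) *
          ((∏ p ∈ t, xq D (perm D τ p.1)) * ∏ p ∈ T \ t, (-xq D (perm D σ p.2))) := by
    intro t _
    rw [bl_orb_self, bl_orb_self, map_sum, Finset.sum_mul_sum]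
    refine Finset.sum_congr rfl fun τ _ => Finset.sum_congr rfl fun σ hσ => ?_
    have hσ2 : mp D σ D2 = D2 := (Finset.mem_filter.1 hσ).2
    rw [bl_second D hd (fun p hp => ((bl_mem_prs D _ _ p).1 (Finset.mem_sdiff.1 hp).1).1.2) hσ2,
      map_mul, map_prod]
    have h4 : ∀ p ∈ t, act D (ZZ D) τ (xq D p.1) = xq D (perm D τ p.1) := fun p _ =>
      act_xx D (ZZ D) τ p.1
    rw [Finset.prod_congr rfl h4]
    ring
  rw [Finset.sum_congr rfl e1, Finset.sum_comm]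
  have e2 : ∀ τ ∈ St1, ∑ t ∈ T.powerset, ∑ σ ∈ St2,
      ((sgn D τ : S D (ZZ D)) * act D (ZZ D) τ (K₀ * G) *
          sh D s D1 (Dl D (ZZ D) D2)) *
          ((∏ p ∈ t, xq D (perm D τ p.1)) * ∏ p ∈ T \ t, (-xq D (perm D σ p.2)))
      = if mp D τ D2 = D2 then (St2.card : S D (ZZ D)) * (Dl D (ZZ D) D1 * G *
          sh D s D1 (Dl D (ZZ D) D2)) else 0 := by
    intro τ hτ
    have hτ1 : mp D τ D1 = D1 := (Finset.mem_filter.1 hτ).2
    rw [Finset.sum_comm]
    have e3 : ∀ σ ∈ St2, ∑ t ∈ T.powerset,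
        ((sgn D τ : S D (ZZ D)) * act D (ZZ D) τ (K₀ * G) *
          sh D s D1 (Dl D (ZZ D) D2)) *
          ((∏ p ∈ t, xq D (perm D τ p.1)) * ∏ p ∈ T \ t, (-xq D (perm D σ p.2)))
        = if mp D τ D2 = D2 then Dl D (ZZ D) D1 * G *
          sh D s D1 (Dl D (ZZ D) D2) else 0 := by
      intro σ hσ
      have hσ2 : mp D σ D2 = D2 := (Finset.mem_filter.1 hσ).2
      rw [← Finset.mul_sum, ← Finset.prod_add]
      have h5 : ∏ p ∈ T, (xq D (perm D τ p.1) + -xq D (perm D σ p.2))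
          = if mp D τ D2 = D2 then cr D (ZZ D) (D1 ∪ D2)ᶜ D2 else 0 := by
        rw [← bl_prod_tau D hd hτ1]
        have h6 := bl_reindex_snd D (N := (D1 ∪ D2)ᶜ) hσ2
          (fun a b => xq D (perm D τ a) - xq D b)
        rw [← h6]
        exact Finset.prod_congr rfl fun p _ => (sub_eq_add_neg _ _).symm
      rw [h5]
      split_ifs with h7
      · rw [bl_K_alt D hK₀ hτ1 h7 (hG τ hτ1 h7), hK₀]
        ring
      · rw [mul_zero]
    rw [Finset.sum_congr rfl e3, Finset.sum_const, nsmul_eq_mul]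
    split_ifs
    · rfl
    · rw [mul_zero]
  rw [Finset.sum_congr rfl e2, ← Finset.sum_filter, Finset.sum_const, nsmul_eq_mul, bl_c,
    Finset.filter_filter]
  push_cast
  ring

/-- alternating families are `Dl` times equivariant families -/
lemma bl_div {n : D.I → ℕ} {φ : Finset (B D) → S D (ZZ D)} (h : φ ∈ AF D (ZZ D) n) :
    ∃ a : Finset (B D) → S D (ZZ D), EF D n a ∧ ∀ A, φ A = Dl D (ZZ D) A * a A := by
  choose a ha using fun A => Dl_dvd D (ZZ D) h A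
  refine ⟨a, ⟨fun σ A => ?_, fun A hA => ?_⟩, ha⟩
  · have h1 := h.1 σ A
    rw [ha A, ha (mp D σ A), map_mul, act_Dl, mul_assoc] at h1
    exact mul_left_cancel₀ (Dl_ne_zero D (ZZ D) _) (mul_left_cancel₀ (bl_sgn_ne D σ) h1)
  · have h1 := h.2 A hA
    rw [ha A] at h1
    exact (mul_eq_zero.1 h1).resolve_left (Dl_ne_zero D (ZZ D) A)

lemma bl_spec_orb (A₀ : Finset (B D)) {p : S D (ZZ D)} (hp : spec D p = 0) (A : Finset (B D)) :
    spec D (orb D (ZZ D) A₀ p A) = 0 := by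
  rw [orb, map_sum]
  refine Finset.sum_eq_zero fun τ _ => ?_
  split_ifs
  · rw [map_mul, spec_act, hp, map_zero, mul_zero]
  · exact map_zero _

/-- LIFT, quantum version. Let `N = (D1 ∪ D2)ᶜ`, `Dl D1 = cr N D2 * K₀`, `K = K₀ * G`,
`T` = the pairs `(a, b) ∈ N × D2` at the same vertex. For `t ⊆ T` put
`φ_t = orb D1 ((∏_{p ∈ t} x p.1) * K)`, `ψ_t = orb D2 (Dl D2 * ∏_{p ∈ T \ t} (- x p.2))`. Then
`∑_t φ_t(D1) * sh s D1 (ψ_t(D2))
  = ∑_{τ D1 = D1} ∑_{σ D2 = D2} sgn τ sgn σ τ(K) sh(σ Dl D2) ∏_{p ∈ T} (x (τ p.1) - x (σ p.2))`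
(`sh s D1` fixes `x b`, `b ∈ D2`), `σ (Dl D2) = sgn σ Dl D2`, the product can be reindexed by `σ`;
it vanishes unless `τ N ∩ D2 = ∅`, i.e. `τ D2 = D2`, and then `τ K = sgn τ K`. So the sum is
`c * K * cr N D2 * sh (Dl D2) = c * Dl D1 * G * sh (Dl D2)`, `c ≠ 0` a natural number.
Divide `φ_t = Dl * a_t`, `ψ_t = Dl * b_t` (`Dl_dvd`, `act_Dl`; values outside type `n` are zero) and
rescale by `1/c`. -/
theorem liftB {s : S D (ZZ D)} (hs : s = hb D ∨ s = -hb D) {D1 D2 : Finset (B D)}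
    (hd : Disjoint D1 D2) (ht : typ D D1 = typ D D2) {G : S D (ZZ D)}
    (hG : ∀ σ, mp D σ D1 = D1 → mp D σ D2 = D2 → act D (ZZ D) σ G = G) (hG0 : spec D G = 0) :
    ∃ (m : ℕ) (a b : Fin m → Finset (B D) → S D (ZZ D)),
      (∀ t, EF D (typ D D1) (a t) ∧ EF D (typ D D1) (b t) ∧ ∀ A, spec D (a t A) = 0) ∧
      ∑ t, a t D1 * sh D s D1 (b t D2) = G := by
  have hN1 : Disjoint (D1 ∪ D2)ᶜ D1 := Finset.disjoint_left.2 fun b hb1 hb2 => by
    rw [Finset.mem_compl, Finset.mem_union, not_or] at hb1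
    exact hb1.1 hb2
  have hN2 : Disjoint (D1 ∪ D2)ᶜ D2 := Finset.disjoint_left.2 fun b hb1 hb2 => by
    rw [Finset.mem_compl, Finset.mem_union, not_or] at hb1
    exact hb1.2 hb2
  obtain ⟨K₀, hK₀⟩ := cr_dvd_Dl D (ZZ D) hd hN1 hN2
  set T := bl_prs D (D1 ∪ D2)ᶜ D2 with hT
  set φ : Finset (B D × B D) → Finset (B D) → S D (ZZ D) := fun t =>
    orb D (ZZ D) D1 ((∏ p ∈ t, xq D p.1) * (K₀ * G)) with hφ
  set ψ : Finset (B D × B D) → Finset (B D) → S D (ZZ D) := fun t =>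
    orb D (ZZ D) D2 (Dl D (ZZ D) D2 * ∏ p ∈ T \ t, (-xq D p.2)) with hψ
  have mφ : ∀ t, φ t ∈ AF D (ZZ D) (typ D D1) := fun t => orb_mem D (ZZ D) D1 _
  have mψ : ∀ t, ψ t ∈ AF D (ZZ D) (typ D D1) := fun t => ht ▸ orb_mem D (ZZ D) D2 _
  choose a ha1 ha2 using fun t => bl_div D (mφ t)
  choose b hb1 hb2 using fun t => bl_div D (mψ t)
  have key := bl_main D (s := s) hd hK₀ hG
  have hsp : ∀ t A, spec D (a t A) = 0 := by
    intro t A
    have h1 : spec D (φ t A) = 0 := by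
      refine bl_spec_orb D D1 ?_ A
      rw [map_mul, map_mul, hG0, mul_zero, mul_zero]
    rw [ha2 t A, map_mul] at h1
    exact (mul_eq_zero.1 h1).resolve_left (spec_Dl_ne_zero D A)
  have hsum : ∑ t ∈ T.powerset, a t D1 * sh D s D1 (b t D2)
      = (bl_c D D1 D2 : S D (ZZ D)) * G := by
    have h1 : Dl D (ZZ D) D1 ≠ 0 := Dl_ne_zero D (ZZ D) D1
    have h2 : sh D s D1 (Dl D (ZZ D) D2) ≠ 0 := by
      rw [Ne, ← map_zero (sh D s D1)]
      exact fun h => Dl_ne_zero D (ZZ D) D2 (sh_inj D hs D1 h)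
    refine mul_left_cancel₀ (mul_ne_zero h1 h2) ?_
    rw [Finset.mul_sum]
    calc ∑ t ∈ T.powerset, Dl D (ZZ D) D1 * sh D s D1 (Dl D (ZZ D) D2) *
          (a t D1 * sh D s D1 (b t D2))
        = ∑ t ∈ T.powerset, φ t D1 * sh D s D1 (ψ t D2) := by
          refine Finset.sum_congr rfl fun t _ => ?_
          rw [ha2 t D1, hb2 t D2, map_mul]
          ring
      _ = _ := key
      _ = _ := by ring
  set c : ℂ := (bl_c D D1 D2 : ℂ) with hc
  have hc0 : c ≠ 0 := Nat.cast_ne_zero.2 (bl_c_ne_zero D D1 D2)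
  set e := T.powerset.equivFin with he
  refine ⟨T.powerset.card, fun i A => c⁻¹ • a (e.symm i).1 A, fun i => b (e.symm i).1,
    fun i => ⟨⟨fun σ A => ?_, fun A hA => ?_⟩, hb1 _, fun A => ?_⟩, ?_⟩
  · simp only
    rw [map_smul, (ha1 _).1]
  · simp only
    rw [(ha1 _).2 A hA, smul_zero]
  · simp only
    rw [map_smul, hsp, smul_zero]
  · have h3 : ∑ i, c⁻¹ • a (e.symm i).1 D1 * sh D s D1 (b (e.symm i).1 D2)
        = ∑ t ∈ T.powerset, c⁻¹ • a t D1 * sh D s D1 (b t D2) := by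
      rw [← Finset.sum_coe_sort T.powerset
        (fun t => c⁻¹ • a t D1 * sh D s D1 (b t D2))]
      exact Equiv.sum_comp e.symm
        (fun t : {t // t ∈ T.powerset} => c⁻¹ • a t.1 D1 * sh D s D1 (b t.1 D2))
    rw [h3]
    simp only [smul_mul_assoc]
    rw [← Finset.smul_sum, hsum]
    have h4 : (bl_c D D1 D2 : S D (ZZ D)) * G = c • G := by
      rw [hc, Nat.cast_smul_eq_nsmul, nsmul_eq_mul]
    rw [h4, smul_smul, inv_mul_cancel₀ hc0, one_smul]

end Vale.Agent.P291.H
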