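import Vale.Agent.P291.H.BSym

set_option autoImplicit false
set_option linter.unusedSectionVars false

/-! The diagonal terms are in the ideal of the unstable strata. -/

namespace Vale.Agent.P291.H

open MvPolynomial Vale.Agent.P291.G

variable (D : QData)

lemma BM_prod_fst (i : D.I) (F : B D → S D (ZZ D)) :
    (∏ p : B D, if i = p.1 then F p else 1) = ∏ r : Fin (D.v i), F ⟨i, r⟩ := by
  rw [Fintype.prod_sigma, Finset.prod_eq_single i]
  · exact Finset.prod_congr rfl fun r _ => if_pos rfl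
  · intro j _ hj
    exact Finset.prod_eq_one fun r _ => if_neg fun h => hj h.symm
  · intro h
    exact absurd (Finset.mem_univ i) h

/-- products over pairs and arrows -/
lemma BM_prod_arrows (G : D.A → B D → B D → S D (ZZ D)) :
    ∏ p : B D, ∏ q : B D, ∏ a with D.src a = p.1 ∧ D.tgt a = q.1, G a p q =
    ∏ a, ∏ r : Fin (D.v (D.src a)), ∏ s : Fin (D.v (D.tgt a)),
      G a ⟨D.src a, r⟩ ⟨D.tgt a, s⟩ := by
  have h1 : ∀ p q : B D, (∏ a with D.src a = p.1 ∧ D.tgt a = q.1, G a p q) =
      ∏ a, if D.src a = p.1 then (if D.tgt a = q.1 then G a p q else 1) else 1 := by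
    intro p q
    rw [Finset.prod_filter]
    refine Finset.prod_congr rfl fun a _ => ?_
    by_cases h : D.src a = p.1 <;> by_cases h' : D.tgt a = q.1 <;> simp [h, h']
  calc ∏ p : B D, ∏ q : B D, ∏ a with D.src a = p.1 ∧ D.tgt a = q.1, G a p q
      = ∏ p : B D, ∏ q : B D,
          ∏ a, (if D.src a = p.1 then (if D.tgt a = q.1 then G a p q else 1) else 1) :=
        Finset.prod_congr rfl fun p _ => Finset.prod_congr rfl fun q _ => h1 p q
    _ = ∏ p : B D, ∏ a, ∏ q : B D,
          (if D.src a = p.1 then (if D.tgt a = q.1 then G a p q else 1) else 1) :=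
        Finset.prod_congr rfl fun p _ => Finset.prod_comm
    _ = ∏ a, ∏ p : B D, ∏ q : B D,
          (if D.src a = p.1 then (if D.tgt a = q.1 then G a p q else 1) else 1) :=
        Finset.prod_comm
    _ = ∏ a, ∏ p : B D, if D.src a = p.1 then
          (∏ q : B D, if D.tgt a = q.1 then G a p q else 1) else 1 := by
        refine Finset.prod_congr rfl fun a _ => Finset.prod_congr rfl fun p _ => ?_
        by_cases h : D.src a = p.1
        · simp only [if_pos h]
        · simp only [if_neg h, Finset.prod_const_one]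
    _ = _ := by
        refine Finset.prod_congr rfl fun a _ => ?_
        rw [BM_prod_fst]
        exact Finset.prod_congr rfl fun r _ => BM_prod_fst D _ _

/-- the arrow part of `elq l` divides the weight -/
lemma BM_arrow_dvd (l : B D → ℤ) (K : Finset (B D))
    (hl : ∀ p q : B D, l q < l p ↔ p ∈ K ∧ q ∉ K) :
    (∏ a, ∏ r : Fin (D.v (D.src a)), ∏ s : Fin (D.v (D.tgt a)),
      if l ⟨D.tgt a, s⟩ < l ⟨D.src a, r⟩ then
        xq D ⟨D.tgt a, s⟩ - xq D ⟨D.src a, r⟩ + tv D a
      else if l ⟨D.src a, r⟩ < l ⟨D.tgt a, s⟩ then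
        hb D - (xq D ⟨D.tgt a, s⟩ - xq D ⟨D.src a, r⟩ + tv D a) else 1) ∣
    ww D Finset.univ K := by
  rw [← BM_prod_arrows D fun a p q => if l q < l p then xq D q - xq D p + tv D a
    else if l p < l q then hb D - (xq D q - xq D p + tv D a) else 1]
  rw [ww]
  refine Finset.prod_dvd_prod_of_dvd _ _ fun p _ => ?_
  rw [← Finset.mul_prod_erase Finset.univ _ (Finset.mem_univ p)]
  have h0 : (∏ a with D.src a = p.1 ∧ D.tgt a = p.1,
      if l p < l p then xq D p - xq D p + tv D a
      else if l p < l p then hb D - (xq D p - xq D p + tv D a) else 1) = 1 :=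
    Finset.prod_eq_one fun a _ => by rw [if_neg (lt_irrefl _), if_neg (lt_irrefl _)]
  rw [h0, one_mul]
  refine Finset.prod_dvd_prod_of_dvd _ _ fun q _ => ?_
  by_cases hp : p ∈ K <;> by_cases hq' : q ∈ K
  · have h1 : ¬ l q < l p := fun h => ((hl p q).1 h).2 hq'
    have h2 : ¬ l p < l q := fun h => ((hl q p).1 h).2 hp
    simp only [if_neg h1, if_neg h2, Finset.prod_const_one]
    exact one_dvd _
  · have h1 : l q < l p := (hl p q).2 ⟨hp, hq'⟩
    simp only [if_pos h1, decide_eq_true hp, decide_eq_false hq', pw, hq, add_zero]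
    exact dvd_mul_right _ _
  · have h1 : ¬ l q < l p := fun h => hp ((hl p q).1 h).1
    have h2 : l p < l q := (hl q p).2 ⟨hq', hp⟩
    simp only [if_neg h1, if_pos h2, decide_eq_false hp, decide_eq_true hq', pw, hq]
    refine Dvd.dvd.mul_right ?_ _
    refine Finset.prod_dvd_prod_of_dvd _ _ fun a _ => ?_
    exact ⟨-1, by ring⟩
  · have h1 : ¬ l q < l p := fun h => hp ((hl p q).1 h).1
    have h2 : ¬ l p < l q := fun h => hq' ((hl q p).1 h).1
    simp only [if_neg h1, if_neg h2, Finset.prod_const_one]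
    exact one_dvd _

/-- the framing part of `elq l` -/
lemma BM_framing (l : B D → ℤ) :
    (∏ i, ∏ r : Fin (D.v i), ∏ k : Fin (D.w i), if 0 < l ⟨i, r⟩ then zv D i k - xq D ⟨i, r⟩
      else if l ⟨i, r⟩ < 0 then hb D - (zv D i k - xq D ⟨i, r⟩) else 1) =
    ∏ b : B D, ∏ k : Fin (D.w b.1), if 0 < l b then zv D b.1 k - xq D b
      else if l b < 0 then hb D - (zv D b.1 k - xq D b) else 1 := by
  rw [Fintype.prod_sigma]

lemma BM_elq_dvd_ind (K : Finset (B D)) :
    elq D (ind D K) ∣ (∏ k ∈ K, zq D k 0) * ww D Finset.univ K := by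
  rw [elq, mul_comm (∏ k ∈ K, zq D k 0)]
  refine mul_dvd_mul (BM_arrow_dvd D _ K fun p q => ?_) ?_
  · unfold ind
    by_cases hp : p ∈ K <;> by_cases hq' : q ∈ K <;> simp [hp, hq']
  · rw [BM_framing, ← Finset.prod_subset (Finset.subset_univ K)]
    · refine Finset.prod_dvd_prod_of_dvd _ _ fun b hb' => ?_
      rw [zq]
      refine Finset.prod_dvd_prod_of_dvd _ _ fun k _ => ?_
      have : 0 < ind D K b := by rw [ind, if_pos hb']; exact one_pos
      rw [if_pos this, add_zero]
    · intro b _ hb'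
      refine Finset.prod_eq_one fun k _ => ?_
      have : ind D K b = 0 := if_neg hb'
      rw [this, if_neg (lt_irrefl _), if_neg (lt_irrefl _)]

lemma BM_elq_dvd_neg (K : Finset (B D)) :
    elq D (-ind D K) ∣ (∏ k ∈ K, zq D k (-hb D)) * ww D Finset.univ (Finset.univ \ K) := by
  rw [elq, mul_comm (∏ k ∈ K, zq D k (-hb D))]
  refine mul_dvd_mul (BM_arrow_dvd D _ _ fun p q => ?_) ?_
  · simp only [Pi.neg_apply, ind, Finset.mem_sdiff, Finset.mem_univ, true_and, not_not]
    by_cases hp : p ∈ K <;> by_cases hq' : q ∈ K <;> simp [hp, hq']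
  · rw [BM_framing, ← Finset.prod_subset (Finset.subset_univ K)]
    · refine Finset.prod_dvd_prod_of_dvd _ _ fun b hb' => ?_
      rw [zq]
      refine Finset.prod_dvd_prod_of_dvd _ _ fun k _ => ?_
      have h1 : (-ind D K) b = -1 := by rw [Pi.neg_apply, ind, if_pos hb']
      rw [h1, if_neg (by norm_num), if_pos (by norm_num)]
      exact ⟨-1, by ring⟩
    · intro b _ hb'
      refine Finset.prod_eq_one fun k _ => ?_
      have h1 : (-ind D K) b = 0 := by rw [Pi.neg_apply, ind, if_neg hb', neg_zero]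
      rw [h1, if_neg (lt_irrefl _), if_neg (lt_irrefl _)]

lemma BM_wt_ind (ν : D.I → ℤ) (K : Finset (B D)) :
    wt D ν (ind D K) = ∑ i, ν i * (typ D K i : ℤ) := by
  rw [wt, Fintype.sum_sigma]
  refine Finset.sum_congr rfl fun i _ => ?_
  change ∑ r : Fin (D.v i), ν i * ind D K ⟨i, r⟩ = ν i * (typ D K i : ℤ)
  rw [← Finset.mul_sum]
  congr 1
  rw [typ]
  have h1 : (K.filter fun b => b.1 = i) =
      (Finset.univ.filter fun r : Fin (D.v i) => (⟨i, r⟩ : B D) ∈ K).map
        ⟨fun r => (⟨i, r⟩ : B D), fun r s h => by simpa using h⟩ := by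
    ext b
    simp only [Finset.mem_filter, Finset.mem_map, Finset.mem_univ, true_and]
    constructor
    · rintro ⟨hb', rfl⟩
      exact ⟨b.2, hb', rfl⟩
    · rintro ⟨r, hr, rfl⟩
      exact ⟨hr, rfl⟩
  rw [h1, Finset.card_map, Finset.card_filter]
  push_cast
  rfl

/-- the diagonal terms are in the ideal generated by the `elq l`, `ν·l < 0`: for `E F` order
(`ν·n < 0`) `(∏ k ∈ K, zq k 0) * ww univ K` is a multiple of `elq (ind K)`, for `F E` order of
`elq (- ind K)` -/
theorem Num_mem (ν : D.I → ℤ) (hν : ∀ n : D.I → ℕ, n ≠ 0 → n ≤ D.v → ∑ i, ν i * (n i : ℤ) ≠ 0)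
    (L : List (Dat D)) :
    Num D ν L ∅ ∅ ∈ Ideal.span {p | ∃ l : B D → ℤ, wt D ν l < 0 ∧ p = elq D l} := by
  rw [Num]
  refine list_sum_mem fun x hx => ?_
  rw [List.mem_map] at hx
  obtain ⟨d, -, rfl⟩ := hx
  refine Ideal.sum_mem _ fun K _ => ?_
  have hu : ((∅ : Finset (B D)) ∪ ∅)ᶜ = Finset.univ := by
    rw [Finset.union_empty, Finset.compl_empty]
  by_cases ht : typ D K = d.n
  · have hw : wt D ν (ind D K) = ∑ i, ν i * (d.n i : ℤ) := by rw [BM_wt_ind, ht]
    rw [Term, hu]
    by_cases hs : ∑ i, ν i * (d.n i : ℤ) < 0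
    · rw [if_pos hs, mul_assoc]
      refine Ideal.mul_mem_left _ _ ?_
      refine Ideal.mem_of_dvd _ (BM_elq_dvd_ind D K) ?_
      exact Ideal.subset_span ⟨ind D K, by rw [hw]; exact hs, rfl⟩
    · rw [if_neg hs, mul_assoc]
      refine Ideal.mul_mem_left _ _ ?_
      refine Ideal.mem_of_dvd _ (BM_elq_dvd_neg D K) ?_
      refine Ideal.subset_span ⟨-ind D K, ?_, rfl⟩
      have h1 : wt D ν (-ind D K) = - wt D ν (ind D K) := by
        rw [wt, wt, ← Finset.sum_neg_distrib]
        exact Finset.sum_congr rfl fun b _ => by rw [Pi.neg_apply, mul_neg]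
      have h2 := hν d.n d.hn (by rw [← ht]; exact typ_le D K)
      rw [h1, hw]
      omega
  · rw [Term, Finset.empty_union]
    rw [d.hf.2 K ht, d.hg.2 K ht, map_zero, zero_mul, zero_mul, zero_mul, zero_mul, zero_mul,
      zero_mul, ite_self]
    exact Ideal.zero_mem _

end Vale.Agent.P291.H
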