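import Vale.Agent.P291.H.BDefs

set_option autoImplicit false
set_option linter.unusedSectionVars false

/-! Equivariance of the numerators; types. -/

namespace Vale.Agent.P291.H

open MvPolynomial Vale.Agent.P291.G

variable (D : QData)

lemma bsym_act_inr (σ : W D) (z : ZZ D) :
    act D (ZZ D) σ (X (Sum.inr z)) = X (Sum.inr z) := by
  unfold act
  rw [rename_X]
  rfl

lemma bsym_act_tv (σ : W D) (a : D.A) : act D (ZZ D) σ (tv D a) = tv D a := bsym_act_inr D σ _

lemma bsym_act_zv (σ : W D) (i : D.I) (k : Fin (D.w i)) :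
    act D (ZZ D) σ (zv D i k) = zv D i k := bsym_act_inr D σ _

lemma act_hq (σ : W D) (b c : B D) {s : S D (ZZ D)} (hs : act D (ZZ D) σ s = s) :
    act D (ZZ D) σ (hq D b c s) = hq D (perm D σ b) (perm D σ c) s := by
  unfold hq
  rw [map_prod]
  refine Finset.prod_congr rfl fun a _ => ?_
  rw [map_add, map_add, map_sub, act_xx, act_xx, bsym_act_tv, hs]

lemma act_zq (σ : W D) (b : B D) {s : S D (ZZ D)} (hs : act D (ZZ D) σ s = s) :
    act D (ZZ D) σ (zq D b s) = zq D (perm D σ b) s := by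
  unfold zq
  rw [map_prod]
  refine Finset.prod_congr rfl fun k _ => ?_
  rw [map_add, map_sub, act_xx, bsym_act_zv, hs]
  rfl

lemma act_hb (σ : W D) : act D (ZZ D) σ (hb D) = hb D := bsym_act_inr D σ _

lemma bsym_act_g0 (σ : W D) (a b : B D) :
    act D (ZZ D) σ (g0 D a b) = g0 D (perm D σ a) (perm D σ b) := by
  unfold g0
  rw [perm_fst, perm_fst]
  split_ifs
  · rw [map_sub, act_xx, act_xx]
  · rw [map_one]

lemma bsym_act_g1 (σ : W D) (a b : B D) :
    act D (ZZ D) σ (g1 D a b) = g1 D (perm D σ a) (perm D σ b) := by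
  unfold g1
  rw [perm_fst, perm_fst]
  split_ifs
  · rw [map_add, map_sub, act_xx, act_xx, act_hb]
  · rw [map_one]

lemma bsym_act_neg_hb (σ : W D) : act D (ZZ D) σ (-hb D) = -hb D := by
  rw [map_neg, act_hb]

lemma bsym_act_pw (σ : W D) (p q : B D) (i j : Bool) :
    act D (ZZ D) σ (pw D p q i j) = pw D (perm D σ p) (perm D σ q) i j := by
  cases i <;> cases j <;> simp only [pw, map_mul, bsym_act_g0, bsym_act_g1] <;>
    rw [act_hq]
  · exact bsym_act_neg_hb D σ
  · exact map_zero _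

lemma bsym_prod_mp (σ : W D) (N : Finset (B D)) (F : B D → B D → S D (ZZ D)) :
    ∏ p ∈ mp D σ N, ∏ q ∈ (mp D σ N).erase p, F p q
      = ∏ p ∈ N, ∏ q ∈ N.erase p, F (perm D σ p) (perm D σ q) := by
  unfold mp
  rw [Finset.prod_map]
  refine Finset.prod_congr rfl fun p _ => ?_
  rw [← Finset.map_erase, Finset.prod_map]
  rfl

lemma act_ww (σ : W D) (N K : Finset (B D)) :
    act D (ZZ D) σ (ww D N K) = ww D (mp D σ N) (mp D σ K) := by
  unfold ww
  rw [bsym_prod_mp, map_prod]
  refine Finset.prod_congr rfl fun p _ => ?_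
  rw [map_prod]
  refine Finset.prod_congr rfl fun q _ => ?_
  rw [bsym_act_pw]
  simp only [mem_mp]

lemma act_Om (σ : W D) (N : Finset (B D)) :
    act D (ZZ D) σ (Om D N) = Om D (mp D σ N) := by
  unfold Om
  rw [bsym_prod_mp, map_prod]
  refine Finset.prod_congr rfl fun p _ => ?_
  rw [map_prod]
  refine Finset.prod_congr rfl fun q _ => ?_
  rw [map_mul, bsym_act_g0, bsym_act_g1]

lemma act_sh (σ : W D) {s : S D (ZZ D)} (hs : act D (ZZ D) σ s = s) (A : Finset (B D))
    (f : S D (ZZ D)) :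
    act D (ZZ D) σ (sh D s A f) = sh D s (mp D σ A) (act D (ZZ D) σ f) := by
  have h : (act D (ZZ D) σ).comp (sh D s A) = (sh D s (mp D σ A)).comp (act D (ZZ D) σ) := by
    apply MvPolynomial.algHom_ext
    rintro (b | z)
    · rw [AlgHom.comp_apply, AlgHom.comp_apply]
      have h1 : sh D s A (X (Sum.inl b)) = if b ∈ A then xq D b + s else xq D b := by
        unfold sh
        rw [aeval_X]
        rfl
      have h2 : act D (ZZ D) σ (X (Sum.inl b)) = X (Sum.inl (perm D σ b)) := act_xx _ _ _ _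
      have h3 : sh D s (mp D σ A) (X (Sum.inl (perm D σ b)))
          = if perm D σ b ∈ mp D σ A then xq D (perm D σ b) + s else xq D (perm D σ b) := by
        unfold sh
        rw [aeval_X]
        rfl
      rw [h1, h2, h3, apply_ite (act D (ZZ D) σ), map_add, hs, act_xx]
      simp only [mem_mp]
    · rw [AlgHom.comp_apply, AlgHom.comp_apply, bsym_act_inr]
      have h1 : ∀ A : Finset (B D), sh D s A (X (Sum.inr z)) = X (Sum.inr z) := by
        intro A
        unfold sh
        rw [aeval_X]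
        rfl
      rw [h1, h1, bsym_act_inr]
  exact DFunLike.congr_fun h f

lemma bsym_act_prod_zq (σ : W D) (K : Finset (B D)) {s : S D (ZZ D)}
    (hs : act D (ZZ D) σ s = s) :
    act D (ZZ D) σ (∏ k ∈ K, zq D k s) = ∏ k ∈ mp D σ K, zq D k s := by
  unfold mp
  rw [map_prod, Finset.prod_map]
  exact Finset.prod_congr rfl fun k _ => act_zq D σ k hs

lemma bsym_act_Term (ν : D.I → ℤ) (d : Dat D) (σ : W D) (D1 D2 K : Finset (B D)) :
    act D (ZZ D) σ (Term D ν d D1 D2 K) = Term D ν d (mp D σ D1) (mp D σ D2) (mp D σ K) := by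
  unfold Term
  split_ifs
  · rw [map_mul, map_mul, map_mul, d.hf.1, act_sh D σ (bsym_act_neg_hb D σ), d.hg.1,
      bsym_act_prod_zq D σ K (map_zero _), act_ww, mp_compl]
    simp only [mp_union]
  · rw [map_mul, map_mul, map_mul, d.hg.1, act_sh D σ (act_hb D σ), d.hf.1,
      bsym_act_prod_zq D σ K (bsym_act_neg_hb D σ), act_ww, mp_sdiff, mp_compl]
    simp only [mp_union]

/-- equivariance of the numerators -/
theorem act_Num (ν : D.I → ℤ) (L : List (Dat D)) (σ : W D) (D1 D2 : Finset (B D)) :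
    act D (ZZ D) σ (Num D ν L D1 D2) = Num D ν L (mp D σ D1) (mp D σ D2) := by
  unfold Num
  rw [map_list_sum, List.map_map]
  congr 1
  refine List.map_congr_left fun d _ => ?_
  rw [Function.comp_apply, map_sum]
  refine Finset.sum_bij' (fun K _ => mp D σ K) (fun K _ => mp D σ⁻¹ K) ?_ ?_ ?_ ?_ ?_
  · intro K hK
    rw [Finset.mem_powerset] at hK ⊢
    rw [← mp_union, ← mp_compl, mp_subset]
    exact hK
  · intro K hK
    rw [Finset.mem_powerset] at hK ⊢
    rw [← mp_subset D σ, ← mp_mul, mul_inv_cancel, mp_one, mp_compl, mp_union]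
    exact hK
  · intro K _
    rw [← mp_mul, inv_mul_cancel, mp_one]
  · intro K _
    rw [← mp_mul, mul_inv_cancel, mp_one]
  · intro K _
    exact bsym_act_Term D ν d σ D1 D2 K

lemma Num_append (ν : D.I → ℤ) (L L' : List (Dat D)) (D1 D2 : Finset (B D)) :
    Num D ν (L ++ L') D1 D2 = Num D ν L D1 D2 + Num D ν L' D1 D2 := by
  unfold Num
  rw [List.map_append, List.sum_append]

lemma bsym_typ_disj {A C : Finset (B D)} (h : Disjoint A C) :
    typ D (A ∪ C) = typ D A + typ D C := by
  have h1 := typ_union_inter D A C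
  rwa [Finset.disjoint_iff_inter_eq_empty.mp h, typ_empty, add_zero] at h1

/-- a nonzero term forces the types -/
lemma bsym_Term_ne (ν : D.I → ℤ) (d : Dat D) {D1 D2 K : Finset (B D)}
    (h : Term D ν d D1 D2 K ≠ 0) : typ D (D1 ∪ K) = d.n ∧ typ D (D2 ∪ K) = d.n := by
  constructor
  · by_contra hc
    apply h
    unfold Term
    rw [d.hf.2 _ hc]
    simp
  · by_contra hc
    apply h
    unfold Term
    rw [d.hg.2 _ hc]
    simp

lemma bsym_disj1 {D1 D2 K : Finset (B D)} (hK : K ∈ (D1 ∪ D2)ᶜ.powerset) : Disjoint D1 K := by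
  rw [Finset.mem_powerset] at hK
  exact (disjoint_compl_right (a := D1 ∪ D2)).mono Finset.subset_union_left hK

lemma bsym_disj2 {D1 D2 K : Finset (B D)} (hK : K ∈ (D1 ∪ D2)ᶜ.powerset) : Disjoint D2 K := by
  rw [Finset.mem_powerset] at hK
  exact (disjoint_compl_right (a := D1 ∪ D2)).mono Finset.subset_union_right hK

/-- the numerator vanishes if the types are different -/
lemma Num_typ (ν : D.I → ℤ) (L : List (Dat D)) {D1 D2 : Finset (B D)} (h : Disjoint D1 D2)
    (ht : typ D D1 ≠ typ D D2) : Num D ν L D1 D2 = 0 := by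
  unfold Num
  apply List.sum_eq_zero
  intro x hx
  obtain ⟨d, -, rfl⟩ := List.mem_map.mp hx
  refine Finset.sum_eq_zero fun K hK => ?_
  by_contra hc
  obtain ⟨h1, h2⟩ := bsym_Term_ne D ν d hc
  rw [bsym_typ_disj D (bsym_disj1 D hK)] at h1
  rw [bsym_typ_disj D (bsym_disj2 D hK), ← h1] at h2
  exact ht (add_right_cancel h2).symm

lemma bsym_Num_single (ν : D.I → ℤ) (d : Dat D) (D1 D2 : Finset (B D)) :
    Num D ν [d] D1 D2 = ∑ K ∈ (D1 ∪ D2)ᶜ.powerset, Term D ν d D1 D2 K := by
  unfold Num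
  rw [List.map_singleton, List.sum_singleton]

/-- a datum of type `n` contributes only to `D1, D2` with `typ D1 ≤ n` -/
lemma Num_single_ne (ν : D.I → ℤ) (d : Dat D) {D1 D2 : Finset (B D)} (h : Disjoint D1 D2)
    (h0 : Num D ν [d] D1 D2 ≠ 0) : typ D D1 ≤ d.n := by
  rw [bsym_Num_single] at h0
  obtain ⟨K, -, hK2⟩ := Finset.exists_ne_zero_of_sum_ne_zero h0
  rw [← (bsym_Term_ne D ν d hK2).1]
  exact typ_mono D Finset.subset_union_left

lemma bsym_ww_empty (N : Finset (B D)) : ww D N ∅ = Om D N := by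
  unfold ww Om
  refine Finset.prod_congr rfl fun p _ => Finset.prod_congr rfl fun q _ => ?_
  simp [pw]

lemma bsym_ww_self (N : Finset (B D)) : ww D N N = Om D N := by
  unfold ww Om
  refine Finset.prod_congr rfl fun p hp => Finset.prod_congr rfl fun q hq => ?_
  have hq' := Finset.mem_of_mem_erase hq
  simp [pw, hp, hq']

/-- and if `typ D1 = n` only `K = ∅` contributes -/
lemma Num_single_top (ν : D.I → ℤ) (d : Dat D) {D1 D2 : Finset (B D)} (h : Disjoint D1 D2)
    (h1 : typ D D1 = d.n) : Num D ν [d] D1 D2 = Om D (D1 ∪ D2)ᶜ *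
      if ∑ i, ν i * d.n i < 0 then d.f D1 * sh D (-hb D) D1 (d.g D2)
      else d.g D2 * sh D (hb D) D2 (d.f D1) := by
  rw [bsym_Num_single, Finset.sum_eq_single ∅]
  · unfold Term
    rw [bsym_ww_empty, Finset.sdiff_empty, bsym_ww_self, Finset.union_empty, Finset.union_empty,
      Finset.prod_empty, Finset.prod_empty]
    split_ifs <;> ring
  · intro K hK hne
    by_contra hc
    have h2 := (bsym_Term_ne D ν d hc).1
    rw [bsym_typ_disj D (bsym_disj1 D hK), h1] at h2
    exact hne (typ_eq_zero D (by simpa using h2))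
  · intro hn
    exact absurd (Finset.empty_mem_powerset _) hn

end Vale.Agent.P291.H
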