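import Vale.Agent.P291.H.BDiv
import Vale.Agent.P291.H.BLift
import Vale.Agent.P291.H.BClass

set_option autoImplicit false
set_option linter.unusedSectionVars false

/-! Top-down elimination of the off-diagonal coefficients. -/

namespace Vale.Agent.P291.H

open MvPolynomial Vale.Agent.P291.G

variable (D : QData)

/-- data invisible after specialization -/
def Inv0 (c : Dat D) : Prop := (∀ A, spec D (c.f A) = 0) ∨ ∀ A, spec D (c.g A) = 0

lemma specT_hb : spec D (hb D) = 0 := by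
  rw [spec, hb, aeval_X]
  rfl

lemma specT_sh {s : S D (ZZ D)} (hs : s = hb D ∨ s = -hb D) (A : Finset (B D))
    (f : S D (ZZ D)) : spec D (sh D s A f) = spec D f := by
  have hs0 : spec D s = 0 := by
    rcases hs with h | h
    · rw [h, specT_hb]
    · rw [h, map_neg, specT_hb, neg_zero]
  have h1 : (spec D).comp (sh D s A) = spec D := by
    apply MvPolynomial.algHom_ext
    intro i
    rw [AlgHom.comp_apply]
    rcases i with b | z
    · rw [sh, aeval_X, Sum.elim_inl]
      by_cases hb' : b ∈ A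
      · rw [if_pos hb', map_add, hs0, add_zero]
        rfl
      · rw [if_neg hb']
        rfl
    · rw [sh, aeval_X, Sum.elim_inr]
  exact congrArg (fun φ : S D (ZZ D) →ₐ[ℂ] S D (Fin D.rk) => φ f) h1

lemma spec_Term_inv0 (ν : D.I → ℤ) (c : Dat D) (hc : Inv0 D c) (D1 D2 K : Finset (B D)) :
    spec D (Term D ν c D1 D2 K) = 0 := by
  unfold Term
  split_ifs
  · rw [map_mul, map_mul, map_mul, specT_sh D (Or.inr rfl)]
    rcases hc with h | h
    · rw [h]; ring
    · rw [h]; ring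
  · rw [map_mul, map_mul, map_mul, specT_sh D (Or.inl rfl)]
    rcases hc with h | h
    · rw [h]; ring
    · rw [h]; ring

lemma spec_Num_inv0 (ν : D.I → ℤ) (L : List (Dat D)) (hL : ∀ c ∈ L, Inv0 D c)
    (D1 D2 : Finset (B D)) : spec D (Num D ν L D1 D2) = 0 := by
  unfold Num
  rw [map_list_sum, List.map_map]
  apply List.sum_eq_zero
  intro x hx
  rw [List.mem_map] at hx
  obtain ⟨c, hc, rfl⟩ := hx
  rw [Function.comp_apply, map_sum]
  exact Finset.sum_eq_zero fun K _ => spec_Term_inv0 D ν c (hL c hc) D1 D2 K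

lemma Num_nil (ν : D.I → ℤ) (D1 D2 : Finset (B D)) : Num D ν [] D1 D2 = 0 := by
  simp [Num]

lemma Num_cons (ν : D.I → ℤ) (c : Dat D) (L : List (Dat D)) (D1 D2 : Finset (B D)) :
    Num D ν (c :: L) D1 D2 = Num D ν [c] D1 D2 + Num D ν L D1 D2 := by
  simp [Num]

lemma Num_ofFn (ν : D.I → ℤ) {m : ℕ} (c : Fin m → Dat D) (D1 D2 : Finset (B D)) :
    Num D ν (List.ofFn c) D1 D2 = ∑ t, Num D ν [c t] D1 D2 := by
  simp [Num, List.map_ofFn, List.sum_ofFn]

lemma Num_flatMap {α : Type} (ν : D.I → ℤ) (l : List α) (F : α → List (Dat D))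
    (D1 D2 : Finset (B D)) :
    Num D ν (l.flatMap F) D1 D2 = (l.map fun a => Num D ν (F a) D1 D2).sum := by
  induction l with
  | nil => simp [Num]
  | cons a l ih => rw [List.flatMap_cons, Num_append, ih, List.map_cons, List.sum_cons]

lemma Om_ne_zero' (N : Finset (B D)) : Om D N ≠ 0 := by
  intro h
  apply spec_Om_ne_zero D N
  rw [h, map_zero]

/-- the new data of one type -/
lemma topdown_type (ν : D.I → ℤ) (L : List (Dat D)) (d : ℕ) (hd : 1 ≤ d)
    (h0 : ∀ D1 D2 : Finset (B D), Disjoint D1 D2 → D1.card = d → spec D (Num D ν L D1 D2) = 0)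
    (h : ∀ D1 D2 : Finset (B D), Disjoint D1 D2 → d + 1 ≤ D1.card → Num D ν L D1 D2 = 0)
    (D1 D2 : Finset (B D)) (hD : Disjoint D1 D2) (hc : D1.card = d)
    (ht : typ D D1 = typ D D2) :
    ∃ L' : List (Dat D), (∀ c ∈ L', Inv0 D c ∧ c.n = typ D D1) ∧
      ∀ E1 E2 : Finset (B D), Disjoint E1 E2 → typ D E1 = typ D D1 → typ D E2 = typ D D1 →
        Num D ν L' E1 E2 = -Num D ν L E1 E2 := by
  classical
  have hn : typ D D1 ≠ 0 := by
    intro h1
    have h2 := sum_typ D D1
    rw [h1, hc] at h2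
    simp at h2
    omega
  obtain ⟨G, hG⟩ : Om D (D1 ∪ D2)ᶜ ∣ Num D ν L D1 D2 := by
    refine Om_dvd_Num D ν L hD ?_
    intro a ha b hb' hab hv
    rw [Finset.mem_compl, Finset.mem_union, not_or] at ha hb'
    refine h _ _ ?_ ?_
    · rw [Finset.disjoint_insert_left, Finset.disjoint_insert_right]
      refine ⟨?_, ha.1, hD⟩
      rw [Finset.mem_insert, not_or]
      exact ⟨fun h => hab h.symm, hb'.2⟩
    · rw [Finset.card_insert_of_notMem hb'.1, hc]
  have hG0 : spec D G = 0 := by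
    have h1 := h0 D1 D2 hD hc
    rw [hG, map_mul] at h1
    rcases mul_eq_zero.mp h1 with h2 | h2
    · exact absurd h2 (spec_Om_ne_zero D _)
    · exact h2
  have hGi : ∀ σ, mp D σ D1 = D1 → mp D σ D2 = D2 → act D (ZZ D) σ G = G := by
    intro σ h1 h2
    have h3 := act_Num D ν L σ D1 D2
    rw [h1, h2, hG, map_mul, act_Om, mp_compl, mp_union, h1, h2] at h3
    exact mul_left_cancel₀ (Om_ne_zero' D _) h3
  have key : ∀ L' : List (Dat D), Num D ν L' D1 D2 = -Num D ν L D1 D2 →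
      ∀ E1 E2 : Finset (B D), Disjoint E1 E2 → typ D E1 = typ D D1 → typ D E2 = typ D D1 →
        Num D ν L' E1 E2 = -Num D ν L E1 E2 := by
    intro L' hL' E1 E2 hE h1 h2
    obtain ⟨σ, hσ1, hσ2⟩ := exists_mp_disj D hD hE h1.symm (ht.symm.trans h2.symm)
    rw [← hσ1, ← hσ2, ← act_Num, ← act_Num, hL', map_neg]
  by_cases hν : ∑ i, ν i * (typ D D1 i : ℤ) < 0
  · obtain ⟨m, a, b, hab, hsum⟩ := liftB D (s := -hb D) (Or.inr rfl) hD ht (G := -G)
      (fun σ h1 h2 => by rw [map_neg, hGi σ h1 h2]) (by rw [map_neg, hG0, neg_zero])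
    let c : Fin m → Dat D := fun t =>
      ⟨typ D D1, a t, b t, (hab t).1, (hab t).2.1, hn⟩
    refine ⟨List.ofFn c, ?_, key _ ?_⟩
    · intro c' hc'
      rw [List.mem_ofFn] at hc'
      obtain ⟨t, rfl⟩ := hc'
      exact ⟨Or.inl (hab t).2.2, rfl⟩
    · rw [Num_ofFn]
      have h1 : ∀ t, Num D ν [c t] D1 D2 = Om D (D1 ∪ D2)ᶜ * (a t D1 * sh D (-hb D) D1 (b t D2)) := by
        intro t
        rw [Num_single_top D ν (c t) hD rfl, if_pos hν]
      rw [Finset.sum_congr rfl fun t _ => h1 t, ← Finset.mul_sum, hsum, hG, mul_neg]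
  · obtain ⟨m, a, b, hab, hsum⟩ := liftB D (s := hb D) (Or.inl rfl) hD.symm ht.symm (G := -G)
      (fun σ h1 h2 => by rw [map_neg, hGi σ h2 h1]) (by rw [map_neg, hG0, neg_zero])
    rw [← ht] at hab
    let c : Fin m → Dat D := fun t =>
      ⟨typ D D1, b t, a t, (hab t).2.1, (hab t).1, hn⟩
    refine ⟨List.ofFn c, ?_, key _ ?_⟩
    · intro c' hc'
      rw [List.mem_ofFn] at hc'
      obtain ⟨t, rfl⟩ := hc'
      exact ⟨Or.inr (hab t).2.2, rfl⟩
    · rw [Num_ofFn]
      have h1 : ∀ t, Num D ν [c t] D1 D2 = Om D (D1 ∪ D2)ᶜ * (a t D2 * sh D (hb D) D2 (b t D1)) := by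
        intro t
        rw [Num_single_top D ν (c t) hD rfl, if_neg hν]
      rw [Finset.sum_congr rfl fun t _ => h1 t, ← Finset.mul_sum, hsum, hG, mul_neg]

lemma Num_eq_zero_of_typ (ν : D.I → ℤ) (L : List (Dat D)) {D1 D2 : Finset (B D)}
    (h : Disjoint D1 D2) (hL : ∀ c ∈ L, ¬ typ D D1 ≤ c.n) : Num D ν L D1 D2 = 0 := by
  induction L with
  | nil => exact Num_nil D ν D1 D2
  | cons c L ih =>
    rw [Num_cons, ih fun c' hc' => hL c' (List.mem_cons_of_mem _ hc'), add_zero]
    by_contra hne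
    exact hL c List.mem_cons_self (Num_single_ne D ν c h hne)

/-- One step. For every type `n` with `∑ n = d` having a pair of disjoint subsets of type `n`
choose such a pair `(D1, D2)`; by `Om_dvd_Num` (the numerators of level `d + 1` vanish, by `Num_typ`
for different types) `Num L D1 D2 = Om (D1 ∪ D2)ᶜ * G`, `spec G = 0`, `G` invariant under the common
stabilizer. Apply `liftB` to `-G` (if `ν·n < 0`: `s = -ħ`, `f = a`, `g = b`; otherwise, with the
roles of `D1`, `D2` exchanged: `s = ħ`, `g = a`, `f = b`). The new data `c` of type `n` have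
`Num [c] E1 E2 = 0` if `E1.card > d`, or if `E1.card = d` and `typ E1 ≠ n` (`Num_single_ne`), and
`Num L' D1 D2 = - Num L D1 D2` (`Num_single_top`), hence the same at all disjoint pairs of type
`n` (`exists_mp_disj`, `act_Num`). -/
lemma topdown_step (ν : D.I → ℤ) (L : List (Dat D)) (d : ℕ) (hd : 1 ≤ d)
    (h0 : ∀ D1 D2 : Finset (B D), Disjoint D1 D2 → D1.card = d → spec D (Num D ν L D1 D2) = 0)
    (h : ∀ D1 D2 : Finset (B D), Disjoint D1 D2 → d + 1 ≤ D1.card → Num D ν L D1 D2 = 0) :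
    ∃ L' : List (Dat D), (∀ c ∈ L', Inv0 D c) ∧
      ∀ D1 D2 : Finset (B D), Disjoint D1 D2 → d ≤ D1.card → Num D ν (L ++ L') D1 D2 = 0 := by
  classical
  -- the data of a given type
  have hex : ∀ n : D.I → ℕ, ∃ L' : List (Dat D), (∀ c ∈ L', Inv0 D c ∧ c.n = n ∧ ∑ i, n i = d) ∧
      ∀ E1 E2 : Finset (B D), Disjoint E1 E2 → E1.card = d → typ D E1 = n → typ D E2 = n →
        Num D ν L' E1 E2 = -Num D ν L E1 E2 := by
    intro n
    by_cases hn : ∃ D1 D2 : Finset (B D), Disjoint D1 D2 ∧ D1.card = d ∧ typ D D1 = n ∧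
        typ D D2 = n
    · obtain ⟨D1, D2, hD, hc, h1, h2⟩ := hn
      obtain ⟨L', hL1, hL2⟩ := topdown_type D ν L d hd h0 h D1 D2 hD hc (h1.trans h2.symm)
      refine ⟨L', fun c hc' => ⟨(hL1 c hc').1, (hL1 c hc').2.trans h1, ?_⟩, ?_⟩
      · rw [← h1, sum_typ, hc]
      · intro E1 E2 hE _ e1 e2
        exact hL2 E1 E2 hE (e1.trans h1.symm) (e2.trans h1.symm)
    · refine ⟨[], fun c hc => absurd hc List.not_mem_nil, ?_⟩
      intro E1 E2 hE hc e1 e2
      exact absurd ⟨E1, E2, hE, hc, e1, e2⟩ hn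
  choose F hF1 hF2 using hex
  let T : Finset (D.I → ℕ) := Finset.univ.image (typ D)
  refine ⟨T.toList.flatMap F, ?_, ?_⟩
  · intro c hc
    rw [List.mem_flatMap] at hc
    obtain ⟨n, _, hn⟩ := hc
    exact (hF1 n c hn).1
  · intro D1 D2 hD hc
    rw [Num_append, Num_flatMap]
    by_cases ht : typ D D1 = typ D D2
    swap
    · rw [Num_typ D ν L hD ht]
      rw [zero_add]
      apply List.sum_eq_zero
      intro x hx
      rw [List.mem_map] at hx
      obtain ⟨n, _, rfl⟩ := hx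
      exact Num_typ D ν _ hD ht
    have hzero : ∀ n, n ≠ typ D D1 → Num D ν (F n) D1 D2 = 0 := by
      intro n hn
      apply Num_eq_zero_of_typ D ν _ hD
      intro c hc' hle
      obtain ⟨_, h2, h3⟩ := hF1 n c hc'
      rw [h2] at hle
      have h4 : ∑ i, typ D D1 i ≤ ∑ i, n i := Finset.sum_le_sum fun i _ => hle i
      rw [h3, sum_typ] at h4
      have h5 : ∑ i, typ D D1 i = ∑ i, n i := by rw [h3, sum_typ]; omega
      apply hn
      funext i
      exact (((Finset.sum_eq_sum_iff_of_le fun i _ => hle i).mp h5) i (Finset.mem_univ i)).symm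
    have hmem : typ D D1 ∈ T := Finset.mem_image_of_mem _ (Finset.mem_univ _)
    have hsum : (T.toList.map fun a => Num D ν (F a) D1 D2).sum = Num D ν (F (typ D D1)) D1 D2 := by
      rw [Finset.sum_map_toList]
      exact Finset.sum_eq_single_of_mem _ hmem fun n _ hn => hzero n hn
    rw [hsum]
    rcases hc.eq_or_lt with hc' | hc'
    · rw [hF2 (typ D D1) D1 D2 hD hc'.symm rfl ht.symm]
      ring
    · rw [h D1 D2 hD hc', zero_add]
      apply Num_eq_zero_of_typ D ν _ hD
      intro c hc2 _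
      obtain ⟨_, _, h3⟩ := hF1 (typ D D1) c hc2
      rw [sum_typ] at h3
      omega

/-- the top-down induction: starts above the cardinality of `B D`, where `Num` vanishes by
`Num_typ` or because there are no disjoint pairs -/
theorem topdown (ν : D.I → ℤ) (L : List (Dat D))
    (h0 : ∀ D1 D2 : Finset (B D), Disjoint D1 D2 → 1 ≤ D1.card → spec D (Num D ν L D1 D2) = 0) :
    ∃ L' : List (Dat D), (∀ c ∈ L', Inv0 D c) ∧
      ∀ D1 D2 : Finset (B D), Disjoint D1 D2 → 1 ≤ D1.card → Num D ν (L ++ L') D1 D2 = 0 := by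
  have key : ∀ k : ℕ, ∃ L' : List (Dat D), (∀ c ∈ L', Inv0 D c) ∧
      ∀ D1 D2 : Finset (B D), Disjoint D1 D2 → 1 ≤ D1.card →
        Fintype.card (B D) + 1 - k ≤ D1.card → Num D ν (L ++ L') D1 D2 = 0 := by
    intro k
    induction k with
    | zero =>
      refine ⟨[], fun c hc => absurd hc List.not_mem_nil, ?_⟩
      intro D1 D2 _ _ hc
      have := Finset.card_le_univ D1
      omega
    | succ k ih =>
      obtain ⟨L', hL1, hL2⟩ := ih
      by_cases hk : 1 ≤ Fintype.card (B D) + 1 - (k + 1)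
      · obtain ⟨L'', hL3, hL4⟩ := topdown_step D ν (L ++ L') (Fintype.card (B D) + 1 - (k + 1)) hk
          (fun D1 D2 hD hc => by
            rw [Num_append, map_add, h0 D1 D2 hD (by omega), spec_Num_inv0 D ν L' hL1, add_zero])
          (fun D1 D2 hD hc => hL2 D1 D2 hD (by omega) (by omega))
        refine ⟨L' ++ L'', ?_, ?_⟩
        · intro c hc
          rcases List.mem_append.mp hc with h | h
          · exact hL1 c h
          · exact hL3 c h
        · intro D1 D2 hD _ hc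
          rw [← List.append_assoc]
          exact hL4 D1 D2 hD hc
      · refine ⟨L', hL1, fun D1 D2 hD h1 hc => ?_⟩
        exact hL2 D1 D2 hD h1 (by omega)
  obtain ⟨L', hL1, hL2⟩ := key (Fintype.card (B D) + 1)
  exact ⟨L', hL1, fun D1 D2 hD h1 => hL2 D1 D2 hD h1 (by omega)⟩

end Vale.Agent.P291.H
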