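import Vale.Agent.P291.H.Pair

set_option autoImplicit false
set_option linter.unusedSectionVars false

/-! The chain lemma. -/

namespace Vale.Agent.P291.H

open MvPolynomial Vale.Agent.P291.G

variable {D : QData} {Z : Type} (w : Wts D Z)

/-! ### auxiliary facts -/

/-- elements of a triple product of submodules as finite sums -/
lemma chain_mem_mul3 {R : Type} [CommRing R] [Algebra ℂ R] {A B' C' : Submodule ℂ R} {x : R}
    (h : x ∈ A * B' * C') : ∃ (N : ℕ) (a b c : Fin N → R), (∀ k, a k ∈ A) ∧ (∀ k, b k ∈ B') ∧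
      (∀ k, c k ∈ C') ∧ x = ∑ k, a k * b k * c k := by
  rw [← Submodule.span_eq A, ← Submodule.span_eq B', ← Submodule.span_eq C',
    Submodule.span_mul_span, Submodule.span_mul_span, Submodule.mem_span_set'] at h
  obtain ⟨N, f, g, hg⟩ := h
  have h1 : ∀ k : Fin N, ∃ a b c : R, a ∈ A ∧ b ∈ B' ∧ c ∈ C' ∧ (g k : R) = a * b * c := by
    intro k
    obtain ⟨ab, hab, c, hc, h2⟩ := Set.mem_mul.1 (g k).2
    obtain ⟨a, ha, b, hb, h3⟩ := Set.mem_mul.1 hab
    exact ⟨a, b, c, ha, hb, hc, by rw [← h2, ← h3]⟩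
  choose a b c ha hb hc habc using h1
  refine ⟨N, fun k => f k • a k, b, c, fun k => A.smul_mem _ (ha k), hb, hc, ?_⟩
  rw [← hg]
  refine Finset.sum_congr rfl fun k _ => ?_
  rw [habc, smul_mul_assoc, smul_mul_assoc]

/-- an algebra endomorphism acts on integers trivially -/
lemma chain_act_sgn (σ τ : W D) : act D Z σ (sgn D τ : S D Z) = (sgn D τ : S D Z) := by
  rw [map_intCast]

lemma chain_sgn_sq (σ : W D) : (sgn D σ : S D Z) * (sgn D σ : S D Z) = 1 := by
  rw [← Int.cast_mul, sgn_sq, Int.cast_one]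

lemma chain_mem_Gr {ε : ℕ} {n : D.I → ℕ} {A : Finset (B D)}
    {x : AddMonoidAlgebra (S D Z) (B D → ℤ) × S D Z} :
    x ∈ Gr w ε n A ↔ ∃ φ ∈ AF D Z n, (slot w ε φ, φ A) = x := Iff.rfl

/-- second components of the products of graphs are alternating up to sign under the permutations
fixing all elements of `C₀ ⊇ C j`: each factor `φ (C j)` gives one sign -/
lemma graph_snd_act (ε : ℕ → ℕ) (m : ℕ) (n : ℕ → D.I → ℕ) (C : ℕ → Finset (B D))
    {Y : AddMonoidAlgebra (S D Z) (B D → ℤ)} {p : S D Z}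
    (h : (Y, p) ∈ ∏ j ∈ Finset.range m, Gr w (ε j) (n j) (C j)) (σ : W D)
    (hσ : ∀ j, j < m → mp D σ (C j) = C j) :
    act D Z σ p = (sgn D σ : S D Z) ^ m * p := by
  have key : ∀ m, (∀ j, j < m → mp D σ (C j) = C j) →
      ∀ x ∈ ∏ j ∈ Finset.range m, Gr w (ε j) (n j) (C j),
        act D Z σ x.2 = (sgn D σ : S D Z) ^ m * x.2 := by
    intro m
    induction m with
    | zero =>
      intro _ x hx
      rw [Finset.range_zero, Finset.prod_empty, Submodule.mem_one] at hx
      obtain ⟨c, rfl⟩ := hx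
      rw [pow_zero, one_mul, Prod.algebraMap_apply, AlgHom.commutes]
    | succ m ih =>
      intro hσ x hx
      rw [Finset.prod_range_succ] at hx
      refine Submodule.mul_induction_on hx ?_ ?_
      · intro a ha b hb
        obtain ⟨φ, hφ, rfl⟩ := (chain_mem_Gr w).1 hb
        rw [Prod.snd_mul, map_mul, ih (fun j hj => hσ j (by omega)) a ha, hφ.1 σ (C m),
          hσ m (by omega), pow_succ]
        ring
      · intro a b ha hb
        rw [Prod.snd_add, map_add, ha, hb, mul_add]
  exact key m hσ (Y, p) h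

/-- first components of the products of graphs -/
lemma chain_fst_mem (ε : ℕ → ℕ) (m : ℕ) (n : ℕ → D.I → ℕ) (C : ℕ → Finset (B D))
    {x : AddMonoidAlgebra (S D Z) (B D → ℤ) × S D Z}
    (h : x ∈ ∏ j ∈ Finset.range m, Gr w (ε j) (n j) (C j)) :
    x.1 ∈ ∏ j ∈ Finset.range m, U w (ε j) (n j) := by
  induction m generalizing x with
  | zero =>
    rw [Finset.range_zero, Finset.prod_empty, Submodule.mem_one] at h ⊢
    obtain ⟨c, rfl⟩ := h
    exact ⟨c, rfl⟩
  | succ m ih =>
    rw [Finset.prod_range_succ] at h ⊢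
    refine Submodule.mul_induction_on h ?_ ?_
    · intro a ha b hb
      obtain ⟨φ, hφ, rfl⟩ := (chain_mem_Gr w).1 hb
      rw [Prod.fst_mul]
      exact Submodule.mul_mem_mul (ih ha) ⟨φ, hφ, rfl⟩
    · intro a b ha hb
      rw [Prod.fst_add]
      exact Submodule.add_mem _ ha hb

/-- a permutation fixing all elements of a subset preserves it -/
lemma chain_mp_fix {τ : W D} {A : Finset (B D)} (h : ∀ b ∈ A, perm D τ b = b) :
    mp D τ A = A := by
  ext b
  constructor
  · intro hb
    rw [mem_mp'] at hb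
    have h1 := h _ hb
    rw [Equiv.apply_symm_apply] at h1
    rwa [← h1] at hb
  · intro hb
    have h1 := (mem_mp D τ A b).2 hb
    rwa [h b hb] at h1

/-- a permutation fixing all elements outside of `q` preserves the subsets containing `q` -/
lemma chain_mp_fix_compl {τ : W D} {q P : Finset (B D)} (hq : q ⊆ P)
    (h : ∀ b ∉ q, perm D τ b = b) : mp D τ P = P := by
  have h1 : mp D τ Pᶜ = Pᶜ := chain_mp_fix fun b hb =>
    h b fun hbq => Finset.mem_compl.1 hb (hq hbq)
  rw [mp_compl] at h1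
  exact compl_injective h1

/-- the subsets of the chain are contained in the second one -/
lemma chain_subset {m : ℕ} {C : ℕ → Finset (B D)} (hC : ∀ j, j + 1 < m → C (j + 1) ⊆ C j)
    (j : ℕ) (hj : j + 1 < m) : C (j + 1) ⊆ C 1 := by
  induction j with
  | zero => exact subset_rfl
  | succ j ih => exact (hC (j + 1) hj).trans (ih (by omega))

/-- the vanishing of the sums of the products with the permuted `K k` -/
lemma chain_act_sum {N : ℕ} {P q : Finset (B D)} (hq : q ⊆ P) (K p : Fin N → S D Z)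
    (hK : ∀ k σ, mp D σ P = P → mp D σ q = q → act D Z σ (K k) = (sgn D σ : S D Z) * K k)
    (r : ℕ) (hp : ∀ k σ, (∀ b ∈ q, perm D σ b = b) →
      act D Z σ (p k) = (sgn D σ : S D Z) ^ r * p k)
    (h0 : ∑ k, K k * p k = 0) {τ : W D} (hτ : mp D τ q = q) :
    ∑ k, act D Z τ (K k) * p k = 0 := by
  obtain ⟨τ1, τ2, rfl, h1, h2⟩ := exists_factor D hτ
  have e1 : ∀ k, act D Z (τ2 * τ1) (K k) * p k =
      ((sgn D τ1 : S D Z) * (sgn D τ2 : S D Z) ^ r) * act D Z τ2 (K k * p k) := by
    intro k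
    rw [act_mul, hK k τ1 (chain_mp_fix_compl hq h1) (chain_mp_fix_compl subset_rfl h1), map_mul,
      map_mul, hp k τ2 h2, chain_act_sgn]
    have h3 : ((sgn D τ2 : S D Z) ^ r) * ((sgn D τ2 : S D Z) ^ r) = 1 := by
      rw [← mul_pow, chain_sgn_sq, one_pow]
    calc (sgn D τ1 : S D Z) * act D Z τ2 (K k) * p k
        = (sgn D τ1 : S D Z) * act D Z τ2 (K k) * p k * 1 := by rw [mul_one]
      _ = _ := by rw [← h3]; ring
  rw [Finset.sum_congr rfl fun k _ => e1 k, ← Finset.mul_sum, ← map_sum, h0, map_zero, mul_zero]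

/-- value of the sum of the second factors -/
lemma chain_liftQ_sum {N : ℕ} {P q : Finset (B D)} (hq : q ⊆ P) (K p : Fin N → S D Z)
    (hK : ∀ k σ, mp D σ P = P → mp D σ q = q → act D Z σ (K k) = (sgn D σ : S D Z) * K k)
    (r : ℕ) (hp : ∀ k σ, (∀ b ∈ q, perm D σ b = b) →
      act D Z σ (p k) = (sgn D σ : S D Z) ^ r * p k)
    (h0 : ∑ k, K k * p k = 0) (t : Finset (B D × B D)) (c : ℂ) :
    ∑ k, liftQ D Z q t (C c * K k) q * p k = 0 := by
  have e1 : ∀ k, liftQ D Z q t (C c * K k) q * p k =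
      ∑ τ ∈ Finset.univ.filter fun τ : W D => mp D τ q = q,
        ((sgn D τ : S D Z) * act D Z τ ((∏ p ∈ t, xx D Z p.1) * C c)) *
          (act D Z τ (K k) * p k) := by
    intro k
    rw [liftQ, orb_self, Finset.sum_mul]
    refine Finset.sum_congr rfl fun τ _ => ?_
    rw [← mul_assoc (∏ p ∈ t, xx D Z p.1), map_mul _ _ (K k)]
    ring
  rw [Finset.sum_congr rfl fun k _ => e1 k, Finset.sum_comm]
  refine Finset.sum_eq_zero fun τ hτ => ?_
  rw [← Finset.mul_sum, chain_act_sum hq K p hK r hp h0 (Finset.mem_filter.1 hτ).2, mul_zero]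

lemma chain_UU_succ (ε : ℕ → ℕ) (m : ℕ) (n : ℕ → D.I → ℕ) : UU w ε (m + 1) n =
    U w (ε 0) (n 0) * UU w (fun j => ε (j + 1)) m (fun j => n (j + 1)) := by
  rw [UU, Finset.prod_range_succ', UU]
  exact Submodule.mul_comm _ _

lemma chain_move_zero (n : ℕ → D.I → ℕ) (i : ℕ) (δ : D.I → ℕ) : move n (i + 1) δ 0 = n 0 := by
  rw [move, Function.update_of_ne (by omega), Function.update_of_ne (by omega)]

lemma chain_move_succ (n : ℕ → D.I → ℕ) (i : ℕ) (δ : D.I → ℕ) (j : ℕ) :
    move n (i + 1) δ (j + 1) = move (fun j => n (j + 1)) i δ j := by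
  simp only [move, Function.update_apply, add_left_inj]

lemma chain_UU_move_shift (ε : ℕ → ℕ) (m : ℕ) (n : ℕ → D.I → ℕ) (i : ℕ) (δ : D.I → ℕ) :
    UU w ε (m + 1) (move n (i + 1) δ) =
      U w (ε 0) (n 0) * UU w (fun j => ε (j + 1)) m (move (fun j => n (j + 1)) i δ) := by
  rw [chain_UU_succ, chain_move_zero]
  congr 2
  funext j
  exact chain_move_succ n i δ j

lemma chain_UU_move_zero (ε : ℕ → ℕ) (m : ℕ) (n : ℕ → D.I → ℕ) (δ : D.I → ℕ) :
    UU w ε (m + 2) (move n 0 δ) = U w (ε 0) (n 0 + δ) * U w (ε 1) (n 1 - δ) *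
      UU w (fun j => ε (j + 1 + 1)) m (fun j => n (j + 1 + 1)) := by
  rw [chain_UU_succ, chain_UU_succ, mul_assoc]
  rfl

/-- CHAIN LEMMA. If `(X, 0)` is in the product of the graphs of the slots at the nested chain
`C 0 ⊇ C 1 ⊇ ...` (of types `n j = typ (C j)`), then `X` lies in the span of the products with two
neighbouring types `n i, n (i+1)` replaced by `n i + δ, n (i+1) - δ`, `δ ≠ 0`.

Proof: induction on `m`, generalizing over `ε n C T X`. `m = 0`: the product is `1` (spanned by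
`(1,1)`), so `X = 0`. `m = 1`: `X = slot φ`, `φ (C 0) = 0`, hence `φ = 0` (`AF_eq_zero`).
`m = m' + 2`: put `P = C 0`, `q = C 1`, `Γ' = ∏_{j < m'} Gr (ε (j+2)) (n (j+2)) (C (j+2))`. An element
of the product is `∑_k (slot φ_k * slot ψ_k * Y_k, φ_k P * ψ_k q * p_k)` with `(Y_k, p_k) ∈ Γ'`. Let
`K_k` be as in `pair_lift` for `φ_k, ψ_k`, `c = liftc`. For `t ⊆ prs P q` put
`X_t = ∑_k slot (liftQ q t (c⁻¹ K_k)) * Y_k`, `p_t = ∑_k liftQ q t (c⁻¹ K_k) q * p_k`, so
`(X_t, p_t)` is in the product of the graphs for the sequences shifted by one. CLAIM: `p_t = 0`.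
Indeed `0 = ∑_k φ_k P ψ_k q p_k = Dl P * cr (P \ q) Pᶜ * ∑_k K_k p_k`, so `∑_k K_k p_k = 0`, and
`liftQ q t K q = ∑_{τ, mp τ q = q} sgn τ * τ(b_t) * τ(K)`; by `exists_factor` `τ = τ2 τ1` with `τ1`
the identity outside `q` and `τ2` the identity on `q`; so `mp τ1 q = q`, `mp τ1 P = P`,
`τ1 K_k = sgn τ1 K_k`, and `τ2` fixes all `C (j+2) ⊆ q` so `p_k = ± τ2 p_k` with a sign independent
of `k` (`graph_snd_act`; `± 1` squares to `1`). Hence
`∑_k τ(K_k) p_k = ± τ2 (∑_k K_k p_k) = 0`. By the induction hypothesis for the shifted sequences and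
`T' = {Y | ∀ φ ∈ AF (n 0), slot (ε 0) φ * Y ∈ T}` we get `X_t ∈ T'`, so
`slot (liftP P q t) * X_t ∈ T`. Finally
`X - ∑_t slot (liftP P q t) * X_t = ∑_k (slot φ_k slot ψ_k - ∑_t slot (liftP t) slot (liftQ t (c⁻¹ K_k))) Y_k`
is in `T` by the last part of `pair_lift` with `T'' = {Y | Y * Y_k ∈ T}` (this is the case `i = 0`
of `hT`). -/
theorem chain (m : ℕ) (ε : ℕ → ℕ) (n : ℕ → D.I → ℕ) (C : ℕ → Finset (B D))
    (hε : ∀ j, ε j ≤ ε (j + 1)) (hC : ∀ j, j + 1 < m → C (j + 1) ⊆ C j)
    (hn : ∀ j, j < m → typ D (C j) = n j)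
    (T : Submodule ℂ (AddMonoidAlgebra (S D Z) (B D → ℤ)))
    (hT : ∀ i (δ : D.I → ℕ), i + 1 < m → δ ≠ 0 → δ ≤ n (i + 1) → UU w ε m (move n i δ) ≤ T)
    (X : AddMonoidAlgebra (S D Z) (B D → ℤ))
    (hX : (X, (0 : S D Z)) ∈ ∏ j ∈ Finset.range m, Gr w (ε j) (n j) (C j)) : X ∈ T := by
  induction m generalizing ε n C T X with
  | zero =>
    rw [Finset.range_zero, Finset.prod_empty, Submodule.mem_one] at hX
    obtain ⟨c, hc⟩ := hX
    have h1 : algebraMap ℂ (AddMonoidAlgebra (S D Z) (B D → ℤ)) c = X := congrArg Prod.fst hc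
    have h2 : algebraMap ℂ (S D Z) c = 0 := congrArg Prod.snd hc
    rw [MvPolynomial.algebraMap_eq, MvPolynomial.C_eq_zero] at h2
    rw [← h1, h2, map_zero]
    exact T.zero_mem
  | succ m ih =>
    rcases m with _ | m
    · rw [zero_add, Finset.prod_range_one] at hX
      obtain ⟨φ, hφ, hφX⟩ := (chain_mem_Gr w).1 hX
      have h1 : slot w (ε 0) φ = X := congrArg Prod.fst hφX
      have h2 : φ (C 0) = 0 := congrArg Prod.snd hφX
      rw [← h1, AF_eq_zero D Z hφ (hn 0 (by omega)) h2, map_zero]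
      exact T.zero_mem
    · -- notation
      obtain ⟨P, hP⟩ : ∃ P, P = C 0 := ⟨_, rfl⟩
      obtain ⟨q, hq⟩ : ∃ q, q = C 1 := ⟨_, rfl⟩
      have hqP : q ⊆ P := by rw [hP, hq]; exact hC 0 (by omega)
      have hn0 : n 0 = typ D P := by rw [hP]; exact (hn 0 (by omega)).symm
      have hn1 : n 1 = typ D q := by rw [hq]; exact (hn 1 (by omega)).symm
      -- the element as a sum
      have hX1 : (X, (0 : S D Z)) ∈ Gr w (ε 0) (n 0) (C 0) * Gr w (ε 1) (n 1) (C 1) *
          ∏ j ∈ Finset.range m, Gr w (ε (j + 1 + 1)) (n (j + 1 + 1)) (C (j + 1 + 1)) := by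
        rw [Finset.prod_range_succ', Finset.prod_range_succ'] at hX
        have e1 : ∀ a b c : Submodule ℂ (AddMonoidAlgebra (S D Z) (B D → ℤ) × S D Z),
            a * b * c = c * b * a := fun a b c => by
          rw [Submodule.mul_comm (a * b) c, Submodule.mul_comm a b]
          exact (mul_assoc c b a).symm
        rw [e1] at hX
        exact hX
      obtain ⟨N, a, b, c, ha, hb, hc, hs⟩ := chain_mem_mul3 hX1
      choose φ hφ hφa using fun k => (chain_mem_Gr w).1 (ha k)
      choose ψ hψ hψb using fun k => (chain_mem_Gr w).1 (hb k)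
      have hXs : X = ∑ k, slot w (ε 0) (φ k) * slot w (ε 1) (ψ k) * (c k).1 := by
        have h1 := congrArg Prod.fst hs
        rw [Prod.fst_sum] at h1
        refine h1.trans ?_
        refine Finset.sum_congr rfl fun k _ => ?_
        rw [Prod.fst_mul, Prod.fst_mul, ← hφa k, ← hψb k]
      have h0s : 0 = ∑ k, φ k P * ψ k q * (c k).2 := by
        have h1 := congrArg Prod.snd hs
        rw [Prod.snd_sum] at h1
        refine h1.trans ?_
        refine Finset.sum_congr rfl fun k _ => ?_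
        rw [Prod.snd_mul, Prod.snd_mul, ← hφa k, ← hψb k, hP, hq]
      -- the polynomials `K k`
      have hpl := fun k => pair_lift w (hε 0) hqP (φ := φ k) (ψ := ψ k) (hn0 ▸ hφ k) (hn1 ▸ hψ k)
      choose K hK1 hK2 hK3 using hpl
      have hKs : ∑ k, K k * (c k).2 = 0 := by
        have h1 : (Dl D Z P * cr D Z (P \ q) Pᶜ) * ∑ k, K k * (c k).2 = 0 := by
          rw [Finset.mul_sum]
          refine Eq.trans (Finset.sum_congr rfl fun k _ => ?_) h0s.symm
          rw [hK1 k, mul_assoc (Dl D Z P * cr D Z (P \ q) Pᶜ)]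
        rcases mul_eq_zero.1 h1 with h2 | h2
        · exfalso
          refine mul_ne_zero (Dl_ne_zero D Z P) (cr_ne_zero D Z ?_) h2
          exact disjoint_compl_right.mono_left Finset.sdiff_subset
        · exact h2
      -- the second components are alternating under the stabilizer
      have hp : ∀ k σ, (∀ b ∈ q, perm D σ b = b) →
          act D Z σ (c k).2 = (sgn D σ : S D Z) ^ m * (c k).2 := by
        intro k σ hσ
        refine graph_snd_act w (fun j => ε (j + 1 + 1)) m (fun j => n (j + 1 + 1))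
          (fun j => C (j + 1 + 1)) (Y := (c k).1) (hc k) σ fun j hj => ?_
        refine chain_mp_fix fun b hb => hσ b ?_
        rw [hq]
        exact chain_subset hC (j + 1) (by omega) hb
      obtain ⟨κ, hκ⟩ : ∃ κ : ℂ, κ = (liftc D P q : ℂ)⁻¹ := ⟨_, rfl⟩
      rw [← hκ] at hK3
      have hXt : ∀ t : Finset (B D × B D),
          (∑ k, slot w (ε 1) (liftQ D Z q t (MvPolynomial.C κ * K k)) * (c k).1, (0 : S D Z)) ∈
            ∏ j ∈ Finset.range (m + 1), Gr w (ε (j + 1)) (n (j + 1)) (C (j + 1)) := by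
        intro t
        have e1 : (∑ k, slot w (ε 1) (liftQ D Z q t (MvPolynomial.C κ * K k)) * (c k).1,
            (0 : S D Z)) = ∑ k, c k * (slot w (ε 1) (liftQ D Z q t (MvPolynomial.C κ * K k)),
              liftQ D Z q t (MvPolynomial.C κ * K k) q) := by
          refine Prod.ext ?_ ?_
          · rw [Prod.fst_sum]
            show ∑ k, slot w (ε 1) (liftQ D Z q t (MvPolynomial.C κ * K k)) * (c k).1 = _
            refine Finset.sum_congr rfl fun k _ => ?_
            rw [Prod.fst_mul, mul_comm]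
          · rw [Prod.snd_sum]
            refine Eq.trans (chain_liftQ_sum hqP K (fun k => (c k).2) hK2 m hp hKs t κ).symm
              (Finset.sum_congr rfl fun k _ => ?_)
            rw [Prod.snd_mul, mul_comm]
        rw [e1, Finset.prod_range_succ']
        refine Submodule.sum_mem _ fun k _ => Submodule.mul_mem_mul (hc k) ?_
        refine (chain_mem_Gr w).2 ⟨liftQ D Z q t (MvPolynomial.C κ * K k), ?_, ?_⟩
        · rw [zero_add, hn1]
          exact liftQ_mem D Z q t _
        · rw [zero_add, ← hq]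
      -- the induction hypothesis
      let T' : Submodule ℂ (AddMonoidAlgebra (S D Z) (B D → ℤ)) :=
        { carrier := {Y | ∀ φ ∈ AF D Z (n 0), slot w (ε 0) φ * Y ∈ T}
          add_mem' := fun ha hb φ hφ => by
            rw [mul_add]
            exact T.add_mem (ha φ hφ) (hb φ hφ)
          zero_mem' := fun φ _ => by
            rw [mul_zero]
            exact T.zero_mem
          smul_mem' := fun r Y hY φ hφ => by
            rw [mul_smul_comm]
            exact T.smul_mem r (hY φ hφ) }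
      have hT' : ∀ i (δ : D.I → ℕ), i + 1 < m + 1 → δ ≠ 0 → δ ≤ (fun j => n (j + 1)) (i + 1) →
          UU w (fun j => ε (j + 1)) (m + 1) (move (fun j => n (j + 1)) i δ) ≤ T' := by
        intro i δ hi hδ hδn Y hY φ hφ
        have h1 := hT (i + 1) δ (by omega) hδ hδn
        rw [chain_UU_move_shift] at h1
        exact h1 (Submodule.mul_mem_mul ⟨φ, hφ, rfl⟩ hY)
      have hm : ∀ t : Finset (B D × B D), slot w (ε 0) (liftP D Z P q t) *
          ∑ k, slot w (ε 1) (liftQ D Z q t (MvPolynomial.C κ * K k)) * (c k).1 ∈ T := by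
        intro t
        have h1 := ih (fun j => ε (j + 1)) (fun j => n (j + 1)) (fun j => C (j + 1))
          (fun j => hε (j + 1)) (fun j hj => hC (j + 1) (by omega))
          (fun j hj => hn (j + 1) (by omega)) T' hT' _ (hXt t)
        refine h1 (liftP D Z P q t) ?_
        rw [hn0]
        exact liftP_mem D Z P q t
      have hfin : X = ∑ t ∈ (prs D P q).powerset, slot w (ε 0) (liftP D Z P q t) *
            ∑ k, slot w (ε 1) (liftQ D Z q t (MvPolynomial.C κ * K k)) * (c k).1 +
          ∑ k, (slot w (ε 0) (φ k) * slot w (ε 1) (ψ k) - ∑ t ∈ (prs D P q).powerset,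
            slot w (ε 0) (liftP D Z P q t) *
              slot w (ε 1) (liftQ D Z q t (MvPolynomial.C κ * K k))) * (c k).1 := by
        have e1 : ∑ t ∈ (prs D P q).powerset, slot w (ε 0) (liftP D Z P q t) *
            ∑ k, slot w (ε 1) (liftQ D Z q t (MvPolynomial.C κ * K k)) * (c k).1 =
            ∑ k, (∑ t ∈ (prs D P q).powerset, slot w (ε 0) (liftP D Z P q t) *
              slot w (ε 1) (liftQ D Z q t (MvPolynomial.C κ * K k))) * (c k).1 := by
          simp only [Finset.mul_sum, Finset.sum_mul]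
          rw [Finset.sum_comm]
          refine Finset.sum_congr rfl fun k _ => Finset.sum_congr rfl fun t _ => ?_
          rw [mul_assoc]
        rw [e1, hXs, ← Finset.sum_add_distrib]
        refine Finset.sum_congr rfl fun k _ => ?_
        rw [← add_mul, add_sub_cancel]
      rw [hfin]
      refine T.add_mem (T.sum_mem fun t _ => hm t) (T.sum_mem fun k _ => ?_)
      refine hK3 k (T.comap (LinearMap.mulRight ℂ (c k).1)) fun δ hδ hδq Y hY => ?_
      show Y * (c k).1 ∈ T
      have h1 := hT 0 δ (by omega) hδ (by rw [zero_add, hn1]; exact hδq)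
      rw [chain_UU_move_zero] at h1
      refine h1 (Submodule.mul_mem_mul ?_
        (chain_fst_mem w (fun j => ε (j + 1 + 1)) m (fun j => n (j + 1 + 1))
          (fun j => C (j + 1 + 1)) (hc k)))
      rw [hn0, hn1]
      exact hY

end Vale.Agent.P291.H
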