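import Vale.Agent.P291.H.Basic

set_option autoImplicit false
set_option linter.unusedSectionVars false

/-! Coefficients of products of two slots. -/

namespace Vale.Agent.P291.H

open MvPolynomial Vale.Agent.P291.G

variable {D : QData} {Z : Type} (w : Wts D Z)

lemma e_ne_zero (A : Finset (B D)) : e w A ≠ 0 := by
  rw [e, Finset.prod_ne_zero_iff]
  intro b hb
  rw [Finset.prod_ne_zero_iff]
  intro c hc
  apply w.h_ne
  rintro rfl
  exact (Finset.mem_compl.1 hc) hb

lemma zs_ne_zero (A : Finset (B D)) : zs w A ≠ 0 := by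
  rw [zs]
  exact Finset.prod_ne_zero_iff.2 fun b _ => w.z_ne b

lemma act_e (σ : W D) (A : Finset (B D)) : act D Z σ (e w A) = e w (mp D σ A) := by
  rw [e, e, map_prod]
  conv_rhs => rw [mp, Finset.prod_map]
  refine Finset.prod_congr rfl fun b _ => ?_
  rw [map_prod, ← mp, ← mp_compl, mp, Finset.prod_map]
  exact Finset.prod_congr rfl fun c _ => w.h_act σ b c

lemma act_zs (σ : W D) (A : Finset (B D)) : act D Z σ (zs w A) = zs w (mp D σ A) := by
  rw [zs, zs, map_prod, mp, Finset.prod_map]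
  exact Finset.prod_congr rfl fun c _ => w.z_act σ c

lemma slot_mul_slot (ε1 ε2 : ℕ) (φ ψ : Finset (B D) → S D Z) :
    slot w ε1 φ * slot w ε2 ψ = ∑ A, ∑ C, AddMonoidAlgebra.single (ind D A + ind D C)
      ((φ A * (e w A * zs w A ^ ε1)) * (ψ C * (e w C * zs w C ^ ε2))) := by
  simp only [slot, LinearMap.coe_mk, AddHom.coe_mk]
  rw [Finset.sum_mul]
  refine Finset.sum_congr rfl fun A _ => ?_
  rw [Finset.mul_sum]
  refine Finset.sum_congr rfl fun C _ => ?_
  rw [AddMonoidAlgebra.single_mul_single]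

/-- `ind A + ind C = ind P + ind q` (`q ⊆ P`) iff `P = A ∪ C`, `q = A ∩ C` -/
lemma ind_add_eq {A C P q : Finset (B D)} (hq : q ⊆ P) :
    ind D A + ind D C = ind D P + ind D q ↔ A ∪ C = P ∧ A ∩ C = q := by
  constructor
  · intro h
    have key : ∀ b, (if b ∈ A then (1 : ℤ) else 0) + (if b ∈ C then 1 else 0) =
        (if b ∈ P then 1 else 0) + (if b ∈ q then 1 else 0) := fun b => congrFun h b
    constructor
    · ext b
      have := key b
      have h2 := @hq b
      rw [Finset.mem_union]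
      by_cases hA : b ∈ A <;> by_cases hC : b ∈ C <;> by_cases hP : b ∈ P <;>
        by_cases hqq : b ∈ q <;> simp_all
    · ext b
      have := key b
      have h2 := @hq b
      rw [Finset.mem_inter]
      by_cases hA : b ∈ A <;> by_cases hC : b ∈ C <;> by_cases hP : b ∈ P <;>
        by_cases hqq : b ∈ q <;> simp_all
  · rintro ⟨rfl, rfl⟩
    funext b
    show (if b ∈ A then (1 : ℤ) else 0) + (if b ∈ C then 1 else 0) =
        (if b ∈ A ∪ C then 1 else 0) + (if b ∈ A ∩ C then 1 else 0)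
    by_cases hA : b ∈ A <;> by_cases hC : b ∈ C <;> simp [hA, hC]

lemma ind_union_inter (A C : Finset (B D)) :
    ind D A + ind D C = ind D (A ∪ C) + ind D (A ∩ C) := by
  exact (ind_add_eq (Finset.inter_subset_union)).2 ⟨rfl, rfl⟩

/-- the coefficient of `u^(P+q)`, before factorization -/
lemma coeff_slot_mul' (ε1 ε2 : ℕ) (φ ψ : Finset (B D) → S D Z) {P q : Finset (B D)} (hq : q ⊆ P) :
    (slot w ε1 φ * slot w ε2 ψ).coeff (ind D P + ind D q) = ∑ X ∈ (P \ q).powerset,
      (φ (q ∪ X) * (e w (q ∪ X) * zs w (q ∪ X) ^ ε1)) *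
        (ψ (P \ X) * (e w (P \ X) * zs w (P \ X) ^ ε2)) := by
  rw [slot_mul_slot, AddMonoidAlgebra.coeff_sum, Finsupp.finsetSum_apply]
  have h1 : ∀ A C : Finset (B D), ((AddMonoidAlgebra.single (ind D A + ind D C)
      ((φ A * (e w A * zs w A ^ ε1)) * (ψ C * (e w C * zs w C ^ ε2))) :
        AddMonoidAlgebra (S D Z) (B D → ℤ)).coeff) (ind D P + ind D q) =
      if A ∪ C = P ∧ A ∩ C = q then
        ((φ A * (e w A * zs w A ^ ε1)) * (ψ C * (e w C * zs w C ^ ε2))) else 0 := by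
    intro A C
    rw [AddMonoidAlgebra.coeff_single, Finsupp.single_apply]
    exact if_congr (ind_add_eq hq) rfl rfl
  have h2 : ∀ A : Finset (B D), (∑ C, AddMonoidAlgebra.single (ind D A + ind D C)
      ((φ A * (e w A * zs w A ^ ε1)) * (ψ C * (e w C * zs w C ^ ε2))) :
        AddMonoidAlgebra (S D Z) (B D → ℤ)).coeff (ind D P + ind D q) =
      if q ⊆ A ∧ A ⊆ P then ((φ A * (e w A * zs w A ^ ε1)) *
        (ψ (P \ (A \ q)) * (e w (P \ (A \ q)) * zs w (P \ (A \ q)) ^ ε2))) else 0 := by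
    intro A
    rw [AddMonoidAlgebra.coeff_sum, Finsupp.finsetSum_apply]
    simp only [h1]
    rw [Finset.sum_eq_single (P \ (A \ q))]
    · refine if_congr ?_ rfl rfl
      constructor
      · rintro ⟨h3, h4⟩
        constructor
        · rw [← h4]; exact Finset.inter_subset_left
        · rw [← h3]; exact Finset.subset_union_left
      · rintro ⟨h3, h4⟩
        constructor
        · ext b
          have e1 := @h3 b; have e2 := @h4 b; have e3 := @hq b
          simp only [Finset.mem_union, Finset.mem_sdiff]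
          tauto
        · ext b
          have e1 := @h3 b; have e2 := @h4 b; have e3 := @hq b
          simp only [Finset.mem_inter, Finset.mem_sdiff]
          tauto
    · intro C _ hC
      rw [if_neg]
      rintro ⟨rfl, rfl⟩
      apply hC
      ext b
      simp only [Finset.mem_union, Finset.mem_sdiff, Finset.mem_inter]
      tauto
    · intro h; exact absurd (Finset.mem_univ _) h
  simp only [h2]
  rw [← Finset.sum_filter]
  symm
  refine Finset.sum_bij (fun X _ => q ∪ X) ?_ ?_ ?_ ?_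
  · intro X hX
    rw [Finset.mem_powerset] at hX
    rw [Finset.mem_filter]
    refine ⟨Finset.mem_univ _, Finset.subset_union_left, Finset.union_subset hq ?_⟩
    exact hX.trans Finset.sdiff_subset
  · intro X hX Y hY h
    rw [Finset.mem_powerset] at hX hY
    ext b
    have e1 := @hX b; have e2 := @hY b
    have e3 := Finset.ext_iff.1 h b
    simp only [Finset.mem_union, Finset.mem_sdiff] at e1 e2 e3
    tauto
  · intro A hA
    rw [Finset.mem_filter] at hA
    refine ⟨A \ q, ?_, ?_⟩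
    · rw [Finset.mem_powerset]
      exact Finset.sdiff_subset_sdiff hA.2.2 subset_rfl
    · exact Finset.union_sdiff_of_subset hA.2.1
  · intro X hX
    rw [Finset.mem_powerset] at hX
    have : (q ∪ X) \ q = X := by
      ext b
      have e1 := @hX b
      simp only [Finset.mem_union, Finset.mem_sdiff] at e1 ⊢
      tauto
    simp only [this]

/-- product of the pair weights over a product of two subsets -/
noncomputable def HH (U V : Finset (B D)) : S D Z := ∏ b ∈ U, ∏ c ∈ V, w.h b c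

lemma HH_union_left {U U' : Finset (B D)} (h : Disjoint U U') (V : Finset (B D)) :
    HH w (U ∪ U') V = HH w U V * HH w U' V := by
  rw [HH, Finset.prod_union h, HH, HH]

lemma HH_union_right (U : Finset (B D)) {V V' : Finset (B D)} (h : Disjoint V V') :
    HH w U (V ∪ V') = HH w U V * HH w U V' := by
  rw [HH, HH, HH, ← Finset.prod_mul_distrib]
  exact Finset.prod_congr rfl fun b _ => Finset.prod_union h

lemma e_eq_HH (A : Finset (B D)) : e w A = HH w A Aᶜ := rfl

lemma wgt_eq_HH (δ : ℕ) (X Y : Finset (B D)) :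
    wgt w δ X Y = HH w X Y * HH w Y X * zs w Y ^ δ := by
  have h : HH w Y X = ∏ b ∈ X, ∏ c ∈ Y, w.h c b := by rw [HH, Finset.prod_comm]
  rw [wgt, h, HH, ← Finset.prod_mul_distrib]
  congr 1
  exact Finset.prod_congr rfl fun b _ => Finset.prod_mul_distrib

lemma zs_union {U U' : Finset (B D)} (h : Disjoint U U') :
    zs w (U ∪ U') = zs w U * zs w U' := by
  rw [zs, Finset.prod_union h, zs, zs]

/-- factorization of the weights, for `X ⊆ P \ q`: with `Y = (P \ q) \ X`, `A = q ∪ X`, `C = P \ X`,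
`e A * e C = e P * e q * h(X,Y) h(Y,X)` and `z_A^ε1 z_C^ε2 = z_P^ε1 z_q^ε2 z_Y^(ε2-ε1)` -/
lemma weight_factor {ε1 ε2 : ℕ} (h : ε1 ≤ ε2) {P q X : Finset (B D)} (hq : q ⊆ P)
    (hX : X ⊆ P \ q) :
    (e w (q ∪ X) * zs w (q ∪ X) ^ ε1) * (e w (P \ X) * zs w (P \ X) ^ ε2) =
      (e w P * zs w P ^ ε1) * (e w q * zs w q ^ ε2) * wgt w (ε2 - ε1) X ((P \ q) \ X) := by
  set Y : Finset (B D) := (P \ q) \ X with hY
  have dqX : Disjoint q X := by
    rw [Finset.disjoint_left]
    intro b hb hx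
    exact (Finset.mem_sdiff.1 (hX hx)).2 hb
  have dqY : Disjoint q Y := by
    rw [Finset.disjoint_left]
    intro b hb hx
    exact (Finset.mem_sdiff.1 (Finset.mem_sdiff.1 hx).1).2 hb
  have dXY : Disjoint X Y := by
    rw [Finset.disjoint_left]
    intro b hb hx
    exact (Finset.mem_sdiff.1 hx).2 hb
  have hP : P = (q ∪ X) ∪ Y := by
    ext b
    have e1 := @hX b; have e2 := @hq b
    simp only [hY, Finset.mem_union, Finset.mem_sdiff] at e1 ⊢
    tauto
  have hC : P \ X = q ∪ Y := by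
    ext b
    have e1 := @hX b; have e2 := @hq b
    simp only [hY, Finset.mem_union, Finset.mem_sdiff] at e1 ⊢
    tauto
  have hAc : (q ∪ X)ᶜ = Pᶜ ∪ Y := by
    ext b
    have e1 := @hX b; have e2 := @hq b
    simp only [hY, Finset.mem_union, Finset.mem_sdiff, Finset.mem_compl] at e1 ⊢
    tauto
  have hCc : (q ∪ Y)ᶜ = Pᶜ ∪ X := by
    ext b
    have e1 := @hX b; have e2 := @hq b
    simp only [hY, Finset.mem_union, Finset.mem_sdiff, Finset.mem_compl] at e1 ⊢
    tauto
  have hqc : qᶜ = (Pᶜ ∪ X) ∪ Y := by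
    ext b
    have e1 := @hX b; have e2 := @hq b
    simp only [hY, Finset.mem_union, Finset.mem_sdiff, Finset.mem_compl] at e1 ⊢
    tauto
  have dPY : Disjoint Pᶜ Y := by
    rw [Finset.disjoint_left]
    intro b hb hx
    exact (Finset.mem_compl.1 hb) (Finset.mem_sdiff.1 (Finset.mem_sdiff.1 hx).1).1
  have dPX : Disjoint Pᶜ X := by
    rw [Finset.disjoint_left]
    intro b hb hx
    exact (Finset.mem_compl.1 hb) (Finset.mem_sdiff.1 (hX hx)).1
  have dPXY : Disjoint (Pᶜ ∪ X) Y := by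
    rw [Finset.disjoint_union_left]; exact ⟨dPY, dXY⟩
  have dqXY : Disjoint (q ∪ X) Y := by
    rw [Finset.disjoint_union_left]; exact ⟨dqY, dXY⟩
  have E1 : e w (q ∪ X) = (HH w q Pᶜ * HH w q Y) * (HH w X Pᶜ * HH w X Y) := by
    rw [e_eq_HH, hAc, HH_union_left w dqX, HH_union_right w _ dPY, HH_union_right w _ dPY]
  have E2 : e w (q ∪ Y) = (HH w q Pᶜ * HH w q X) * (HH w Y Pᶜ * HH w Y X) := by
    rw [e_eq_HH, hCc, HH_union_left w dqY, HH_union_right w _ dPX, HH_union_right w _ dPX]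
  have E3 : e w P = HH w q Pᶜ * HH w X Pᶜ * HH w Y Pᶜ := by
    rw [e_eq_HH]
    conv_lhs => rw [show HH w P Pᶜ = HH w ((q ∪ X) ∪ Y) Pᶜ by rw [← hP]]
    rw [HH_union_left w dqXY, HH_union_left w dqX]
  have E4 : e w q = HH w q Pᶜ * HH w q X * HH w q Y := by
    rw [e_eq_HH, hqc, HH_union_right w _ dPXY, HH_union_right w _ dPX]
  have Z1 : zs w (q ∪ X) = zs w q * zs w X := zs_union w dqX
  have Z2 : zs w (q ∪ Y) = zs w q * zs w Y := zs_union w dqY
  have Z3 : zs w P = zs w q * zs w X * zs w Y := by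
    conv_lhs => rw [hP]
    rw [zs_union w dqXY, Z1]
  obtain ⟨k, rfl⟩ := Nat.exists_eq_add_of_le h
  rw [hC, E1, E2, E3, E4, Z1, Z2, Z3, wgt_eq_HH, Nat.add_sub_cancel_left, pow_add, pow_add,
    mul_pow, mul_pow, mul_pow, mul_pow]
  ring

/-- the coefficient of `u^(P+q)` -/
lemma coeff_slot_mul {ε1 ε2 : ℕ} (h : ε1 ≤ ε2) (φ ψ : Finset (B D) → S D Z)
    {P q : Finset (B D)} (hq : q ⊆ P) :
    (slot w ε1 φ * slot w ε2 ψ).coeff (ind D P + ind D q) =
      (e w P * zs w P ^ ε1) * (e w q * zs w q ^ ε2) * GG w (ε2 - ε1) φ ψ P q := by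
  rw [coeff_slot_mul' w ε1 ε2 φ ψ hq, GG, Finset.mul_sum]
  refine Finset.sum_congr rfl fun X hX => ?_
  rw [Finset.mem_powerset] at hX
  have := weight_factor w h hq hX
  calc (φ (q ∪ X) * (e w (q ∪ X) * zs w (q ∪ X) ^ ε1)) *
        (ψ (P \ X) * (e w (P \ X) * zs w (P \ X) ^ ε2))
      = φ (q ∪ X) * ψ (P \ X) * ((e w (q ∪ X) * zs w (q ∪ X) ^ ε1) *
        (e w (P \ X) * zs w (P \ X) ^ ε2)) := by ring
    _ = _ := by rw [this]; ring

/-- a product of two slots is supported on the `ind P + ind q`, `q ⊆ P` -/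
lemma coeff_slot_mul_ne {ε1 ε2 : ℕ} {φ ψ : Finset (B D) → S D Z} {l : B D → ℤ}
    (h : (slot w ε1 φ * slot w ε2 ψ).coeff l ≠ 0) :
    ∃ P q : Finset (B D), q ⊆ P ∧ l = ind D P + ind D q := by
  rw [slot_mul_slot, AddMonoidAlgebra.coeff_sum, Finsupp.finsetSum_apply] at h
  obtain ⟨A, _, hA⟩ := Finset.exists_ne_zero_of_sum_ne_zero h
  rw [AddMonoidAlgebra.coeff_sum, Finsupp.finsetSum_apply] at hA
  obtain ⟨C, _, hC⟩ := Finset.exists_ne_zero_of_sum_ne_zero hA
  rw [AddMonoidAlgebra.coeff_single, Finsupp.single_apply] at hC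
  refine ⟨A ∪ C, A ∩ C, Finset.inter_subset_union, ?_⟩
  rw [← ind_union_inter]
  by_contra hne
  exact hC (if_neg fun h => hne h.symm)

/-- equivariance of the reduced coefficients -/
lemma act_GG {n1 n2 : D.I → ℕ} (δ : ℕ) {φ ψ : Finset (B D) → S D Z} (hφ : φ ∈ AF D Z n1)
    (hψ : ψ ∈ AF D Z n2) (σ : W D) (P q : Finset (B D)) :
    act D Z σ (GG w δ φ ψ P q) = GG w δ φ ψ (mp D σ P) (mp D σ q) := by
  have hsgn : ∀ a b : S D Z, (sgn D σ : S D Z) * a * ((sgn D σ : S D Z) * b) = a * b := by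
    intro a b
    have h1 : (sgn D σ : S D Z) * (sgn D σ : S D Z) = 1 := by
      have h2 := sgn_sq D σ
      rw [← Int.cast_mul, h2, Int.cast_one]
    calc (sgn D σ : S D Z) * a * ((sgn D σ : S D Z) * b)
        = ((sgn D σ : S D Z) * (sgn D σ : S D Z)) * (a * b) := by ring
      _ = a * b := by rw [h1, one_mul]
  have hwgt : ∀ X Y, act D Z σ (wgt w δ X Y) = wgt w δ (mp D σ X) (mp D σ Y) := by
    intro X Y
    rw [wgt, wgt, map_mul, map_pow, act_zs, map_prod]
    congr 1
    conv_rhs => rw [mp, Finset.prod_map]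
    refine Finset.prod_congr rfl fun b _ => ?_
    rw [map_prod, mp, Finset.prod_map]
    refine Finset.prod_congr rfl fun c _ => ?_
    rw [map_mul, w.h_act, w.h_act]
    rfl
  rw [GG, GG, map_sum]
  refine Finset.sum_bij (fun X _ => mp D σ X) ?_ ?_ ?_ ?_
  · intro X hX
    rw [Finset.mem_powerset] at hX ⊢
    rw [← mp_sdiff, mp_subset]
    exact hX
  · intro X _ Y _ h
    exact mp_inj D σ h
  · intro Y hY
    rw [Finset.mem_powerset] at hY
    refine ⟨mp D σ⁻¹ Y, ?_, ?_⟩
    · rw [Finset.mem_powerset, ← mp_subset D σ, ← mp_mul, mul_inv_cancel, mp_one, mp_sdiff]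
      exact hY
    · rw [← mp_mul, mul_inv_cancel, mp_one]
  · intro X _
    rw [map_mul, map_mul, hφ.1, hψ.1, hsgn, hwgt, mp_union, mp_sdiff, mp_sdiff, mp_sdiff]

/-- types in the reduced coefficients -/
lemma GG_ne {n1 n2 : D.I → ℕ} {δ : ℕ} {φ ψ : Finset (B D) → S D Z} (hφ : φ ∈ AF D Z n1)
    (hψ : ψ ∈ AF D Z n2) {P q : Finset (B D)} (hq : q ⊆ P) (h : GG w δ φ ψ P q ≠ 0) :
    typ D P + typ D q = n1 + n2 ∧ typ D q ≤ n1 ∧ typ D q ≤ n2 := by
  rw [GG] at h
  obtain ⟨X, hX, h1⟩ := Finset.exists_ne_zero_of_sum_ne_zero h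
  rw [Finset.mem_powerset] at hX
  have h2 : φ (q ∪ X) ≠ 0 := fun h0 => h1 (by rw [h0, zero_mul, zero_mul])
  have h3 : ψ (P \ X) ≠ 0 := fun h0 => h1 (by rw [h0, mul_zero, zero_mul])
  have h4 : typ D (q ∪ X) = n1 := by
    by_contra hne; exact h2 (hφ.2 _ hne)
  have h5 : typ D (P \ X) = n2 := by
    by_contra hne; exact h3 (hψ.2 _ hne)
  have h6 : (q ∪ X) ∪ (P \ X) = P := by
    ext b
    have e1 := @hX b; have e2 := @hq b
    simp only [Finset.mem_union, Finset.mem_sdiff] at e1 ⊢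
    tauto
  have h7 : (q ∪ X) ∩ (P \ X) = q := by
    ext b
    have e1 := @hX b; have e2 := @hq b
    simp only [Finset.mem_union, Finset.mem_sdiff, Finset.mem_inter] at e1 ⊢
    tauto
  refine ⟨?_, ?_, ?_⟩
  · have h8 := typ_union_inter D (q ∪ X) (P \ X)
    rw [h6, h7, h4, h5] at h8
    exact h8
  · rw [← h4]
    exact typ_mono D Finset.subset_union_left
  · rw [← h5]
    refine typ_mono D fun b hb => ?_
    rw [Finset.mem_sdiff]
    exact ⟨hq hb, fun hx => (Finset.mem_sdiff.1 (hX hx)).2 hb⟩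

/-- if moreover `q` has the type of `ψ`, only one term remains -/
lemma GG_top {n1 n2 : D.I → ℕ} {δ : ℕ} {φ ψ : Finset (B D) → S D Z} (hφ : φ ∈ AF D Z n1)
    (hψ : ψ ∈ AF D Z n2) {P q : Finset (B D)} (hq : q ⊆ P) (h : typ D q = n2) :
    GG w δ φ ψ P q = φ P * ψ q := by
  rw [GG, Finset.sum_eq_single (P \ q)]
  · rw [Finset.union_sdiff_of_subset hq, Finset.sdiff_sdiff_eq_self hq, sdiff_self, wgt, zs]
    simp
  · intro X hX hne
    rw [Finset.mem_powerset] at hX
    by_cases h3 : typ D (P \ X) = n2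
    · exfalso
      have h5 : q ⊆ P \ X := by
        intro b hb
        rw [Finset.mem_sdiff]
        exact ⟨hq hb, fun hx => (Finset.mem_sdiff.1 (hX hx)).2 hb⟩
      have h6 : q = P \ X := eq_of_subset D h5 (h.trans h3.symm)
      apply hne
      ext b
      have e1 := @hX b; have e2 := @hq b
      have e3 := Finset.ext_iff.1 h6 b
      simp only [Finset.mem_sdiff] at e1 e3 ⊢
      tauto
    · rw [hψ.2 _ h3, mul_zero, zero_mul]
  · intro hn
    exact absurd (Finset.mem_powerset.2 subset_rfl) hn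

end Vale.Agent.P291.H
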