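import Vale.Agent.P291.GSymB

set_option autoImplicit false
set_option linter.unusedSectionVars false

/-! Definitions for the all-quiver theorem `C[Y^ν] → H_F(X)`.
Step A (quadratic presentation). -/

namespace Vale.Agent.P291.H

open MvPolynomial Vale.Agent.P291.G

section basic
variable (D : QData) (Z : Type)

/-- polynomials in the gauge variables `x b` and in flavor variables indexed by `Z` -/
abbrev S : Type := MvPolynomial (B D ⊕ Z) ℂ

/-- gauge variable -/
noncomputable def xx (b : B D) : S D Z := X (Sum.inl b)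

/-- action of the Weyl group -/
noncomputable def act (σ : W D) : S D Z →ₐ[ℂ] S D Z := rename (Sum.map (perm D σ) id)

/-- action on subsets of the set of basis vectors -/
def mp (σ : W D) (A : Finset (B D)) : Finset (B D) := A.map (perm D σ).toEmbedding

/-- type (dimension vector) of a subset -/
def typ (A : Finset (B D)) (i : D.I) : ℕ := (A.filter fun b => b.1 = i).card

/-- indicator function of a subset -/
def ind (A : Finset (B D)) (b : B D) : ℤ := if b ∈ A then 1 else 0

/-- alternating families of type `n` -/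
noncomputable def AF (n : D.I → ℕ) : Submodule ℂ (Finset (B D) → S D Z) where
  carrier := {φ | (∀ σ A, act D Z σ (φ A) = (sgn D σ : S D Z) * φ (mp D σ A)) ∧
    ∀ A, typ D A ≠ n → φ A = 0}
  add_mem' := by
    rintro φ ψ ⟨h1, h2⟩ ⟨h3, h4⟩
    refine ⟨fun σ A => ?_, fun A hA => ?_⟩
    · rw [Pi.add_apply, Pi.add_apply, map_add, h1, h3, mul_add]
    · rw [Pi.add_apply, h2 A hA, h4 A hA, add_zero]
  zero_mem' := ⟨fun σ A => by rw [Pi.zero_apply, Pi.zero_apply, map_zero, mul_zero],
    fun A _ => rfl⟩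
  smul_mem' := by
    rintro c φ ⟨h1, h2⟩
    refine ⟨fun σ A => ?_, fun A hA => ?_⟩
    · rw [Pi.smul_apply, Pi.smul_apply, map_smul, h1, mul_smul_comm]
    · rw [Pi.smul_apply, h2 A hA, smul_zero]

/-- product of the Vandermonde determinants -/
noncomputable def del : S D Z :=
  ∏ i, (Matrix.vandermonde fun r : Fin (D.v i) => xx D Z ⟨i, r⟩).det

/-- product of the differences `x a - x b`, `a ∈ A`, `b ∈ C` at the same vertex -/
noncomputable def cr (A C : Finset (B D)) : S D Z :=
  ∏ a ∈ A, ∏ b ∈ C, if a.1 = b.1 then xx D Z a - xx D Z b else 1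

/-- orbit sum: the alternating family generated by the polynomial `p` at the subset `A₀` -/
noncomputable def orb (A₀ : Finset (B D)) (p : S D Z) (A : Finset (B D)) : S D Z :=
  ∑ τ : W D, if mp D τ A₀ = A then (sgn D τ : S D Z) * act D Z τ p else 0

/-- equivariant pair weights and single weights -/
structure Wts where
  h : B D → B D → S D Z
  z : B D → S D Z
  h_act : ∀ σ b c, act D Z σ (h b c) = h (perm D σ b) (perm D σ c)
  z_act : ∀ σ b, act D Z σ (z b) = z (perm D σ b)
  h_ne : ∀ b c, b ≠ c → h b c ≠ 0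
  z_ne : ∀ b, z b ≠ 0

end basic

section slots
variable {D : QData} {Z : Type} (w : Wts D Z)

/-- product of the pair weights between `A` and its complement -/
noncomputable def e (A : Finset (B D)) : S D Z := ∏ b ∈ A, ∏ c ∈ Aᶜ, w.h b c

/-- product of the single weights over `A` -/
noncomputable def zs (A : Finset (B D)) : S D Z := ∏ b ∈ A, w.z b

/-- slots: `∑_A φ(A) e(A) z(A)^ε u^A` -/
noncomputable def slot (ε : ℕ) :
    (Finset (B D) → S D Z) →ₗ[ℂ] AddMonoidAlgebra (S D Z) (B D → ℤ) where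
  toFun φ := ∑ A, AddMonoidAlgebra.single (ind D A) (φ A * (e w A * zs w A ^ ε))
  map_add' φ ψ := by
    rw [← Finset.sum_add_distrib]
    refine Finset.sum_congr rfl fun A _ => ?_
    rw [Pi.add_apply, add_mul, AddMonoidAlgebra.single_add]
  map_smul' c φ := by
    rw [RingHom.id_apply, Finset.smul_sum]
    refine Finset.sum_congr rfl fun A _ => ?_
    rw [Pi.smul_apply, smul_mul_assoc, AddMonoidAlgebra.smul_single]

/-- the space of slots of type `n` -/
noncomputable def U (ε : ℕ) (n : D.I → ℕ) : Submodule ℂ (AddMonoidAlgebra (S D Z) (B D → ℤ)) :=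
  (AF D Z n).map (slot w ε)

/-- the weight attached to a decomposition `X ⊔ Y` of `P \ q` -/
noncomputable def wgt (δ : ℕ) (X Y : Finset (B D)) : S D Z :=
  (∏ b ∈ X, ∏ c ∈ Y, w.h b c * w.h c b) * zs w Y ^ δ

/-- reduced coefficient of `u^(P + q)` in the product of two slots -/
noncomputable def GG (δ : ℕ) (φ ψ : Finset (B D) → S D Z) (P q : Finset (B D)) : S D Z :=
  ∑ X ∈ (P \ q).powerset, φ (q ∪ X) * ψ (P \ X) * wgt w δ X ((P \ q) \ X)

/-- graph of the evaluation of a slot at the subset `C` -/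
noncomputable def Gr (ε : ℕ) (n : D.I → ℕ) (C : Finset (B D)) :
    Submodule ℂ (AddMonoidAlgebra (S D Z) (B D → ℤ) × S D Z) :=
  (AF D Z n).map ((slot w ε).prod (LinearMap.proj C))

/-- replace `n i, n (i+1)` by `n i + δ, n (i+1) - δ` -/
def move (n : ℕ → D.I → ℕ) (i : ℕ) (δ : D.I → ℕ) : ℕ → D.I → ℕ :=
  Function.update (Function.update n i (n i + δ)) (i + 1) (n (i + 1) - δ)

/-- product of slot spaces -/
noncomputable def UU (ε : ℕ → ℕ) (m : ℕ) (n : ℕ → D.I → ℕ) :
    Submodule ℂ (AddMonoidAlgebra (S D Z) (B D → ℤ)) :=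
  ∏ j ∈ Finset.range m, U w (ε j) (n j)

/-- measure of a sequence of types -/
def meas (m : ℕ) (n : ℕ → D.I → ℕ) : ℕ := ∑ j ∈ Finset.range m, j * ∑ i, n j i

/-- the first `l` slots are plain, the others are not -/
def ep (l j : ℕ) : ℕ := if j < l then 0 else 1

/-- the trivial sequence -/
def seqT (D : QData) (l : ℕ) (j : ℕ) : D.I → ℕ := if j < l then D.v else 0

/-- the pair sequences: all slots are trivial except the slots `l - 1` and `l` -/
def seqP (l : ℕ) (s : D.I → ℕ) (j : ℕ) : D.I → ℕ :=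
  if j + 1 < l then D.v else if j + 1 = l then D.v - s else if j = l then s else 0

/-- admissible sequences of `m` types: total `l • v`, not trivial -/
def seqOK (m l : ℕ) (n : ℕ → D.I → ℕ) : Prop :=
  (∀ j, m ≤ j → n j = 0) ∧ (∑ j ∈ Finset.range m, n j = l • D.v) ∧ n ≠ seqT D l

/-- the space spanned by the pair sequences -/
noncomputable def LL (m l : ℕ) : Submodule ℂ (AddMonoidAlgebra (S D Z) (B D → ℤ)) :=
  ⨆ s : D.I → ℕ, ⨆ _ : s ≠ 0 ∧ s ≤ D.v, UU w (ep l) m (seqP l s)

/-- nested admissible sequences which are not pair sequences, of measure at most `M` -/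
def seqN (m l M : ℕ) (n : ℕ → D.I → ℕ) : Prop :=
  seqOK m l n ∧ (∀ j, n (j + 1) ≤ n j) ∧ (∀ s : D.I → ℕ, s ≠ 0 → s ≤ D.v → n ≠ seqP l s) ∧
    meas m n ≤ M

/-- quadratic relation: `r` is, up to the square of the Vandermonde determinant, a sum of products
of a positive and a negative minuscule operator, of nonzero types -/
def LinRel (r : S D Z) : Prop :=
  ∃ (m : ℕ) (n : Fin m → D.I → ℕ) (φ ψ : Fin m → Finset (B D) → S D Z),
    (∀ j, n j ≠ 0 ∧ φ j ∈ AF D Z (n j) ∧ ψ j ∈ AF D Z (n j)) ∧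
    ∀ D1 D2 : Finset (B D), Disjoint D1 D2 →
      ∑ j, ∑ K ∈ (D1 ∪ D2)ᶜ.powerset, φ j (D1 ∪ K) * ψ j (D2 ∪ K) *
        (e w (D1 ∪ K) * zs w (D1 ∪ K)) * e w (D2 ∪ K)ᶜ =
      if D1 = ∅ ∧ D2 = ∅ then r * del D Z ^ 2 else 0

end slots

end Vale.Agent.P291.H
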