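import Vale.Agent.P291.H.Coef

set_option autoImplicit false
set_option linter.unusedSectionVars false

/-! Coefficients of products of slots at chains; the measure. -/

namespace Vale.Agent.P291.H

open MvPolynomial Vale.Agent.P291.G

variable {D : QData} {Z : Type} (w : Wts D Z)

lemma map_fst_Gr (ε : ℕ) (n : D.I → ℕ) (C : Finset (B D)) :
    (Gr w ε n C).map (AlgHom.fst ℂ (AddMonoidAlgebra (S D Z) (B D → ℤ)) (S D Z)).toLinearMap =
      U w ε n := by
  rw [Gr, U, ← Submodule.map_comp]
  rfl

lemma map_fst_prod (ε : ℕ → ℕ) (m : ℕ) (n : ℕ → D.I → ℕ) (C : ℕ → Finset (B D)) :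
    (∏ j ∈ Finset.range m, Gr w (ε j) (n j) (C j)).map
      (AlgHom.fst ℂ (AddMonoidAlgebra (S D Z) (B D → ℤ)) (S D Z)).toLinearMap =
      UU w ε m n := by
  have h := map_prod (Submodule.mapHom
    (AlgHom.fst ℂ (AddMonoidAlgebra (S D Z) (B D → ℤ)) (S D Z)))
    (fun j => Gr w (ε j) (n j) (C j)) (Finset.range m)
  rw [Submodule.mapHom_apply] at h
  rw [h, UU]
  refine Finset.prod_congr rfl fun j _ => ?_
  rw [Submodule.mapHom_apply]
  exact map_fst_Gr w (ε j) (n j) (C j)

/-- elements of `UU` have a partner in the product of the graphs -/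
lemma exists_graph (ε : ℕ → ℕ) (m : ℕ) (n : ℕ → D.I → ℕ) (C : ℕ → Finset (B D))
    {Y : AddMonoidAlgebra (S D Z) (B D → ℤ)} (hY : Y ∈ UU w ε m n) :
    ∃ p : S D Z, (Y, p) ∈ ∏ j ∈ Finset.range m, Gr w (ε j) (n j) (C j) := by
  rw [← map_fst_prod w ε m n C, Submodule.mem_map] at hY
  obtain ⟨⟨Y', p⟩, h1, h2⟩ := hY
  obtain rfl : Y' = Y := h2
  exact ⟨p, h1⟩

/-- the first component of the product of the graphs -/
lemma graph_fst (ε : ℕ → ℕ) (m : ℕ) (n : ℕ → D.I → ℕ) (C : ℕ → Finset (B D))
    {Y : AddMonoidAlgebra (S D Z) (B D → ℤ)} {p : S D Z}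
    (h : (Y, p) ∈ ∏ j ∈ Finset.range m, Gr w (ε j) (n j) (C j)) : Y ∈ UU w ε m n := by
  rw [← map_fst_prod w ε m n C, Submodule.mem_map]
  exact ⟨(Y, p), h, rfl⟩

/-- coefficient of the product with a slot -/
lemma coeff_mul_slot (ε : ℕ) (φ : Finset (B D) → S D Z)
    (Y : AddMonoidAlgebra (S D Z) (B D → ℤ)) (l : B D → ℤ) :
    (Y * slot w ε φ).coeff l =
      ∑ A, Y.coeff (l - ind D A) * (φ A * (e w A * zs w A ^ ε)) := by
  have h1 : slot w ε φ = ∑ A, AddMonoidAlgebra.single (ind D A) (φ A * (e w A * zs w A ^ ε)) := rfl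
  rw [h1, Finset.mul_sum, AddMonoidAlgebra.coeff_sum, Finsupp.finsetSum_apply]
  refine Finset.sum_congr rfl fun A _ => ?_
  rw [AddMonoidAlgebra.coeff_mul_single_apply, sub_eq_add_neg]

/-- support of the elements of `UU` -/
lemma coeff_ne (ε : ℕ → ℕ) (m : ℕ) (n : ℕ → D.I → ℕ)
    {Y : AddMonoidAlgebra (S D Z) (B D → ℤ)} (hY : Y ∈ UU w ε m n) {l : B D → ℤ}
    (h : Y.coeff l ≠ 0) : ∃ A : ℕ → Finset (B D), (∀ j, j < m → typ D (A j) = n j) ∧
      l = ∑ j ∈ Finset.range m, ind D (A j) := by
  induction m generalizing Y l with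
  | zero =>
    rw [UU, Finset.range_zero, Finset.prod_empty, Submodule.mem_one] at hY
    obtain ⟨c, rfl⟩ := hY
    refine ⟨fun _ => ∅, fun j hj => absurd hj (Nat.not_lt_zero j), ?_⟩
    rw [Finset.range_zero, Finset.sum_empty]
    by_contra hl
    apply h
    rw [Algebra.algebraMap_eq_smul_one, AddMonoidAlgebra.coeff_smul_apply,
      AddMonoidAlgebra.one_def, AddMonoidAlgebra.coeff_single,
      Finsupp.single_eq_of_ne hl, smul_zero]
  | succ m ih =>
    rw [UU, Finset.prod_range_succ] at hY
    revert h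
    refine Submodule.mul_induction_on hY ?_ ?_
    · rintro Y1 hY1 _ ⟨φ, hφ, rfl⟩ h
      rw [coeff_mul_slot] at h
      obtain ⟨A, _, hA⟩ := Finset.exists_ne_zero_of_sum_ne_zero h
      have h1 : Y1.coeff (l - ind D A) ≠ 0 := left_ne_zero_of_mul hA
      have h2 : φ A ≠ 0 := left_ne_zero_of_mul (right_ne_zero_of_mul hA)
      have h3 : typ D A = n m := by
        by_contra h3
        exact h2 (hφ.2 A h3)
      obtain ⟨A', hA', hl⟩ := ih hY1 h1
      refine ⟨fun j => if j = m then A else A' j, fun j hj => ?_, ?_⟩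
      · by_cases hjm : j = m
        · simp only [hjm, if_true, h3]
        · simp only [hjm, if_false]
          exact hA' j (by omega)
      · rw [Finset.sum_range_succ]
        simp only [if_true]
        have h4 : ∑ j ∈ Finset.range m, ind D (if j = m then A else A' j) =
            ∑ j ∈ Finset.range m, ind D (A' j) := by
          refine Finset.sum_congr rfl fun j hj => ?_
          rw [if_neg (Finset.mem_range.1 hj).ne]
        rw [h4, ← hl, sub_add_cancel]
    · intro Y1 Y2 h1 h2 h
      rw [AddMonoidAlgebra.coeff_add, Finsupp.add_apply] at h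
      by_cases h3 : Y1.coeff l = 0
      · rw [h3, zero_add] at h
        exact h2 h
      · exact h1 h3

lemma ind_le_one (A : Finset (B D)) (b : B D) : ind D A b ≤ 1 := by
  unfold ind
  split_ifs <;> norm_num

lemma chain_mono {m : ℕ} {C : ℕ → Finset (B D)} (hC : ∀ j, j + 1 < m → C (j + 1) ⊆ C j) :
    ∀ i j, i ≤ j → j < m → C j ⊆ C i := by
  intro i j hij
  induction j, hij using Nat.le_induction with
  | base => intro _; exact Finset.Subset.refl _
  | succ j hij ih => intro hj; exact (hC j hj).trans (ih (by omega))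

/-- The coefficient at a chain. Induction on `m` (peel off the slot `0`:
`Finset.prod_range_succ'`): the coefficient of `slot φ * Y` at `ind (C 0) + l'` is
`∑_A φ A e A z_A^ε (coeff of Y at ind (C 0) + l' - ind A)`, and for `A ≠ C 0` with
`typ A = typ (C 0)` there is `b ∈ A \ C 0`, where `ind (C 0) + l' - ind A` is negative, because
`l'` is supported in `C 1 ⊆ C 0`; but `Y` is supported on nonnegative exponents. -/
lemma coeff_chain (ε : ℕ → ℕ) (m : ℕ) (n : ℕ → D.I → ℕ) (C : ℕ → Finset (B D))
    (hC : ∀ j, j + 1 < m → C (j + 1) ⊆ C j) (hn : ∀ j, j < m → typ D (C j) = n j)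
    {Y : AddMonoidAlgebra (S D Z) (B D → ℤ)} {p : S D Z}
    (h : (Y, p) ∈ ∏ j ∈ Finset.range m, Gr w (ε j) (n j) (C j)) :
    Y.coeff (∑ j ∈ Finset.range m, ind D (C j)) =
      (∏ j ∈ Finset.range m, (e w (C j) * zs w (C j) ^ ε j)) * p := by
  classical
  suffices H : ∀ q : AddMonoidAlgebra (S D Z) (B D → ℤ) × S D Z,
      q ∈ ∏ j ∈ Finset.range m, Gr w (ε j) (n j) (C j) →
      q.1.coeff (∑ j ∈ Finset.range m, ind D (C j)) =
        (∏ j ∈ Finset.range m, (e w (C j) * zs w (C j) ^ ε j)) * q.2 from H (Y, p) h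
  clear h
  induction m with
  | zero =>
    intro q hq
    rw [Finset.range_zero, Finset.prod_empty, Submodule.mem_one] at hq
    obtain ⟨c, rfl⟩ := hq
    rw [Finset.range_zero, Finset.sum_empty, Finset.prod_empty, one_mul,
      Algebra.algebraMap_eq_smul_one, Prod.smul_fst, Prod.smul_snd,
      AddMonoidAlgebra.coeff_smul_apply, Prod.fst_one, Prod.snd_one,
      AddMonoidAlgebra.coeff_one_zero]
  | succ m ih =>
    intro q hq
    have ih' := ih (fun j hj => hC j (by omega)) (fun j hj => hn j (by omega))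
    rw [Finset.prod_range_succ] at hq
    refine Submodule.mul_induction_on hq ?_ ?_
    · rintro ⟨Y1, p1⟩ hY1 _ ⟨φ, hφ, rfl⟩
      have h1 := ih' (Y1, p1) hY1
      have h2 := graph_fst w ε m n C hY1
      change (Y1 * slot w (ε m) φ).coeff _ = _ * (p1 * φ (C m))
      rw [coeff_mul_slot, Finset.sum_range_succ, Finset.prod_range_succ,
        Finset.sum_eq_single (C m)]
      · rw [add_sub_cancel_right, h1]
        ring
      · intro A _ hA
        by_cases hT : typ D A = n m
        · have h3 : ∃ b ∈ C m, b ∉ A := by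
            by_contra h3
            push Not at h3
            exact hA (eq_of_subset D h3 (by rw [hT, hn m (by omega)])).symm
          obtain ⟨b, hb1, hb2⟩ := h3
          have h4 : Y1.coeff (∑ j ∈ Finset.range m, ind D (C j) + ind D (C m) - ind D A) = 0 := by
            by_contra h4
            obtain ⟨A', _, hl⟩ := coeff_ne w ε m n h2 h4
            have h5 := congrFun hl b
            rw [Pi.sub_apply, Pi.add_apply, Finset.sum_apply, Finset.sum_apply] at h5
            have h6 : ∑ j ∈ Finset.range m, ind D (C j) b = m := by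
              have h7 : ∀ j ∈ Finset.range m, ind D (C j) b = 1 := by
                intro j hj
                have hj' := Finset.mem_range.1 hj
                have h8 : b ∈ C j := chain_mono hC j m hj'.le (by omega) hb1
                rw [ind, if_pos h8]
              rw [Finset.sum_congr rfl h7, Finset.sum_const, Finset.card_range, nsmul_eq_mul,
                mul_one]
            have h7 : ∑ j ∈ Finset.range m, ind D (A' j) b ≤ m := by
              have h8 := Finset.sum_le_sum (fun j (_ : j ∈ Finset.range m) => ind_le_one (A' j) b)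
              rw [Finset.sum_const, Finset.card_range, nsmul_eq_mul, mul_one] at h8
              exact h8
            have h8 : ind D (C m) b = 1 := if_pos hb1
            have h9 : ind D A b = 0 := if_neg hb2
            rw [h6, h8, h9] at h5
            omega
          rw [h4, zero_mul]
        · rw [hφ.2 A hT, zero_mul, mul_zero]
      · intro h3
        exact absurd (Finset.mem_univ _) h3
    · intro q1 q2 h1 h2
      rw [Prod.fst_add, Prod.snd_add, AddMonoidAlgebra.coeff_add, Finsupp.add_apply, h1, h2,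
        mul_add]

/-- an initial segment has the smallest sum among the finite sets of the same cardinality -/
lemma sum_initial_le {S T : Finset ℕ} (hT : ∀ i j, i ≤ j → j ∈ T → i ∈ T)
    (hc : S.card = T.card) : ∑ j ∈ T, j + (S \ T).card ≤ ∑ j ∈ S, j := by
  have h1 : (T \ S).card = (S \ T).card := by
    have h2 := Finset.card_sdiff_add_card_inter S T
    have h3 := Finset.card_sdiff_add_card_inter T S
    rw [Finset.inter_comm] at h3
    omega
  have hTr : T = Finset.range T.card := by
    refine Finset.eq_of_subset_of_card_le ?_ (by rw [Finset.card_range])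
    intro x hx
    have h2 : Finset.range (x + 1) ⊆ T := fun y hy =>
      hT y x (by have := Finset.mem_range.1 hy; omega) hx
    have h3 := Finset.card_le_card h2
    rw [Finset.card_range] at h3
    exact Finset.mem_range.2 h3
  have h2 : ∑ j ∈ S \ T, j + ∑ j ∈ S ∩ T, j = ∑ j ∈ S, j := by
    rw [add_comm]
    exact Finset.sum_inter_add_sum_sdiff S T _
  have h3 : ∑ j ∈ T \ S, j + ∑ j ∈ S ∩ T, j = ∑ j ∈ T, j := by
    rw [add_comm, Finset.inter_comm]
    exact Finset.sum_inter_add_sum_sdiff T S _
  have h4 : (S \ T).card * T.card ≤ ∑ j ∈ S \ T, j := by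
    rw [← smul_eq_mul]
    refine Finset.card_nsmul_le_sum _ _ _ fun j hj => ?_
    have h5 : j ∉ T := (Finset.mem_sdiff.1 hj).2
    rw [hTr, Finset.mem_range] at h5
    omega
  have h5 : ∑ j ∈ T \ S, (j + 1) ≤ (T \ S).card * T.card := by
    rw [← smul_eq_mul]
    refine Finset.sum_le_card_nsmul _ _ _ fun j hj => ?_
    have h6 : j ∈ T := (Finset.mem_sdiff.1 hj).1
    rw [hTr, Finset.mem_range] at h6
    omega
  rw [Finset.sum_add_distrib, Finset.sum_const, smul_eq_mul, mul_one, h1] at h5
  omega

lemma meas_eq (m : ℕ) (A : ℕ → Finset (B D)) :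
    meas m (fun j => typ D (A j)) =
      ∑ b : B D, ∑ j ∈ (Finset.range m).filter (fun j => b ∈ A j), j := by
  classical
  rw [meas]
  have h1 : ∀ j ∈ Finset.range m, j * ∑ i, typ D (A j) i = ∑ b : B D, if b ∈ A j then j else 0 := by
    intro j _
    rw [sum_typ, Finset.sum_ite_mem, Finset.univ_inter, Finset.sum_const, smul_eq_mul, mul_comm]
  rw [Finset.sum_congr rfl h1, Finset.sum_comm]
  refine Finset.sum_congr rfl fun b _ => ?_
  rw [Finset.sum_filter]

/-- The measure argument. For every `b` the set `{j < m | b ∈ C j}` is the initial segment with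
`k = #{j < m | b ∈ A j}` elements, and `∑_{j < k} j ≤ ∑_{j < m, b ∈ A j} j` with equality iff the
two sets agree. Sum over `b`, using `sum_typ`. -/
lemma meas_le (m : ℕ) (A C : ℕ → Finset (B D)) (hC : ∀ j, j + 1 < m → C (j + 1) ⊆ C j)
    (h : ∑ j ∈ Finset.range m, ind D (A j) = ∑ j ∈ Finset.range m, ind D (C j)) :
    meas m (fun j => typ D (C j)) ≤ meas m (fun j => typ D (A j)) ∧
      (meas m (fun j => typ D (A j)) ≤ meas m (fun j => typ D (C j)) → ∀ j, j < m → A j = C j) := by
  classical
  have hcard : ∀ (X : ℕ → Finset (B D)) (b : B D), (∑ j ∈ Finset.range m, ind D (X j)) b =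
      ((Finset.range m).filter (fun j => b ∈ X j)).card := by
    intro X b
    rw [Finset.sum_apply]
    simp only [ind]
    rw [Finset.sum_ite, Finset.sum_const_zero, add_zero, Finset.sum_const, nsmul_eq_mul, mul_one]
  have hc : ∀ b : B D, ((Finset.range m).filter (fun j => b ∈ A j)).card =
      ((Finset.range m).filter (fun j => b ∈ C j)).card := by
    intro b
    have h1 := congrFun h b
    rw [hcard, hcard] at h1
    exact_mod_cast h1
  have hI : ∀ b : B D, ∀ i j, i ≤ j → j ∈ (Finset.range m).filter (fun j => b ∈ C j) →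
      i ∈ (Finset.range m).filter (fun j => b ∈ C j) := by
    intro b i j hij hj
    rw [Finset.mem_filter, Finset.mem_range] at hj ⊢
    exact ⟨by omega, chain_mono hC i j hij hj.1 hj.2⟩
  have key : ∀ b : B D, ∑ j ∈ (Finset.range m).filter (fun j => b ∈ C j), j +
      ((Finset.range m).filter (fun j => b ∈ A j) \
        (Finset.range m).filter (fun j => b ∈ C j)).card ≤
      ∑ j ∈ (Finset.range m).filter (fun j => b ∈ A j), j :=
    fun b => sum_initial_le (hI b) (hc b)
  rw [meas_eq, meas_eq]
  have hle : ∀ b ∈ (Finset.univ : Finset (B D)),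
      ∑ j ∈ (Finset.range m).filter (fun j => b ∈ C j), j ≤
      ∑ j ∈ (Finset.range m).filter (fun j => b ∈ A j), j :=
    fun b _ => (Nat.le_add_right _ _).trans (key b)
  refine ⟨Finset.sum_le_sum hle, fun hge j hj => ?_⟩
  have heq := (Finset.sum_eq_sum_iff_of_le hle).1 (le_antisymm (Finset.sum_le_sum hle) hge)
  have hset : ∀ b : B D, (Finset.range m).filter (fun j => b ∈ A j) =
      (Finset.range m).filter (fun j => b ∈ C j) := by
    intro b
    have h1 := key b
    have h2 := heq b (Finset.mem_univ b)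
    rw [h2] at h1
    have h3 : ((Finset.range m).filter (fun j => b ∈ A j) \
        (Finset.range m).filter (fun j => b ∈ C j)).card = 0 := by omega
    rw [Finset.card_eq_zero, Finset.sdiff_eq_empty_iff_subset] at h3
    exact Finset.eq_of_subset_of_card_le h3 (hc b).ge
  ext b
  have h1 := hset b
  have h2 : j ∈ (Finset.range m).filter (fun j => b ∈ A j) ↔
      j ∈ (Finset.range m).filter (fun j => b ∈ C j) := by rw [h1]
  rw [Finset.mem_filter, Finset.mem_filter, Finset.mem_range] at h2
  exact ⟨fun h3 => (h2.1 ⟨hj, h3⟩).2, fun h3 => (h2.2 ⟨hj, h3⟩).2⟩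

/-- existence of a chain with given nested types -/
lemma exists_chain (n : ℕ → D.I → ℕ) (hn : ∀ j, n (j + 1) ≤ n j) (h0 : n 0 ≤ D.v) :
    ∃ C : ℕ → Finset (B D), (∀ j, C (j + 1) ⊆ C j) ∧ ∀ j, typ D (C j) = n j := by
  classical
  have hle : ∀ j, n j ≤ D.v := by
    intro j
    induction j with
    | zero => exact h0
    | succ j ih => exact (hn j).trans ih
  refine ⟨fun j => Finset.univ.filter fun b : B D => (b.2 : ℕ) < n j b.1, fun j b hb => ?_,
    fun j => ?_⟩
  · rw [Finset.mem_filter] at hb ⊢
    exact ⟨Finset.mem_univ _, lt_of_lt_of_le hb.2 (hn j b.1)⟩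
  · funext i
    rw [← card_fib]
    have h1 : fib D (Finset.univ.filter fun b : B D => (b.2 : ℕ) < n j b.1) i =
        Finset.univ.filter fun r : Fin (D.v i) => (r : ℕ) < n j i := by
      ext r
      rw [mem_fib, Finset.mem_filter, Finset.mem_filter]
      simp only [Finset.mem_univ, true_and]
    rw [h1]
    have h2 := Fin.card_filter_val_lt (n := D.v i) (m := n j i)
    rw [h2]
    exact min_eq_right (hle j i)

/-- `U w ε n` is zero if `n` is not at most `v` -/
lemma U_eq_bot (ε : ℕ) {n : D.I → ℕ} (h : ¬ n ≤ D.v) : U w ε n = ⊥ := by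
  rw [eq_bot_iff]
  rintro _ ⟨φ, hφ, rfl⟩
  have h1 : φ = 0 := by
    funext A
    refine hφ.2 A fun hA => h ?_
    rw [← hA]
    exact typ_le D A
  rw [h1, map_zero]
  exact Submodule.zero_mem _

end Vale.Agent.P291.H
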