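import Vale.Agent.P291.H.Pair
import Vale.Agent.P291.H.Meas

set_option autoImplicit false
set_option linter.unusedSectionVars false
set_option linter.all false

/-! Straightening. -/

namespace Vale.Agent.P291.H

open MvPolynomial Vale.Agent.P291.G

variable {D : QData} {Z : Type} (w : Wts D Z)

/-- values of the doubly updated sequence -/
lemma straight_upd_left (n : ℕ → D.I → ℕ) (i : ℕ) (a b : D.I → ℕ) :
    Function.update (Function.update n i a) (i + 1) b i = a := by
  rw [Function.update_of_ne (by omega), Function.update_self]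

lemma straight_upd_right (n : ℕ → D.I → ℕ) (i : ℕ) (a b : D.I → ℕ) :
    Function.update (Function.update n i a) (i + 1) b (i + 1) = b := by
  rw [Function.update_self]

lemma straight_upd_ne (n : ℕ → D.I → ℕ) (i : ℕ) (a b : D.I → ℕ) {j : ℕ} (h1 : j ≠ i)
    (h2 : j ≠ i + 1) : Function.update (Function.update n i a) (i + 1) b j = n j := by
  rw [Function.update_of_ne h2, Function.update_of_ne h1]

/-- splitting a sum over `range m` -/
lemma straight_sum_split {M : Type} [AddCommMonoid M] (f : ℕ → M) {m i : ℕ} (hi : i + 1 < m) :
    ∑ j ∈ Finset.range m, f j =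
      (f i + f (i + 1)) + ∑ j ∈ ((Finset.range m).erase i).erase (i + 1), f j := by
  have h1 : i ∈ Finset.range m := Finset.mem_range.2 (by omega)
  have h2 : i + 1 ∈ (Finset.range m).erase i :=
    Finset.mem_erase.2 ⟨by omega, Finset.mem_range.2 hi⟩
  rw [← Finset.add_sum_erase _ _ h1, ← Finset.add_sum_erase _ _ h2, add_assoc]

/-- replacing the pair `(i, i+1)` of slots: `UU` factors -/
lemma UU_update (ε : ℕ → ℕ) (m : ℕ) (n : ℕ → D.I → ℕ) (i : ℕ) (hi : i + 1 < m)
    (a b : D.I → ℕ) : UU w ε m (Function.update (Function.update n i a) (i + 1) b) =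
      (U w (ε i) a * U w (ε (i + 1)) b) *
        ∏ j ∈ ((Finset.range m).erase i).erase (i + 1), U w (ε j) (n j) := by
  have h1 : i ∈ Finset.range m := Finset.mem_range.2 (by omega)
  have h2 : i + 1 ∈ (Finset.range m).erase i :=
    Finset.mem_erase.2 ⟨by omega, Finset.mem_range.2 hi⟩
  rw [UU, ← Finset.mul_prod_erase _ _ h1, ← Finset.mul_prod_erase _ _ h2, ← mul_assoc,
    straight_upd_left, straight_upd_right]
  refine congrArg _ (Finset.prod_congr rfl fun j hj => ?_)
  rw [Finset.mem_erase, Finset.mem_erase] at hj
  rw [straight_upd_ne n i a b hj.2.1 hj.1]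

/-- the measure of a replaced sequence (`a + b = n i + n (i+1)`) -/
lemma meas_update (m : ℕ) (n : ℕ → D.I → ℕ) (i : ℕ) (hi : i + 1 < m)
    (a b : D.I → ℕ) (h : a + b = n i + n (i + 1)) :
    meas m (Function.update (Function.update n i a) (i + 1) b) + ∑ k, n (i + 1) k =
      meas m n + ∑ k, b k := by
  have hs : ∑ k, a k + ∑ k, b k = ∑ k, n i k + ∑ k, n (i + 1) k := by
    rw [← Finset.sum_add_distrib, ← Finset.sum_add_distrib]
    exact Finset.sum_congr rfl fun k _ => congrFun h k
  rw [meas, meas, straight_sum_split _ hi, straight_sum_split _ hi, straight_upd_left,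
    straight_upd_right]
  have hr : ∑ j ∈ ((Finset.range m).erase i).erase (i + 1),
      j * ∑ k, Function.update (Function.update n i a) (i + 1) b j k =
      ∑ j ∈ ((Finset.range m).erase i).erase (i + 1), j * ∑ k, n j k := by
    refine Finset.sum_congr rfl fun j hj => ?_
    rw [Finset.mem_erase, Finset.mem_erase] at hj
    rw [straight_upd_ne n i a b hj.2.1 hj.1]
  rw [hr]
  have h3 : i * ∑ k, a k + i * ∑ k, b k = i * ∑ k, n i k + i * ∑ k, n (i + 1) k := by
    rw [← mul_add, ← mul_add, hs]
  rw [add_mul, add_mul, one_mul, one_mul]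
  omega

/-- the replaced sequence is again admissible, if `n` is admissible, all `n j ≤ v`, and `n` is not
a pair sequence and `b ≠ n (i+1)`.
Proof: the total is unchanged. If the new sequence were the trivial one: if `i + 1 < l` then
`a = b = v`, so `n i + n (i+1) = v + v` with both `≤ v`: `n (i+1) = v = b`. If `l ≤ i` then
`a = b = 0`, `n (i+1) = 0 = b`. If `i + 1 = l` then `a = v`, `b = 0`, `n i + n (i+1) = v` and the
other entries are trivial, so `n = seqP l (n (i+1))`, with `n (i+1) ≠ 0 = b`, `n (i+1) ≤ v`:
excluded. -/
lemma seqOK_update {m l : ℕ} {n : ℕ → D.I → ℕ} (h : seqOK m l n) (hv : ∀ j, n j ≤ D.v)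
    (hp : ∀ s : D.I → ℕ, s ≠ 0 → s ≤ D.v → n ≠ seqP l s) (i : ℕ) (hi : i + 1 < m)
    (a b : D.I → ℕ) (hab : a + b = n i + n (i + 1)) (hb : b ≠ n (i + 1)) :
    seqOK m l (Function.update (Function.update n i a) (i + 1) b) := by
  obtain ⟨h1, h2, h3⟩ := h
  refine ⟨fun j hj => ?_, ?_, fun he => ?_⟩
  · rw [straight_upd_ne n i a b (by omega) (by omega)]
    exact h1 j hj
  · rw [straight_sum_split _ hi] at h2 ⊢
    rw [straight_upd_left, straight_upd_right, hab, ← h2]
    refine congrArg _ (Finset.sum_congr rfl fun j hj => ?_)
    rw [Finset.mem_erase, Finset.mem_erase] at hj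
    rw [straight_upd_ne n i a b hj.2.1 hj.1]
  · have ea : a = seqT D l i := by
      rw [← he, straight_upd_left]
    have eb : b = seqT D l (i + 1) := by
      rw [← he, straight_upd_right]
    have er : ∀ j, j ≠ i → j ≠ i + 1 → n j = seqT D l j := fun j hj1 hj2 => by
      rw [← he, straight_upd_ne n i a b hj1 hj2]
    rcases lt_trichotomy (i + 1) l with hl | hl | hl
    · -- both slots full
      apply hb
      have ea' : a = D.v := by rw [ea, seqT, if_pos (by omega)]
      have eb' : b = D.v := by rw [eb, seqT, if_pos hl]
      funext k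
      have h4 := congrFun hab k
      have h5 : n i k ≤ D.v k := hv i k
      have h6 : n (i + 1) k ≤ D.v k := hv (i + 1) k
      rw [ea', eb'] at h4
      rw [eb']
      simp only [Pi.add_apply] at h4
      omega
    · -- the pair sequence
      have ea' : a = D.v := by rw [ea, seqT, if_pos (by omega)]
      have eb' : b = 0 := by rw [eb, seqT, if_neg (by omega)]
      refine hp (n (i + 1)) (fun h0 => hb (by rw [eb', h0])) (hv _) ?_
      funext j
      rw [seqP]
      split_ifs with c1 c2 c3
      · rw [er j (by omega) (by omega), seqT, if_pos (by omega)]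
      · have : j = i := by omega
        subst this
        funext k
        have h4 := congrFun hab k
        rw [ea', eb'] at h4
        simp only [Pi.add_apply, Pi.zero_apply, Pi.sub_apply] at h4 ⊢
        omega
      · rw [c3, ← hl]
      · rw [er j (by omega) (by omega), seqT, if_neg (by omega)]
    · -- both slots empty
      apply hb
      have ea' : a = 0 := by rw [ea, seqT, if_neg (by omega)]
      have eb' : b = 0 := by rw [eb, seqT, if_neg (by omega)]
      funext k
      have h4 := congrFun hab k
      rw [ea', eb'] at h4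
      rw [eb']
      simp only [Pi.add_apply, Pi.zero_apply] at h4 ⊢
      omega

/-- STRAIGHTENING. Induction on `meas m n`. If some `n j` is not `≤ v`, `UU = ⊥` (`U_eq_bot`). If
`n` is a pair sequence: contained in `LL`. If `n` is nested: it is a `seqN`. Otherwise
`¬ n (i+1) ≤ n i` for some `i`; here `i + 1 < m` (as `n j = 0` for `j ≥ m`); apply `pair_mul` to the
slots `i, i+1` (with the help of `UU_update` and the submodule
`{Y | ∀ Y' ∈ ∏_{j ≠ i, i+1} U (n j), Y * Y' ∈ T}`): the new sequences have `b = s ≤ n i`,
`s ≤ n (i+1)`, so `s ≠ n (i+1)`, smaller measure (`meas_update`) and are admissible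
(`seqOK_update`). -/
theorem straighten {m l : ℕ} (hl : 1 ≤ l) (hm : l < m) :
    ∀ n : ℕ → D.I → ℕ, seqOK m l n → UU w (ep l) m n ≤
      LL w m l ⊔ ⨆ n' : ℕ → D.I → ℕ, ⨆ _ : seqN m l (meas m n) n', UU w (ep l) m n' := by
  intro n hn
  induction hk : meas m n using Nat.strong_induction_on generalizing n with
  | _ k ih =>
    subst hk
    by_cases hv : ∀ j, n j ≤ D.v
    · by_cases hp : ∀ s : D.I → ℕ, s ≠ 0 → s ≤ D.v → n ≠ seqP l s
      · by_cases hne : ∀ j, n (j + 1) ≤ n j
        · refine le_sup_of_le_right ?_
          exact le_iSup₂_of_le n ⟨hn, hne, hp, le_rfl⟩ le_rfl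
        · push Not at hne
          obtain ⟨i, hi⟩ := hne
          have him : i + 1 < m := by
            by_contra hc
            apply hi
            rw [hn.1 (i + 1) (by omega)]
            exact fun k => Nat.zero_le _
          have hupd : Function.update (Function.update n i (n i)) (i + 1) (n (i + 1)) = n := by
            rw [Function.update_eq_self, Function.update_eq_self]
          have h12 : ep l i ≤ ep l (i + 1) := by
            unfold ep
            split_ifs <;> omega
          have key : U w (ep l i) (n i) * U w (ep l (i + 1)) (n (i + 1)) ≤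
              (LL w m l ⊔ ⨆ n' : ℕ → D.I → ℕ, ⨆ _ : seqN m l (meas m n) n',
                UU w (ep l) m n') /
                ∏ j ∈ ((Finset.range m).erase i).erase (i + 1), U w (ep l j) (n j) := by
            refine pair_mul w h12 (n i) (n (i + 1)) _ fun n1' s hs1 hs2 hs3 hs4 => ?_
            rw [Submodule.le_div_iff_mul_le, ← UU_update w (ep l) m n i him n1' s]
            have hsne : s ≠ n (i + 1) := fun h => hi (h ▸ hs1)
            have hlt : ∑ k, s k < ∑ k, n (i + 1) k := by
              refine lt_of_le_of_ne (Finset.sum_le_sum fun k _ => hs2 k) fun he => hsne ?_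
              funext k
              exact (Finset.sum_eq_sum_iff_of_le fun k _ => hs2 k).1 he k (Finset.mem_univ k)
            have hmeas := meas_update m n i him n1' s hs4
            have hmlt : meas m (Function.update (Function.update n i n1') (i + 1) s) <
                meas m n := by omega
            refine (ih _ hmlt _ (seqOK_update hn hv hp i him n1' s hs4 hsne) rfl).trans ?_
            refine sup_le_sup_left ?_ _
            refine iSup_mono fun n' => iSup_mono' fun h' => ⟨?_, le_rfl⟩
            exact ⟨h'.1, h'.2.1, h'.2.2.1, h'.2.2.2.trans hmlt.le⟩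
          rw [Submodule.le_div_iff_mul_le, ← UU_update w (ep l) m n i him, hupd] at key
          exact key
      · push Not at hp
        obtain ⟨s, hs0, hsv, hs⟩ := hp
        refine le_sup_of_le_left ?_
        rw [hs]
        exact le_iSup₂_of_le s ⟨hs0, hsv⟩ le_rfl
    · push Not at hv
      obtain ⟨j, hj⟩ := hv
      have hjm : j ∈ Finset.range m := by
        rw [Finset.mem_range]
        by_contra hc
        apply hj
        rw [hn.1 j (by omega)]
        exact fun k => Nat.zero_le _
      have h0 : UU w (ep l) m n = 0 := by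
        unfold UU
        have h1 : U w (ep l j) (n j) = 0 := U_eq_bot w _ hj
        exact Finset.prod_eq_zero (f := fun j => U w (ep l j) (n j)) hjm h1
      rw [h0]
      exact bot_le

end Vale.Agent.P291.H
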