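import Vale.Agent.P291.H.Chain
import Vale.Agent.P291.H.Straight

set_option autoImplicit false
set_option linter.unusedSectionVars false

/-! Descending induction on the measure. -/

namespace Vale.Agent.P291.H

open MvPolynomial Vale.Agent.P291.G

variable {D : QData} {Z : Type} (w : Wts D Z)

/-- the submodule of the elements whose coefficient at `lam` vanishes -/
noncomputable def coeffKer (lam : B D → ℤ) :
    Submodule ℂ (AddMonoidAlgebra (S D Z) (B D → ℤ)) where
  carrier := {Y | Y.coeff lam = 0}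
  add_mem' := by
    intro a b ha hb
    have ha' : a.coeff lam = 0 := ha
    have hb' : b.coeff lam = 0 := hb
    change (a + b).coeff lam = 0
    rw [AddMonoidAlgebra.coeff_add, Finsupp.add_apply, ha', hb', add_zero]
  zero_mem' := by
    change (0 : AddMonoidAlgebra (S D Z) (B D → ℤ)).coeff lam = 0
    rw [AddMonoidAlgebra.coeff_zero, Finsupp.zero_apply]
  smul_mem' := by
    intro c a ha
    have ha' : a.coeff lam = 0 := ha
    change (c • a).coeff lam = 0
    rw [AddMonoidAlgebra.coeff_smul_apply, ha', smul_zero]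

lemma mem_coeffKer {lam : B D → ℤ} {Y : AddMonoidAlgebra (S D Z) (B D → ℤ)} :
    Y ∈ coeffKer (D := D) (Z := Z) lam ↔ Y.coeff lam = 0 := Iff.rfl

/-- two chains with the same sum of indicator functions agree -/
lemma chain_unique (m : ℕ) (A C : ℕ → Finset (B D)) (hA : ∀ j, j + 1 < m → A (j + 1) ⊆ A j)
    (hC : ∀ j, j + 1 < m → C (j + 1) ⊆ C j)
    (h : ∑ j ∈ Finset.range m, ind D (A j) = ∑ j ∈ Finset.range m, ind D (C j)) :
    ∀ j, j < m → C j = A j := by
  have h1 := meas_le m A C hC h
  have h2 := meas_le m C A hA h.symm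
  exact h2.2 h1.1

/-- changing two neighbouring sets to their union and intersection does not change the sum -/
lemma sum_ind_pair (m k : ℕ) (hk : k + 1 < m) (A C : ℕ → Finset (B D))
    (h1 : C k = A k ∪ A (k + 1)) (h2 : C (k + 1) = A k ∩ A (k + 1))
    (h3 : ∀ j, j < m → j ≠ k → j ≠ k + 1 → C j = A j) :
    ∑ j ∈ Finset.range m, ind D (C j) = ∑ j ∈ Finset.range m, ind D (A j) := by
  have hk1 : k ∈ Finset.range m := Finset.mem_range.2 (by omega)
  have hk2 : k + 1 ∈ (Finset.range m).erase k :=
    Finset.mem_erase.2 ⟨by omega, Finset.mem_range.2 hk⟩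
  rw [← Finset.add_sum_erase _ _ hk1, ← Finset.add_sum_erase _ _ hk2,
    ← Finset.add_sum_erase _ (fun j => ind D (A j)) hk1,
    ← Finset.add_sum_erase _ (fun j => ind D (A j)) hk2, ← add_assoc, ← add_assoc, h1, h2,
    ← ind_union_inter]
  congr 1
  refine Finset.sum_congr rfl fun j hj => ?_
  rw [Finset.mem_erase, Finset.mem_erase, Finset.mem_range] at hj
  rw [h3 j hj.2.2 hj.2.1 hj.1]

/-- elements of `LL` have coefficient zero at the chains which are neither trivial nor of pair type.
Proof: by `coeff_ne`, if the coefficient of an element of `UU w (ep l) m (seqP l s)` at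
`∑_{j<m} ind (C j)` is not zero then this is `∑ ind (A j)` with `typ (A j) = seqP l s j`, so
`A j = univ` for `j + 1 < l` and `A j = ∅` for `j > l`: the exponent is
`(l - 1) • ind univ + ind P + ind q`, `P = A (l-1) ∪ A l`, `q = A (l-1) ∩ A l`; both sides are sums of
nested chains, so `C j = univ` (`j + 1 < l`), `C (l-1) = P`, `C l = q`, `C j = ∅` (`j > l`) (use
`meas_le` twice or the description `C j = {b | j + 1 ≤ ∑ ...}`); as `typ P + typ q = v`, the
sequence `typ (C j)` is `seqP l (typ q)` if `q ≠ ∅` and `seqT l` if `q = ∅`. -/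
lemma coeff_LL {m l M : ℕ} (hl : 1 ≤ l) (hm : l < m) {n : ℕ → D.I → ℕ} (hn : seqN m l M n)
    (C : ℕ → Finset (B D)) (hC : ∀ j, C (j + 1) ⊆ C j) (ht : ∀ j, typ D (C j) = n j)
    {Y : AddMonoidAlgebra (S D Z) (B D → ℤ)} (hY : Y ∈ LL w m l) :
    Y.coeff (∑ j ∈ Finset.range m, ind D (C j)) = 0 := by
  classical
  have key : LL w m l ≤ coeffKer (∑ j ∈ Finset.range m, ind D (C j)) := by
    rw [LL]
    refine iSup_le fun s => iSup_le fun hs => ?_
    intro Y hY
    rw [mem_coeffKer]
    by_contra hne
    obtain ⟨A, hA, hlam⟩ := coeff_ne w (ep l) m (seqP l s) hY hne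
    obtain ⟨k, rfl⟩ : ∃ k, l = k + 1 := ⟨l - 1, by omega⟩
    have hA1 : ∀ j, j < k → A j = Finset.univ := by
      intro j hj
      refine eq_of_subset D (Finset.subset_univ _) ?_
      rw [hA j (by omega), typ_univ, seqP, if_pos (by omega)]
    have hA2 : ∀ j, k + 1 < j → j < m → A j = ∅ := by
      intro j hj hjm
      refine typ_eq_zero D ?_
      rw [hA j hjm, seqP, if_neg (by omega), if_neg (by omega), if_neg (by omega)]
    have hAk : typ D (A k) = D.v - s := by
      rw [hA k (by omega), seqP, if_neg (by omega), if_pos rfl]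
    have hAk1 : typ D (A (k + 1)) = s := by
      rw [hA (k + 1) hm, seqP, if_neg (by omega), if_neg (by omega), if_pos rfl]
    have htyp : typ D (A k ∪ A (k + 1)) + typ D (A k ∩ A (k + 1)) = D.v := by
      rw [typ_union_inter, hAk, hAk1]
      exact tsub_add_cancel_of_le hs.2
    have htyp2 : typ D (A k ∪ A (k + 1)) = D.v - typ D (A k ∩ A (k + 1)) :=
      eq_tsub_of_add_eq htyp
    let C' : ℕ → Finset (B D) := fun j =>
      if j < k then Finset.univ else if j = k then A k ∪ A (k + 1)
      else if j = k + 1 then A k ∩ A (k + 1) else ∅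
    have hC'1 : ∀ j, j < k → C' j = Finset.univ := fun j hj => if_pos hj
    have hC'2 : C' k = A k ∪ A (k + 1) := by
      change (if k < k then _ else _) = _
      rw [if_neg (lt_irrefl k), if_pos rfl]
    have hC'3 : C' (k + 1) = A k ∩ A (k + 1) := by
      change (if k + 1 < k then _ else _) = _
      rw [if_neg (by omega), if_neg (by omega), if_pos rfl]
    have hC'4 : ∀ j, k + 1 < j → C' j = ∅ := by
      intro j hj
      change (if j < k then _ else _) = _
      rw [if_neg (by omega), if_neg (by omega), if_neg (by omega)]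
    have hC' : ∀ j, C' (j + 1) ⊆ C' j := by
      intro j
      rcases lt_trichotomy j k with h | h | h
      · rw [hC'1 j h]
        exact Finset.subset_univ _
      · rw [h, hC'2, hC'3]
        exact Finset.inter_subset_left.trans Finset.subset_union_left
      · rw [hC'4 (j + 1) (by omega)]
        exact Finset.empty_subset _
    have hsum : ∑ j ∈ Finset.range m, ind D (C' j) = ∑ j ∈ Finset.range m, ind D (A j) := by
      refine sum_ind_pair m k hm A C' hC'2 hC'3 fun j hj h1 h2 => ?_
      rcases lt_trichotomy j k with h | h | h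
      · rw [hC'1 j h, hA1 j h]
      · exact absurd h h1
      · rw [hC'4 j (by omega), hA2 j (by omega) hj]
    have heq : ∀ j, j < m → C j = C' j :=
      chain_unique m C' C (fun j _ => hC' j) (fun j _ => hC j) (hsum.trans hlam.symm)
    have hnP : n = seqP (k + 1) (typ D (A k ∩ A (k + 1))) := by
      funext j
      by_cases hj : j < m
      · rw [← ht j, heq j hj, seqP]
        rcases lt_trichotomy j k with h | h | h
        · rw [hC'1 j h, typ_univ, if_pos (by omega)]
        · rw [h, hC'2, if_neg (by omega), if_pos rfl]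
          exact htyp2
        · rcases eq_or_ne j (k + 1) with h' | h'
          · rw [h', hC'3, if_neg (by omega), if_neg (by omega), if_pos rfl]
          · rw [hC'4 j (by omega), typ_empty, if_neg (by omega), if_neg (by omega), if_neg h']
      · rw [hn.1.1 j (by omega), seqP, if_neg (by omega), if_neg (by omega), if_neg (by omega)]
    by_cases hq : typ D (A k ∩ A (k + 1)) = 0
    · refine hn.1.2.2 ?_
      rw [hnP, hq]
      funext j
      rw [seqP, seqT]
      rcases lt_trichotomy j k with h | h | h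
      · rw [if_pos (by omega), if_pos (by omega)]
      · rw [if_neg (by omega), if_pos (by omega), if_pos (by omega), tsub_zero]
      · rw [if_neg (by omega), if_neg (by omega), if_neg (by omega : ¬ j < k + 1)]
        split_ifs <;> rfl
    · exact hn.2.2.1 _ hq (typ_le D _) hnP
  exact key hY

/-- elements of `UU` of another sequence, of at most the same measure, have coefficient zero at
the chain -/
lemma coeff_UU {m : ℕ} (ε : ℕ → ℕ) {n n' : ℕ → D.I → ℕ}
    (C : ℕ → Finset (B D)) (hC : ∀ j, C (j + 1) ⊆ C j) (ht : ∀ j, typ D (C j) = n j)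
    (hle : meas m n' ≤ meas m n) (hne : ∃ j, j < m ∧ n' j ≠ n j)
    {Y : AddMonoidAlgebra (S D Z) (B D → ℤ)} (hY : Y ∈ UU w ε m n') :
    Y.coeff (∑ j ∈ Finset.range m, ind D (C j)) = 0 := by
  by_contra h0
  obtain ⟨A, hA, hlam⟩ := coeff_ne w ε m n' hY h0
  have h1 := meas_le m A C (fun j _ => hC j) hlam.symm
  have h2 : meas m (fun j => typ D (A j)) = meas m n' := by
    rw [meas, meas]
    refine Finset.sum_congr rfl fun j hj => ?_
    rw [hA j (Finset.mem_range.1 hj)]
  have h3 : meas m (fun j => typ D (C j)) = meas m n := by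
    rw [meas, meas]
    refine Finset.sum_congr rfl fun j hj => ?_
    rw [ht j]
  rw [h2, h3] at h1
  have h4 := h1.2 hle
  obtain ⟨j, hj, hj2⟩ := hne
  exact hj2 (by rw [← hA j hj, ← ht j, h4 j hj])

/-- common part of the two steps of the descent -/
lemma descend_aux {m l M : ℕ} (hm : l < m)
    (T : Submodule ℂ (AddMonoidAlgebra (S D Z) (B D → ℤ)))
    (hT : ∀ n, seqOK m l n → meas m n < M → UU w (ep l) m n ≤ T)
    (hT0 : ∀ Y ∈ T, ∀ n : ℕ → D.I → ℕ, seqN m l M n → meas m n = M →
      ∀ C : ℕ → Finset (B D), (∀ j, C (j + 1) ⊆ C j) → (∀ j, typ D (C j) = n j) →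
        Y.coeff (∑ j ∈ Finset.range m, ind D (C j)) = 0)
    {X : AddMonoidAlgebra (S D Z) (B D → ℤ)}
    (hX : X ∈ T ⊔ ⨆ n : {n : ℕ → D.I → ℕ // seqN m l M n ∧ meas m n = M}, UU w (ep l) m n.1)
    (h0 : ∀ lam : B D → ℤ, lam ≠ l • ind D Finset.univ → X.coeff lam = 0) : X ∈ T := by
  classical
  obtain ⟨Y, hY, X', hX', rfl⟩ := Submodule.mem_sup.1 hX
  obtain ⟨f, hf, rfl⟩ := (Submodule.mem_iSup_iff_exists_finsupp _ _).1 hX'
  refine T.add_mem hY (T.sum_mem fun n hn => ?_)
  obtain ⟨n, hN, hM⟩ := n
  have hfn := hf ⟨n, hN, hM⟩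
  dsimp only at hfn ⊢
  by_cases hv : n 0 ≤ D.v
  swap
  · have h1 : UU w (ep l) m n = ⊥ := by
      have h0m : 0 < m := by omega
      have h2 : U w (ep l 0) (n 0) = 0 := U_eq_bot w _ hv
      exact Finset.prod_eq_zero (f := fun j => U w (ep l j) (n j))
        (Finset.mem_range.2 h0m) h2
    rw [h1, Submodule.mem_bot] at hfn
    rw [hfn]
    exact T.zero_mem
  obtain ⟨C, hC, ht⟩ := exists_chain n hN.2.1 hv
  have hle : ∀ j, n j ≤ D.v := fun j => ht j ▸ typ_le D (C j)
  -- the exponent of the chain is not the trivial one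
  have hlam : (∑ j ∈ Finset.range m, ind D (C j)) ≠ l • ind D Finset.univ := by
    intro h
    let E : ℕ → Finset (B D) := fun j => if j < l then Finset.univ else ∅
    have hE1 : ∀ j, j < l → E j = Finset.univ := fun j hj => if_pos hj
    have hE0 : ∀ j, ¬ j < l → E j = ∅ := fun j hj => if_neg hj
    have hE : ∀ j, E (j + 1) ⊆ E j := by
      intro j
      by_cases hj : j < l
      · rw [hE1 j hj]
        exact Finset.subset_univ _
      · rw [hE0 (j + 1) (by omega)]
        exact Finset.empty_subset _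
    have hE2 : ∑ j ∈ Finset.range m, ind D (E j) = l • ind D Finset.univ := by
      have h5 : ∀ j, ind D (E j) = if j < l then ind D Finset.univ else 0 := by
        intro j
        split_ifs with h6
        · rw [hE1 j h6]
        · rw [hE0 j h6]
          funext b
          rw [ind, if_neg (Finset.notMem_empty b)]
          rfl
      rw [Finset.sum_congr rfl fun j _ => h5 j, ← Finset.sum_filter, Finset.sum_const]
      congr 1
      have h7 : (Finset.range m).filter (fun j => j < l) = Finset.range l := by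
        ext j
        rw [Finset.mem_filter, Finset.mem_range, Finset.mem_range]
        omega
      rw [h7, Finset.card_range]
    have h8 := chain_unique m E C (fun j _ => hE j) (fun j _ => hC j) (hE2.trans h.symm)
    refine hN.1.2.2 ?_
    funext j
    by_cases hj : j < m
    · rw [← ht j, h8 j hj, seqT]
      split_ifs with h6
      · rw [hE1 j h6]
        exact typ_univ D
      · rw [hE0 j h6]
        exact typ_empty D
    · rw [hN.1.1 j (by omega), seqT, if_neg (by omega)]
  have hX0 := h0 _ hlam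
  rw [AddMonoidAlgebra.coeff_add, Finsupp.add_apply, hT0 Y hY n hN hM C hC ht, zero_add,
    Finsupp.sum, AddMonoidAlgebra.coeff_sum, Finsupp.finsetSum_apply,
    Finset.sum_eq_single_of_mem _ hn] at hX0
  · -- the coefficient of the chain vanishes, so the value of the graph does
    obtain ⟨p, hp⟩ := exists_graph w (ep l) m n C hfn
    have h9 := coeff_chain w (ep l) m n C (fun j _ => hC j) (fun j _ => ht j) hp
    rw [hX0] at h9
    have h10 : (∏ j ∈ Finset.range m, (e w (C j) * zs w (C j) ^ ep l j)) ≠ 0 :=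
      Finset.prod_ne_zero_iff.2 fun j _ =>
        mul_ne_zero (e_ne_zero w _) (pow_ne_zero _ (zs_ne_zero w _))
    have h11 : p = 0 := (mul_eq_zero.1 h9.symm).resolve_left h10
    subst h11
    refine chain w m (ep l) n C ?_ (fun j _ => hC j) (fun j _ => ht j) T ?_ _ hp
    · intro j
      rw [ep, ep]
      split_ifs <;> omega
    · intro i δ hi hδ hδn
      have ha : (n i + δ) + (n (i + 1) - δ) = n i + n (i + 1) := by
        rw [add_assoc, add_tsub_cancel_of_le hδn]
      have hb : n (i + 1) - δ ≠ n (i + 1) := by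
        intro h
        apply hδ
        funext k
        have h12 : n (i + 1) k - δ k = n (i + 1) k := congrFun h k
        have h13 : δ k ≤ n (i + 1) k := hδn k
        change δ k = 0
        omega
      refine hT _ ?_ ?_
      · exact seqOK_update hN.1 hle hN.2.2.1 i hi _ _ ha hb
      · have h14 := meas_update m n i hi _ _ ha
        have h15 : ∑ k, (n (i + 1) - δ) k < ∑ k, n (i + 1) k := by
          obtain ⟨k, hk⟩ := Function.ne_iff.1 hb
          refine Finset.sum_lt_sum (fun k' _ => ?_) ⟨k, Finset.mem_univ _, ?_⟩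
          · exact tsub_le_self
          · exact lt_of_le_of_ne tsub_le_self hk
        rw [move]
        omega
  · intro n' _ hne
    refine coeff_UU w (ep l) C hC ht (by rw [n'.2.2, hM]) ?_ (hf n')
    by_contra hcon
    push Not at hcon
    apply hne
    refine Subtype.ext ?_
    funext j
    by_cases hj : j < m
    · exact hcon j hj
    · exact (n'.2.1.1.1 j (by omega)).trans (hN.1.1 j (by omega)).symm

/-- monotonicity of the nested admissible sequences in the bound -/
lemma seqN_mono {m l M M' : ℕ} (h : M ≤ M') {n : ℕ → D.I → ℕ} (hn : seqN m l M n) :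
    seqN m l M' n := ⟨hn.1, hn.2.1, hn.2.2.1, hn.2.2.2.trans h⟩

lemma iSup_seqN_mono {m l M M' : ℕ} (h : M ≤ M') :
    LL w m l ⊔ (⨆ n : ℕ → D.I → ℕ, ⨆ _ : seqN m l M n, UU w (ep l) m n) ≤
      LL w m l ⊔ ⨆ n : ℕ → D.I → ℕ, ⨆ _ : seqN m l M' n, UU w (ep l) m n := by
  refine sup_le le_sup_left (iSup_le fun n => iSup_le fun hn => ?_)
  exact le_sup_of_le_right (le_iSup_of_le n (le_iSup_of_le (seqN_mono h hn) le_rfl))

/-- one step of the descent. Write `X = L + ∑ n, X_n` (finite sum over distinct `seqN m l M`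
sequences, `X_n ∈ UU (n)`; `Submodule.mem_sup`, `Submodule.mem_iSup_iff_exists_finsupp` or
induction). For `n` with `meas m n < M` there is nothing to do (`seqN` with `M - 1`). Let
`meas m n = M` and choose a chain `C` of type `n` (`exists_chain`). At `lam = ∑ ind (C j)` the
coefficients of `X` (as `lam ≠ l • ind univ`: otherwise `meas_le` with `seqT` gives `n = seqT`), of
`L` (`coeff_LL`) and of `X_{n'}`, `n' ≠ n` (`coeff_ne`, `meas_le`) are zero, so that of `X_n` is
zero; by `exists_graph` and `coeff_chain`, `(X_n, 0)` is in the product of the graphs. By `chain`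
applied to `T = LL ⊔ ⨆ seqN (M-1)`, and `straighten` for the sequences `move n i δ`
(`seqOK_update`, `meas_update`), `X_n ∈ T`. If `M = 0` the same argument gives `X_n ∈ LL` (`move`
has strictly smaller measure, so there are no such sequences, i.e. `hT` of `chain` is vacuous:
`δ ≤ n (i+1)` and `meas m n = 0` force `n (i+1) = 0`). -/
lemma descend_step {m l : ℕ} (hl : 1 ≤ l) (hm : l < m) (M : ℕ)
    {X : AddMonoidAlgebra (S D Z) (B D → ℤ)}
    (hX : X ∈ LL w m l ⊔ ⨆ n : ℕ → D.I → ℕ, ⨆ _ : seqN m l (M + 1) n, UU w (ep l) m n)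
    (h0 : ∀ lam : B D → ℤ, lam ≠ l • ind D Finset.univ → X.coeff lam = 0) :
    X ∈ LL w m l ⊔ ⨆ n : ℕ → D.I → ℕ, ⨆ _ : seqN m l M n, UU w (ep l) m n := by
  refine descend_aux w hm (M := M + 1) _ ?_ ?_ ?_ h0
  · intro n hn hlt
    exact (straighten w hl hm n hn).trans (iSup_seqN_mono w (by omega))
  · intro Y hY n hN hM C hC ht
    have h1 : LL w m l ⊔ (⨆ n : ℕ → D.I → ℕ, ⨆ _ : seqN m l M n, UU w (ep l) m n) ≤
        coeffKer (∑ j ∈ Finset.range m, ind D (C j)) := by
      refine sup_le (fun Y hY => ?_) (iSup_le fun n' => iSup_le fun hn' => fun Y hY => ?_)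
      · exact coeff_LL w hl hm hN C hC ht hY
      · refine coeff_UU w (ep l) C hC ht ?_ ?_ hY
        · rw [hM]
          exact hn'.2.2.2.trans (Nat.le_succ M)
        · by_contra hcon
          push Not at hcon
          have h2 : meas m n' = meas m n := by
            rw [meas, meas]
            refine Finset.sum_congr rfl fun j hj => ?_
            rw [hcon j (Finset.mem_range.1 hj)]
          have h3 := hn'.2.2.2
          omega
    exact h1 hY
  · have hle : (LL w m l ⊔ ⨆ n : ℕ → D.I → ℕ, ⨆ _ : seqN m l (M + 1) n, UU w (ep l) m n) ≤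
        (LL w m l ⊔ ⨆ n : ℕ → D.I → ℕ, ⨆ _ : seqN m l M n, UU w (ep l) m n) ⊔
          ⨆ n : {n : ℕ → D.I → ℕ // seqN m l (M + 1) n ∧ meas m n = M + 1},
            UU w (ep l) m n.1 := by
      refine sup_le (le_sup_of_le_left le_sup_left) (iSup_le fun n => iSup_le fun hn => ?_)
      by_cases h : meas m n = M + 1
      · exact le_sup_of_le_right (le_iSup_of_le
          (⟨n, hn, h⟩ : {n : ℕ → D.I → ℕ // seqN m l (M + 1) n ∧ meas m n = M + 1}) le_rfl)
      · have h1 := hn.2.2.2
        have h2 : seqN m l M n := ⟨hn.1, hn.2.1, hn.2.2.1, by omega⟩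
        exact le_sup_of_le_left (le_sup_of_le_right (le_iSup_of_le n (le_iSup_of_le h2 le_rfl)))
    exact hle hX

lemma descend_zero {m l : ℕ} (hl : 1 ≤ l) (hm : l < m)
    {X : AddMonoidAlgebra (S D Z) (B D → ℤ)}
    (hX : X ∈ LL w m l ⊔ ⨆ n : ℕ → D.I → ℕ, ⨆ _ : seqN m l 0 n, UU w (ep l) m n)
    (h0 : ∀ lam : B D → ℤ, lam ≠ l • ind D Finset.univ → X.coeff lam = 0) :
    X ∈ LL w m l := by
  refine descend_aux w hm (M := 0) _ ?_ ?_ ?_ h0
  · intro n _ hlt
    exact absurd hlt (Nat.not_lt_zero _)
  · intro Y hY n hN _ C hC ht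
    exact coeff_LL w hl hm hN C hC ht hY
  · have hle : (LL w m l ⊔ ⨆ n : ℕ → D.I → ℕ, ⨆ _ : seqN m l 0 n, UU w (ep l) m n) ≤
        LL w m l ⊔ ⨆ n : {n : ℕ → D.I → ℕ // seqN m l 0 n ∧ meas m n = 0},
            UU w (ep l) m n.1 := by
      refine sup_le le_sup_left (iSup_le fun n => iSup_le fun hn => ?_)
      exact le_sup_of_le_right (le_iSup_of_le
        (⟨n, hn, Nat.le_zero.1 hn.2.2.2⟩ :
          {n : ℕ → D.I → ℕ // seqN m l 0 n ∧ meas m n = 0}) le_rfl)
    exact hle hX

/-- the result of the descent -/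
theorem descend {m l : ℕ} (hl : 1 ≤ l) (hm : l < m)
    {X : AddMonoidAlgebra (S D Z) (B D → ℤ)}
    (hX : X ∈ ⨆ n : ℕ → D.I → ℕ, ⨆ _ : seqOK m l n, UU w (ep l) m n)
    (h0 : ∀ lam : B D → ℤ, lam ≠ l • ind D Finset.univ → X.coeff lam = 0) :
    X ∈ LL w m l := by
  have h1 : ∃ M, X ∈ LL w m l ⊔ ⨆ n : ℕ → D.I → ℕ, ⨆ _ : seqN m l M n, UU w (ep l) m n := by
    rw [iSup_subtype'] at hX
    refine Submodule.iSup_induction _ (motive := fun X => ∃ M, X ∈ LL w m l ⊔
      ⨆ n : ℕ → D.I → ℕ, ⨆ _ : seqN m l M n, UU w (ep l) m n) hX ?_ ?_ ?_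
    · intro n x hx
      exact ⟨meas m n.1, straighten w hl hm n.1 n.2 hx⟩
    · exact ⟨0, Submodule.zero_mem _⟩
    · rintro x y ⟨M1, h1⟩ ⟨M2, h2⟩
      exact ⟨max M1 M2, Submodule.add_mem _ (iSup_seqN_mono w (le_max_left _ _) h1)
        (iSup_seqN_mono w (le_max_right _ _) h2)⟩
  obtain ⟨M, hM⟩ := h1
  induction M with
  | zero => exact descend_zero w hl hm hM h0
  | succ M ih => exact ih (descend_step w hl hm M hM h0)

end Vale.Agent.P291.H
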