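import Vale.Agent.P291.H.Coef

set_option autoImplicit false
set_option linter.unusedSectionVars false

/-! Removing the trivial slots; coefficients of the quadratic relation. -/

namespace Vale.Agent.P291.H

open MvPolynomial Vale.Agent.P291.G

variable {D : QData} {Z : Type} (w : Wts D Z)

/-! ### removing the trivial slots -/

lemma sgn_ne_zero_S (σ : W D) : ((sgn D σ : ℤ) : S D Z) ≠ 0 := by
  have h : sgn D σ ≠ 0 := by
    rw [sgn, Finset.prod_ne_zero_iff]
    intro i _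
    exact (Equiv.Perm.sign (σ i)).ne_zero
  exact Int.cast_ne_zero.2 h

/-- an alternating polynomial is `del` times an invariant one, from divisibility -/
lemma inv_of_del_mul {r' f : S D Z} (hf : ∀ σ, act D Z σ f = (sgn D σ : S D Z) * f)
    (h : f = del D Z * r') (σ : W D) : act D Z σ r' = r' := by
  have h1 := hf σ
  rw [h, map_mul, act_del, mul_assoc] at h1
  exact mul_left_cancel₀ (del_ne_zero D Z) (mul_left_cancel₀ (sgn_ne_zero_S σ) h1)

/-- multiplication by an invariant polynomial preserves the slot spaces -/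
lemma single_mul_mem_U {ε : ℕ} {n : D.I → ℕ} {r' : S D Z} (hr : ∀ σ, act D Z σ r' = r')
    {x : AddMonoidAlgebra (S D Z) (B D → ℤ)} (hx : x ∈ U w ε n) :
    AddMonoidAlgebra.single 0 r' * x ∈ U w ε n := by
  obtain ⟨φ, ⟨h1, h2⟩, rfl⟩ := hx
  refine ⟨fun A => r' * φ A, ⟨fun σ A => ?_, fun A hA => ?_⟩, ?_⟩
  · show act D Z σ (r' * φ A) = _ * (r' * φ (mp D σ A))
    rw [map_mul, hr, h1]
    ring
  · show r' * φ A = 0
    rw [h2 A hA, mul_zero]
  · show ∑ A, AddMonoidAlgebra.single (ind D A) ((r' * φ A) * (e w A * zs w A ^ ε)) =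
      AddMonoidAlgebra.single 0 r' *
        ∑ A, AddMonoidAlgebra.single (ind D A) (φ A * (e w A * zs w A ^ ε))
    rw [Finset.mul_sum]
    refine Finset.sum_congr rfl fun A _ => ?_
    rw [AddMonoidAlgebra.single_mul_single, zero_add, mul_assoc]

/-- `U ε n * N` absorbs the invariants -/
lemma single_mul_mem_T {ε ε' : ℕ} {n n' : D.I → ℕ} {r' : S D Z} (hr : ∀ σ, act D Z σ r' = r')
    {x : AddMonoidAlgebra (S D Z) (B D → ℤ)} (hx : x ∈ U w ε n * U w ε' n') :
    AddMonoidAlgebra.single 0 r' * x ∈ U w ε n * U w ε' n' := by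
  refine Submodule.mul_induction_on hx (fun a ha b hb => ?_) (fun a b ha hb => ?_)
  · rw [← mul_assoc]
    exact Submodule.mul_mem_mul (single_mul_mem_U w hr ha) hb
  · rw [mul_add]
    exact Submodule.add_mem _ ha hb

lemma U_zero_v {x : AddMonoidAlgebra (S D Z) (B D → ℤ)} (hx : x ∈ U w 0 D.v) :
    ∃ r' : S D Z, (∀ σ, act D Z σ r' = r') ∧
      x = AddMonoidAlgebra.single (ind D Finset.univ) (del D Z) *
        AddMonoidAlgebra.single 0 r' := by
  obtain ⟨φ, hφ, rfl⟩ := hx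
  obtain ⟨r', hr'⟩ : del D Z ∣ φ Finset.univ := by
    have h1 := Dl_dvd D Z hφ Finset.univ
    have h2 := Dl_spec D Z Finset.univ
    have h3 : cr D Z Finset.univ Finset.univᶜ = 1 := by
      rw [cr]
      refine Finset.prod_eq_one fun a _ => ?_
      rw [Finset.compl_univ, Finset.prod_empty]
    rw [h3, one_mul] at h2
    rwa [h2]
  have hinv : ∀ σ, act D Z σ (φ Finset.univ) = (sgn D σ : S D Z) * φ Finset.univ := by
    intro σ
    have h1 := hφ.1 σ Finset.univ
    have h2 : mp D σ Finset.univ = Finset.univ := by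
      ext b
      rw [mem_mp']
      simp
    rwa [h2] at h1
  refine ⟨r', inv_of_del_mul hinv hr', ?_⟩
  show ∑ A, AddMonoidAlgebra.single (ind D A) (φ A * (e w A * zs w A ^ 0)) = _
  rw [Finset.sum_eq_single Finset.univ]
  · rw [AddMonoidAlgebra.single_mul_single, add_zero, hr', e, Finset.compl_univ]
    simp
  · intro A _ hA
    have h4 : φ A = 0 := by
      refine hφ.2 A fun h => hA ?_
      refine eq_of_subset D (Finset.subset_univ A) ?_
      rw [h, typ_univ]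
    rw [h4, zero_mul, AddMonoidAlgebra.single_zero]
  · intro h
    exact absurd (Finset.mem_univ _) h

lemma U_one_zero {x : AddMonoidAlgebra (S D Z) (B D → ℤ)} (hx : x ∈ U w 1 0) :
    ∃ r' : S D Z, (∀ σ, act D Z σ r' = r') ∧
      x = AddMonoidAlgebra.single 0 (del D Z) * AddMonoidAlgebra.single 0 r' := by
  obtain ⟨φ, hφ, rfl⟩ := hx
  obtain ⟨r', hr'⟩ : del D Z ∣ φ ∅ := by
    have h1 := Dl_dvd D Z hφ ∅
    have h2 := Dl_spec D Z ∅
    have h3 : cr D Z ∅ ∅ᶜ = 1 := by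
      rw [cr, Finset.prod_empty]
    rw [h3, one_mul] at h2
    rwa [h2]
  have hinv : ∀ σ, act D Z σ (φ ∅) = (sgn D σ : S D Z) * φ ∅ := by
    intro σ
    have h1 := hφ.1 σ ∅
    have h2 : mp D σ ∅ = ∅ := by
      ext b
      rw [mem_mp']
      simp
    rwa [h2] at h1
  refine ⟨r', inv_of_del_mul hinv hr', ?_⟩
  show ∑ A, AddMonoidAlgebra.single (ind D A) (φ A * (e w A * zs w A ^ 1)) = _
  rw [Finset.sum_eq_single ∅]
  · have h5 : ind D (∅ : Finset (B D)) = 0 := by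
      funext b
      simp [ind]
    rw [AddMonoidAlgebra.single_mul_single, add_zero, hr', e, zs, h5]
    simp
  · intro A _ hA
    have h4 : φ A = 0 := by
      refine hφ.2 A fun h => hA ?_
      exact typ_eq_zero D h
    rw [h4, zero_mul, AddMonoidAlgebra.single_zero]
  · intro h
    exact absurd (Finset.mem_univ _) h

lemma mulR {M N P : Submodule ℂ (AddMonoidAlgebra (S D Z) (B D → ℤ))} (h : N ≤ P) :
    M * N ≤ M * P :=
  Submodule.mul_le.2 fun _ hm _ hn => Submodule.mul_mem_mul hm (h hn)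

/-- a space of scaled invariants, applied `k` times to a pair space -/
lemma pow_mul_le {V T : Submodule ℂ (AddMonoidAlgebra (S D Z) (B D → ℤ))}
    {g : AddMonoidAlgebra (S D Z) (B D → ℤ)}
    (hV : ∀ x ∈ V, ∃ r' : S D Z, (∀ σ, act D Z σ r' = r') ∧ x = g * AddMonoidAlgebra.single 0 r')
    (hT : ∀ r' : S D Z, (∀ σ, act D Z σ r' = r') → ∀ x ∈ T, AddMonoidAlgebra.single 0 r' * x ∈ T)
    (k : ℕ) : V ^ k * T ≤ Submodule.span ℂ {g ^ k} * T := by
  induction k with
  | zero =>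
    rw [pow_zero, pow_zero, ← Submodule.one_eq_span]
  | succ k ih =>
    have h1 : V * T ≤ Submodule.span ℂ {g} * T := by
      rw [Submodule.mul_le]
      intro x hx y hy
      obtain ⟨r', hr', rfl⟩ := hV x hx
      rw [mul_assoc]
      exact Submodule.mul_mem_mul (Submodule.mem_span_singleton_self g) (hT r' hr' y hy)
    calc V ^ (k + 1) * T = V ^ k * (V * T) := by rw [pow_succ, mul_assoc]
      _ ≤ V ^ k * (Submodule.span ℂ {g} * T) := mulR h1
      _ = Submodule.span ℂ {g} * (V ^ k * T) := by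
        rw [← mul_assoc, mul_comm (V ^ k), mul_assoc]
      _ ≤ Submodule.span ℂ {g} * (Submodule.span ℂ {g ^ k} * T) := mulR ih
      _ = Submodule.span ℂ {g ^ (k + 1)} * T := by
        rw [← mul_assoc, Submodule.span_mul_span, Set.singleton_mul_singleton, pow_succ']

lemma UU_eq {m l : ℕ} (hl : 1 ≤ l) (hm : l < m) (s : D.I → ℕ) :
    UU w (ep l) m (seqP l s) =
      U w 0 D.v ^ (l - 1) * (U w 1 0 ^ (m - l - 1) * (U w 0 (D.v - s) * U w 1 s)) := by
  obtain ⟨l, rfl⟩ : ∃ k, l = k + 1 := ⟨l - 1, by omega⟩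
  obtain ⟨k, rfl⟩ : ∃ k, m = l + 1 + 1 + k := ⟨m - (l + 1) - 1, by omega⟩
  have e1 : l + 1 - 1 = l := by omega
  have e2 : l + 1 + 1 + k - (l + 1) - 1 = k := by omega
  rw [e1, e2, UU, Finset.prod_range_add, Finset.prod_range_succ, Finset.prod_range_succ]
  have h1 : ∏ x ∈ Finset.range l, U w (ep (l + 1) x) (seqP (D := D) (l + 1) s x) =
      U w 0 D.v ^ l := by
    rw [Finset.prod_congr rfl (g := fun _ => U w 0 D.v), Finset.prod_const, Finset.card_range]
    intro j hj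
    rw [Finset.mem_range] at hj
    rw [ep, if_pos (by omega), seqP, if_pos (by omega)]
  have h2 : ∏ x ∈ Finset.range k, U w (ep (l + 1) (l + 1 + 1 + x))
      (seqP (D := D) (l + 1) s (l + 1 + 1 + x)) = U w 1 0 ^ k := by
    rw [Finset.prod_congr rfl (g := fun _ => U w 1 0), Finset.prod_const, Finset.card_range]
    intro j _
    rw [ep, if_neg (by omega), seqP, if_neg (by omega), if_neg (by omega), if_neg (by omega)]
  rw [h1, h2]
  have h3 : U w (ep (l + 1) l) (seqP (D := D) (l + 1) s l) = U w 0 (D.v - s) := by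
    rw [ep, if_pos (by omega), seqP, if_neg (by omega), if_pos rfl]
  have h4 : U w (ep (l + 1) (l + 1)) (seqP (D := D) (l + 1) s (l + 1)) = U w 1 s := by
    rw [ep, if_neg (by omega), seqP, if_neg (by omega), if_neg (by omega), if_pos rfl]
  rw [h3, h4, mul_assoc, mul_assoc, ← mul_assoc (U w 0 (D.v - s)),
    mul_comm (U w 0 (D.v - s) * U w 1 s) (U w 1 0 ^ k)]

lemma single_mul_cancel {c : B D → ℤ} {g : S D Z} (hg : g ≠ 0)
    {x y : AddMonoidAlgebra (S D Z) (B D → ℤ)}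
    (h : AddMonoidAlgebra.single c g * x = AddMonoidAlgebra.single c g * y) : x = y := by
  have h0 : AddMonoidAlgebra.single c g ≠ (0 : AddMonoidAlgebra (S D Z) (B D → ℤ)) := by
    intro h
    exact hg (AddMonoidAlgebra.single_eq_zero.1 h)
  exact mul_left_cancel₀ h0 h

/-- removing the trivial slots: `U 0 v` consists of the `single (ind univ) (del * r')` with `r'`
invariant and `U 1 0` of the `single 0 (del * r')`; so
`LL ≤ single ((l-1) • ind univ) (del^(m-2)) * ⨆ s, U 0 (v-s) * U 1 s`; cancel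
`single ((l-1) • ind univ) (del^(m-2))` -/
theorem extract {m l : ℕ} (hl : 1 ≤ l) (hm : l < m) {r : S D Z}
    (h : AddMonoidAlgebra.single (l • ind D Finset.univ) (r * del D Z ^ m) ∈ LL w m l) :
    AddMonoidAlgebra.single (ind D Finset.univ) (r * del D Z ^ 2) ∈
      ⨆ s : D.I → ℕ, ⨆ _ : s ≠ 0 ∧ s ≤ D.v, U w 0 (D.v - s) * U w 1 s := by
  have key : LL w m l ≤ Submodule.span ℂ
      {AddMonoidAlgebra.single ((l - 1) • ind D Finset.univ) (del D Z ^ (m - 2))} *
      ⨆ s : D.I → ℕ, ⨆ _ : s ≠ 0 ∧ s ≤ D.v, U w 0 (D.v - s) * U w 1 s := by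
    rw [LL]
    refine iSup_le fun s => iSup_le fun hs => ?_
    rw [UU_eq w hl hm s]
    have hT : ∀ r' : S D Z, (∀ σ, act D Z σ r' = r') → ∀ x ∈ U w 0 (D.v - s) * U w 1 s,
        AddMonoidAlgebra.single 0 r' * x ∈ U w 0 (D.v - s) * U w 1 s :=
      fun r' hr' x hx => single_mul_mem_T w hr' hx
    have h1 := pow_mul_le (fun x hx => U_one_zero w (x := x) hx) hT (m - l - 1)
    have h2 := pow_mul_le (fun x hx => U_zero_v w (x := x) hx) hT (l - 1)
    refine (mulR h1).trans ?_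
    rw [← mul_assoc, mul_comm (U w 0 D.v ^ (l - 1)), mul_assoc]
    refine (mulR h2).trans ?_
    rw [← mul_assoc, Submodule.span_mul_span, Set.singleton_mul_singleton,
      AddMonoidAlgebra.single_pow, AddMonoidAlgebra.single_pow,
      AddMonoidAlgebra.single_mul_single, ← pow_add, smul_zero, zero_add,
      show m - l - 1 + (l - 1) = m - 2 by omega]
    refine mulR ?_
    exact le_iSup_of_le s (le_iSup_of_le hs le_rfl)
  obtain ⟨z, hz, hz'⟩ := Submodule.mem_span_singleton_mul.1 (key h)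
  have h3 : z = AddMonoidAlgebra.single (ind D Finset.univ) (r * del D Z ^ 2) := by
    refine single_mul_cancel (pow_ne_zero (m - 2) (del_ne_zero D Z)) (hz'.trans ?_)
    rw [AddMonoidAlgebra.single_mul_single]
    congr 1
    · rw [← succ_nsmul]
      congr 1
      omega
    · rw [mul_left_comm, ← pow_add]
      congr 2
      omega
  rwa [← h3]

/-! ### coefficients -/

/-- a finite sum of products of two slots -/
def QS (x : AddMonoidAlgebra (S D Z) (B D → ℤ)) : Prop :=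
  ∃ (ι : Type) (_ : Fintype ι) (n : ι → D.I → ℕ) (φ ψ : ι → Finset (B D) → S D Z),
    (∀ j, n j ≠ 0 ∧ n j ≤ D.v ∧ φ j ∈ AF D Z (n j) ∧ ψ j ∈ AF D Z (D.v - n j)) ∧
    x = ∑ j, slot w 0 (ψ j) * slot w 1 (φ j)

lemma QS_zero : QS w (0 : AddMonoidAlgebra (S D Z) (B D → ℤ)) :=
  ⟨PEmpty, inferInstance, fun j => j.elim, fun j => j.elim, fun j => j.elim, fun j => j.elim,
    by rw [Finset.univ_eq_empty, Finset.sum_empty]⟩

lemma QS_add {x y : AddMonoidAlgebra (S D Z) (B D → ℤ)} (hx : QS w x) (hy : QS w y) :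
    QS w (x + y) := by
  obtain ⟨ι, _, n, φ, ψ, h, rfl⟩ := hx
  obtain ⟨ι', _, n', φ', ψ', h', rfl⟩ := hy
  refine ⟨ι ⊕ ι', inferInstance, Sum.elim n n', Sum.elim φ φ', Sum.elim ψ ψ', ?_, ?_⟩
  · rintro (j | j)
    · exact h j
    · exact h' j
  · rw [Fintype.sum_sum_type]
    rfl

lemma QS_of {s : D.I → ℕ} (hs : s ≠ 0 ∧ s ≤ D.v) {x : AddMonoidAlgebra (S D Z) (B D → ℤ)}
    (hx : x ∈ U w 0 (D.v - s) * U w 1 s) : QS w x := by
  refine Submodule.mul_induction_on hx (fun a ha b hb => ?_) (fun a b ha hb => QS_add w ha hb)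
  obtain ⟨ψ, hψ, rfl⟩ := ha
  obtain ⟨φ, hφ, rfl⟩ := hb
  refine ⟨PUnit, inferInstance, fun _ => s, fun _ => φ, fun _ => ψ,
    fun _ => ⟨hs.1, hs.2, hφ, hψ⟩, ?_⟩
  rw [Finset.univ_unique, Finset.sum_singleton]

lemma compl_mem_AF {n : D.I → ℕ} (hn : n ≤ D.v) {ψ : Finset (B D) → S D Z}
    (hψ : ψ ∈ AF D Z (D.v - n)) : (fun A => ψ Aᶜ) ∈ AF D Z n := by
  refine ⟨fun σ A => ?_, fun A hA => ?_⟩
  · show act D Z σ (ψ Aᶜ) = _ * ψ (mp D σ A)ᶜ
    rw [hψ.1, mp_compl]
  · show ψ Aᶜ = 0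
    refine hψ.2 _ fun h => hA ?_
    rw [typ_compl] at h
    funext i
    have h1 : D.v i - typ D A i = D.v i - n i := congrFun h i
    have h2 : typ D A i ≤ D.v i := typ_le D A i
    have h3 : n i ≤ D.v i := hn i
    omega

lemma set_aux1 {α : Type} [Fintype α] [DecidableEq α] {D1 D2 K : Finset α} (hq : D1 ⊆ D2ᶜ)
    (hK : K ⊆ (D1 ∪ D2)ᶜ) : D1 ∪ ((D1 ∪ D2)ᶜ \ K) = (D2 ∪ K)ᶜ := by
  ext b
  have h1 := @hK b
  have h2 := @hq b
  simp only [Finset.mem_sdiff, Finset.mem_compl, Finset.mem_union] at h1 h2 ⊢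
  tauto

lemma set_aux2 {α : Type} [Fintype α] [DecidableEq α] {D1 D2 K : Finset α} (hq : D1 ⊆ D2ᶜ)
    (hK : K ⊆ (D1 ∪ D2)ᶜ) : D2ᶜ \ ((D1 ∪ D2)ᶜ \ K) = D1 ∪ K := by
  ext b
  have h1 := @hK b
  have h2 := @hq b
  simp only [Finset.mem_sdiff, Finset.mem_compl, Finset.mem_union] at h1 h2 ⊢
  tauto

lemma set_aux3 {α : Type} [Fintype α] [DecidableEq α] {D1 D2 : Finset α} :
    D2ᶜ \ D1 = (D1 ∪ D2)ᶜ := by
  ext b
  simp only [Finset.mem_sdiff, Finset.mem_compl, Finset.mem_union]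
  tauto

lemma ring_aux {R : Type} [CommRing R] (a b c d f : R) :
    a * b * (c * d) * f = b * (f * 1) * (a * (c * d)) := by ring

/-- the coefficient of a product of two slots at `ind D2ᶜ + ind D1` -/
lemma coeff_pair (φ ψ : Finset (B D) → S D Z) {D1 D2 : Finset (B D)} (hq : D1 ⊆ D2ᶜ) :
    (slot w 0 ψ * slot w 1 φ).coeff (ind D D2ᶜ + ind D D1) =
      ∑ K ∈ (D1 ∪ D2)ᶜ.powerset, φ (D1 ∪ K) * ψ (D2 ∪ K)ᶜ *
        (e w (D1 ∪ K) * zs w (D1 ∪ K)) * e w (D2 ∪ K)ᶜ := by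
  rw [coeff_slot_mul' w 0 1 _ _ hq, set_aux3]
  refine (Finset.sum_bij' (fun K _ => (D1 ∪ D2)ᶜ \ K) (fun X _ => (D1 ∪ D2)ᶜ \ X)
    ?_ ?_ ?_ ?_ ?_).symm
  · intro K _
    exact Finset.mem_powerset.2 Finset.sdiff_subset
  · intro K _
    exact Finset.mem_powerset.2 Finset.sdiff_subset
  · intro K hK
    exact Finset.sdiff_sdiff_eq_self (Finset.mem_powerset.1 hK)
  · intro K hK
    exact Finset.sdiff_sdiff_eq_self (Finset.mem_powerset.1 hK)
  · intro K hK
    have hK' := Finset.mem_powerset.1 hK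
    rw [set_aux1 hq hK', set_aux2 hq hK', pow_zero, pow_one]
    exact ring_aux _ _ _ _ _

/-- in terms of coefficients: take the coefficient at `ind P + ind q`, `q = D1`, `P = D2ᶜ`, of
`∑_j slot 0 (ψ' j) * slot 1 (φ j)` by `coeff_slot_mul'`, with `ψ j A = ψ' j Aᶜ`,
`K = (P \ q) \ X`, `q ∪ X = (D2 ∪ K)ᶜ`, `P \ X = D1 ∪ K` -/
theorem linRel_of {r : S D Z}
    (h : AddMonoidAlgebra.single (ind D Finset.univ) (r * del D Z ^ 2) ∈
      ⨆ s : D.I → ℕ, ⨆ _ : s ≠ 0 ∧ s ≤ D.v, U w 0 (D.v - s) * U w 1 s) : LinRel w r := by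
  have hQ : QS w (AddMonoidAlgebra.single (ind D Finset.univ) (r * del D Z ^ 2)) := by
    refine Submodule.iSup_induction _ (motive := QS w) h (fun s x hx => ?_) (QS_zero w)
      (fun x y hx hy => QS_add w hx hy)
    refine Submodule.iSup_induction _ (motive := QS w) hx (fun hs x hx => ?_) (QS_zero w)
      (fun x y hx hy => QS_add w hx hy)
    exact QS_of w hs hx
  obtain ⟨ι, _, n, φ, ψ, hj, hsum⟩ := hQ
  refine ⟨Fintype.card ι, fun j => n ((Fintype.equivFin ι).symm j),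
    fun j => φ ((Fintype.equivFin ι).symm j), fun j A => ψ ((Fintype.equivFin ι).symm j) Aᶜ,
    fun j => ⟨(hj _).1, (hj _).2.2.1, compl_mem_AF (hj _).2.1 (hj _).2.2.2⟩, ?_⟩
  intro D1 D2 hD
  rw [Equiv.sum_comp (Fintype.equivFin ι).symm (fun j => ∑ K ∈ (D1 ∪ D2)ᶜ.powerset,
    φ j (D1 ∪ K) * ψ j (D2 ∪ K)ᶜ * (e w (D1 ∪ K) * zs w (D1 ∪ K)) * e w (D2 ∪ K)ᶜ)]
  have hq : D1 ⊆ D2ᶜ := by
    intro b hb
    rw [Finset.mem_compl]
    exact fun hb' => Finset.disjoint_left.1 hD hb hb'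
  have hc := congrArg (fun y => y.coeff (ind D D2ᶜ + ind D D1)) hsum
  simp only [AddMonoidAlgebra.coeff_sum, Finsupp.finsetSum_apply, coeff_pair w _ _ hq] at hc
  rw [AddMonoidAlgebra.coeff_single, Finsupp.single_apply] at hc
  have hU : (ind D Finset.univ = ind D D2ᶜ + ind D D1) ↔ (D1 = ∅ ∧ D2 = ∅) := by
    have h1 := ind_add_eq (A := Finset.univ) (C := ∅) hq
    have h5 : ind D (∅ : Finset (B D)) = 0 := by
      funext b
      simp [ind]
    rw [h5, add_zero, Finset.union_empty, Finset.inter_empty] at h1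
    rw [h1]
    constructor
    · rintro ⟨h2, h3⟩
      exact ⟨h3.symm, Finset.compl_eq_univ_iff _ |>.1 h2.symm⟩
    · rintro ⟨rfl, rfl⟩
      exact ⟨Finset.compl_empty.symm, rfl⟩
  rw [← hc]
  simp only [hU]

end Vale.Agent.P291.H
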