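import Vale.Agent.P291.H.Basic

set_option autoImplicit false
set_option linter.unusedSectionVars false

/-! Lifting a function on the nested pairs `q ⊆ P` to products of alternating families. -/

namespace Vale.Agent.P291.H

open MvPolynomial Vale.Agent.P291.G

variable (D : QData) (Z : Type)

/-- pairs of basis vectors at the same vertex, one in `P \ q` and one outside `P` -/
def prs (P q : Finset (B D)) : Finset (B D × B D) :=
  ((P \ q) ×ˢ Pᶜ).filter fun p => p.1.1 = p.2.1

lemma cr_eq_prs (P q : Finset (B D)) :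
    cr D Z (P \ q) Pᶜ = ∏ p ∈ prs D P q, (xx D Z p.1 - xx D Z p.2) := by
  rw [cr, prs, Finset.prod_filter, Finset.prod_product]

lemma mem_prs {P q : Finset (B D)} {p : B D × B D} :
    p ∈ prs D P q ↔ (p.1 ∈ P \ q ∧ p.2 ∉ P) ∧ p.1.1 = p.2.1 := by
  rw [prs, Finset.mem_filter, Finset.mem_product, Finset.mem_compl]

/-- reindexing of the product in the second variable -/
lemma prod_prs_snd {P : Finset (B D)} (q : Finset (B D)) {τ : W D} (hτ : mp D τ P = P)
    (f g : B D → S D Z) :
    ∏ p ∈ prs D P q, (f p.1 - g (perm D τ p.2)) = ∏ p ∈ prs D P q, (f p.1 - g p.2) := by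
  refine Finset.prod_equiv (Equiv.prodCongr (Equiv.refl _) (perm D τ)) ?_ ?_
  · intro p
    rw [mem_prs, mem_prs]
    have h1 : perm D τ p.2 ∉ P ↔ p.2 ∉ P := by
      rw [← mem_mp D τ P p.2, hτ]
    simp only [Equiv.prodCongr_apply, Prod.map_fst, Prod.map_snd, Equiv.refl_apply, h1, perm_fst]
  · intro p _
    rfl

/-- reindexing of the product in the first variable -/
lemma prod_prs_fst {P q : Finset (B D)} {σ : W D} (hσ : mp D σ P = P) (hσ' : mp D σ q = q)
    (f g : B D → S D Z) :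
    ∏ p ∈ prs D P q, (f (perm D σ p.1) - g p.2) = ∏ p ∈ prs D P q, (f p.1 - g p.2) := by
  refine Finset.prod_equiv (Equiv.prodCongr (perm D σ) (Equiv.refl _)) ?_ ?_
  · intro p
    rw [mem_prs, mem_prs]
    have h1 : perm D σ p.1 ∈ P \ q ↔ p.1 ∈ P \ q := by
      rw [← mem_mp D σ (P \ q) p.1, mp_sdiff, hσ, hσ']
    simp only [Equiv.prodCongr_apply, Prod.map_fst, Prod.map_snd, Equiv.refl_apply, h1, perm_fst]
  · intro p _
    rfl

/-- the product vanishes unless `P` is fixed -/
lemma prod_prs_zero {P q : Finset (B D)} (hq : q ⊆ P) {σ : W D} (hσ' : mp D σ q = q)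
    (hσ : mp D σ P ≠ P) : ∏ p ∈ prs D P q, (xx D Z (perm D σ p.1) - xx D Z p.2) = 0 := by
  obtain ⟨a, haP, ha⟩ : ∃ a ∈ P, perm D σ a ∉ P := by
    by_contra hcon
    push Not at hcon
    apply hσ
    refine Finset.eq_of_subset_of_card_le ?_ ?_
    · intro b hb
      rw [mem_mp'] at hb
      have := hcon _ hb
      rwa [Equiv.apply_symm_apply] at this
    · rw [mp, Finset.card_map]
  have haq : a ∉ q := by
    intro h
    apply ha
    apply hq
    rw [← hσ', mem_mp]
    exact h
  refine Finset.prod_eq_zero (i := (a, perm D σ a)) ?_ (sub_self _)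
  rw [mem_prs]
  exact ⟨⟨Finset.mem_sdiff.2 ⟨haP, haq⟩, ha⟩, (perm_fst D σ a).symm⟩

/-- first factors -/
noncomputable def liftP (P q : Finset (B D)) (t : Finset (B D × B D)) : Finset (B D) → S D Z :=
  orb D Z P (Dl D Z P * ∏ p ∈ prs D P q \ t, (-xx D Z p.2))

/-- second factors -/
noncomputable def liftQ (q : Finset (B D)) (t : Finset (B D × B D)) (K : S D Z) :
    Finset (B D) → S D Z :=
  orb D Z q ((∏ p ∈ t, xx D Z p.1) * K)

/-- the constant -/
noncomputable def liftc (P q : Finset (B D)) : ℕ :=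
  (Finset.univ.filter fun σ : W D => mp D σ P = P).card *
    (Finset.univ.filter fun σ : W D => mp D σ P = P ∧ mp D σ q = q).card

lemma liftc_ne_zero (P q : Finset (B D)) : liftc D P q ≠ 0 := by
  rw [liftc]
  refine mul_ne_zero (Finset.card_ne_zero_of_mem (a := 1) ?_)
    (Finset.card_ne_zero_of_mem (a := 1) ?_)
  · rw [Finset.mem_filter]
    exact ⟨Finset.mem_univ _, mp_one D P⟩
  · rw [Finset.mem_filter]
    exact ⟨Finset.mem_univ _, mp_one D P, mp_one D q⟩

lemma liftP_mem (P q : Finset (B D)) (t : Finset (B D × B D)) :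
    liftP D Z P q t ∈ AF D Z (typ D P) := orb_mem D Z _ _

lemma liftQ_mem (q : Finset (B D)) (t : Finset (B D × B D)) (K : S D Z) :
    liftQ D Z q t K ∈ AF D Z (typ D q) := orb_mem D Z _ _

/-- value of the orbit sum at the base subset -/
lemma orb_self (A₀ : Finset (B D)) (p : S D Z) : orb D Z A₀ p A₀ =
    ∑ τ ∈ Finset.univ.filter fun τ : W D => mp D τ A₀ = A₀, (sgn D τ : S D Z) * act D Z τ p := by
  rw [orb, Finset.sum_filter]

/-- LIFT. If `K` is alternating under the common stabilizer of `q ⊆ P` then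
`∑_t liftP_t(P) liftQ_t(q) = c * Dl P * cr (P \ q) Pᶜ * K`.

Proof. By `orb_self` and `∏_{p ∈ prs} (y p.1 - z p.2) = ∑_{t ⊆ prs} ∏_{p ∈ t} y p.1 *
∏_{p ∈ prs \ t} (- z p.2)` (`Finset.prod_add`/`Finset.prod_sub`) the left side is
`∑_{τ, mp τ P = P} ∑_{σ, mp σ q = q} sgn τ sgn σ τ(Dl P) σ(K) ∏_{p ∈ prs} (x (σ p.1) - x (τ p.2))`.
`τ (Dl P) = sgn τ Dl P` (`act_Dl`). Reindexing the product by `τ` (which permutes the complement
of `P` at each vertex) gives `∏_{p ∈ prs} (x (σ p.1) - x p.2)`, independent of `τ`. This product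
vanishes unless `σ` maps `P \ q` into `P` (if `σ a = b ∉ P`, `a ∈ P \ q`, then `(a, b) ∈ prs`),
and as `σ` fixes `q` this means `mp σ P = P`. For such `σ` the product is the one for `σ = 1` and
`σ K = sgn σ K`. -/
theorem lift {P q : Finset (B D)} (hq : q ⊆ P) {K : S D Z}
    (hK : ∀ σ, mp D σ P = P → mp D σ q = q → act D Z σ K = (sgn D σ : S D Z) * K) :
    ∑ t ∈ (prs D P q).powerset, liftP D Z P q t P * liftQ D Z q t K q =
      (liftc D P q : S D Z) * (Dl D Z P * cr D Z (P \ q) Pᶜ * K) := by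
  classical
  have sq1 : ∀ σ : W D, (sgn D σ : S D Z) * (sgn D σ : S D Z) = 1 := fun σ => by
    rw [← Int.cast_mul, sgn_sq, Int.cast_one]
  -- the term for `τ, σ`
  have key : ∀ τ σ : W D, mp D τ P = P →
      ∑ t ∈ (prs D P q).powerset, ((sgn D τ : S D Z) * act D Z τ
        (Dl D Z P * ∏ p ∈ prs D P q \ t, (-xx D Z p.2))) * ((sgn D σ : S D Z) * act D Z σ
          ((∏ p ∈ t, xx D Z p.1) * K)) =
      Dl D Z P * ((sgn D σ : S D Z) * act D Z σ K *
        ∏ p ∈ prs D P q, (xx D Z (perm D σ p.1) - xx D Z p.2)) := by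
    intro τ σ hτ
    have e1 : ∏ p ∈ prs D P q, (xx D Z (perm D σ p.1) - xx D Z p.2) =
        ∑ t ∈ (prs D P q).powerset, (∏ p ∈ t, xx D Z (perm D σ p.1)) *
          ∏ p ∈ prs D P q \ t, (-xx D Z (perm D τ p.2)) := by
      rw [← prod_prs_snd D Z q hτ (fun b => xx D Z (perm D σ b)) (xx D Z), ← Finset.prod_add]
      exact Finset.prod_congr rfl fun p _ => sub_eq_add_neg _ _
    rw [e1, Finset.mul_sum, Finset.mul_sum]
    refine Finset.sum_congr rfl fun t _ => ?_
    have e2 : act D Z τ (∏ p ∈ prs D P q \ t, (-xx D Z p.2)) =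
        ∏ p ∈ prs D P q \ t, (-xx D Z (perm D τ p.2)) := by
      rw [map_prod]
      exact Finset.prod_congr rfl fun p _ => by rw [map_neg, act_xx]
    have e3 : act D Z σ (∏ p ∈ t, xx D Z p.1) = ∏ p ∈ t, xx D Z (perm D σ p.1) := by
      rw [map_prod]
      exact Finset.prod_congr rfl fun p _ => by rw [act_xx]
    rw [map_mul, map_mul, e2, e3, act_Dl, hτ]
    linear_combination ((Dl D Z P) * (sgn D σ : S D Z) * act D Z σ K *
      (∏ p ∈ t, xx D Z (perm D σ p.1)) *
      (∏ p ∈ prs D P q \ t, (-xx D Z (perm D τ p.2)))) * sq1 τ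
  calc ∑ t ∈ (prs D P q).powerset, liftP D Z P q t P * liftQ D Z q t K q
      = ∑ τ ∈ Finset.univ.filter fun τ : W D => mp D τ P = P,
          ∑ σ ∈ Finset.univ.filter fun σ : W D => mp D σ q = q,
          Dl D Z P * ((sgn D σ : S D Z) * act D Z σ K *
            ∏ p ∈ prs D P q, (xx D Z (perm D σ p.1) - xx D Z p.2)) := by
        simp only [liftP, liftQ, orb_self, Finset.sum_mul_sum]
        rw [Finset.sum_comm]
        refine Finset.sum_congr rfl fun τ hτ => ?_
        rw [Finset.sum_comm]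
        refine Finset.sum_congr rfl fun σ _ => ?_
        exact key τ σ (Finset.mem_filter.1 hτ).2
    _ = ((Finset.univ.filter fun σ : W D => mp D σ P = P).card : S D Z) *
          ∑ σ ∈ Finset.univ.filter fun σ : W D => mp D σ q = q,
          Dl D Z P * ((sgn D σ : S D Z) * act D Z σ K *
            ∏ p ∈ prs D P q, (xx D Z (perm D σ p.1) - xx D Z p.2)) := by
        rw [Finset.sum_const, nsmul_eq_mul]
    _ = ((Finset.univ.filter fun σ : W D => mp D σ P = P).card : S D Z) *
          ∑ σ ∈ Finset.univ.filter fun σ : W D => mp D σ P = P ∧ mp D σ q = q,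
            (Dl D Z P * cr D Z (P \ q) Pᶜ * K) := by
        congr 1
        rw [Finset.sum_filter, Finset.sum_filter]
        refine Finset.sum_congr rfl fun σ _ => ?_
        by_cases h1 : mp D σ q = q
        · by_cases h2 : mp D σ P = P
          · rw [if_pos h1, if_pos ⟨h2, h1⟩, hK σ h2 h1, cr_eq_prs,
              prod_prs_fst D Z h2 h1 (xx D Z) (xx D Z)]
            linear_combination (Dl D Z P * K *
              ∏ p ∈ prs D P q, (xx D Z p.1 - xx D Z p.2)) * sq1 σ
          · rw [if_pos h1, if_neg (fun h => h2 h.1), prod_prs_zero D Z hq h1 h2, mul_zero,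
              mul_zero]
        · rw [if_neg h1, if_neg (fun h => h1 h.2)]
    _ = (liftc D P q : S D Z) * (Dl D Z P * cr D Z (P \ q) Pᶜ * K) := by
        rw [Finset.sum_const, nsmul_eq_mul, liftc, Nat.cast_mul, ← mul_assoc]

end Vale.Agent.P291.H
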