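import Vale.Agent.P291.GDefs

set_option autoImplicit false

namespace Vale.Agent.P291.G

open MvPolynomial

variable (D : QData)

/-- flavor variables: one for every arrow, one for every framing vector, `ħ`, coordinates of `F` -/
abbrev Zmax : Type := (D.A ⊕ (Σ i : D.I, Fin (D.w i))) ⊕ (Unit ⊕ Fin D.rk)

/-- `H_{G × F_max × ℂ^*_ħ × F}(pt)` before taking `W`-invariants -/
abbrev Pmax : Type := MvPolynomial (B D ⊕ Zmax D) ℂ

/-- gauge variable -/
noncomputable def gx (b : B D) : Pmax D := X (Sum.inl b)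
/-- parameter of an arrow -/
noncomputable def ga (a : D.A) : Pmax D := X (Sum.inr (Sum.inl (Sum.inl a)))
/-- parameter of a framing vector -/
noncomputable def gw (i : D.I) (k : Fin (D.w i)) : Pmax D :=
  X (Sum.inr (Sum.inl (Sum.inr ⟨i, k⟩)))
/-- weight of the dilation of `N^*` -/
noncomputable def gh : Pmax D := X (Sum.inr (Sum.inr (Sum.inl ())))

/-- factor of the weight `χ` of `N` and of the weight `ħ - χ` of `N^*`, `c = ⟨χ, l⟩` -/
noncomputable def fac (χ : Pmax D) (c : ℤ) : Pmax D :=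
  if c < 0 then χ else if 0 < c then gh D - χ else 1

/-- class of the locus in `T^*N` contracted by the cocharacter `l` -/
noncomputable def unst (l : B D → ℤ) : Pmax D :=
  (∏ a, ∏ r, ∏ s, fac D (gx D ⟨D.tgt a, s⟩ - gx D ⟨D.src a, r⟩ + ga D a)
      (l ⟨D.tgt a, s⟩ - l ⟨D.src a, r⟩)) *
    ∏ i, ∏ r, ∏ k, fac D (gw D i k - gx D ⟨i, r⟩) (-l ⟨i, r⟩)

/-- product of the weights `α` and `ħ + α` over the roots of `G` -/
noncomputable def disc : Pmax D :=
  ∏ i, ∏ r : Fin (D.v i), ∏ s ∈ Finset.univ.erase r,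
    (gx D ⟨i, r⟩ - gx D ⟨i, s⟩) * (gx D ⟨i, r⟩ - gx D ⟨i, s⟩ + gh D)

section
variable {K L : Type} [Field K] [Algebra ℂ K] [CommRing L] [Algebra K L]
  (x : B D → K) (y : Fin D.rk → K) (u : (B D → ℤ) → L)

/-- specialization to `F` and `ħ = 0` -/
noncomputable def spc : Pmax D →ₐ[ℂ] K :=
  aeval (Sum.elim x (Sum.elim (Sum.elim (fun a => lin y (D.ta a)) fun p => lin y (D.tw p.1 p.2))
    (Sum.elim (fun _ => 0) y)))

/-- the kernel of the Kirwan map, by the theorem of Hausel and Proudfoot -/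
noncomputable def kerH (ν : D.I → ℤ) : Set K :=
  {z | ∃ g : Pmax D, (∀ σ : W D, rename (Sum.map (perm D σ) id) g = g) ∧
    g * disc D ∈ Ideal.span {p | ∃ l, wt D ν l < 0 ∧ p = unst D l} ∧ spc D x y g = z}

/-- sums of products of a positive and a negative minuscule operator of opposite charges -/
noncomputable def quad : AddSubgroup L :=
  AddSubgroup.closure {c | ∃ l f g, Min D l ∧ l ≠ 0 ∧ c = mono D x y u l f * mono D x y u (-l) g}

end

end Vale.Agent.P291.G
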