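import Vale.Agent.P291.GMain

set_option autoImplicit false
set_option linter.unusedSectionVars false

/-! `φ_C` is onto, all quivers. -/

namespace Vale.Agent.P291.H

open MvPolynomial Vale.Agent.P291.G

variable (D : QData)

section
variable {K L : Type} [Field K] [Algebra ℂ K] [CommRing L] [Algebra K L]
  (x : B D → K) (y : Fin D.rk → K) (u : Module.Basis (B D → ℤ) K L)

lemma eul_zero' {C : Type} [CommRing C] (x : B D → C) (y : Fin D.rk → C) : eul D x y 0 = 1 := by
  simp [eul]

lemma rts_zero' {C : Type} [CommRing C] (x : B D → C) : rts D x 0 = 1 := by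
  simp [rts]

lemma cls_zero_mem (f : P D) : cls D x y 0 f ∈ R D x y := by
  refine ⟨∑ σ : W D, actP D σ f, fun τ => ?_⟩
  rw [pol_act, map_sum, map_sum, cls]
  symm
  rw [← Equiv.sum_comp (Equiv.mulLeft τ)]
  refine Finset.sum_congr rfl fun σ _ => ?_
  rw [co, eul_zero', rts_zero', mul_one, div_one, Equiv.coe_mulLeft, pol_act, actP_mul]

lemma R_mem_coulomb {r : K} (hr : r ∈ R D x y) : algebraMap K L r ∈ coulomb D x y u :=
  Subring.subset_closure (Or.inl ⟨r, hr, rfl⟩)

lemma R_add {r s : K} (hr : r ∈ R D x y) (hs : s ∈ R D x y) : r + s ∈ R D x y := by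
  obtain ⟨f, hf⟩ := hr
  obtain ⟨g, hg⟩ := hs
  exact ⟨f + g, fun σ => by rw [pol_eq, map_add, ← pol_eq, ← pol_eq, hf, hg]⟩

lemma R_mul {r s : K} (hr : r ∈ R D x y) (hs : s ∈ R D x y) : r * s ∈ R D x y := by
  obtain ⟨f, hf⟩ := hr
  obtain ⟨g, hg⟩ := hs
  exact ⟨f * g, fun σ => by rw [pol_eq, map_mul, ← pol_eq, ← pol_eq, hf, hg]⟩

lemma R_neg {r : K} (hr : r ∈ R D x y) : -r ∈ R D x y := by
  obtain ⟨f, hf⟩ := hr
  exact ⟨-f, fun σ => by rw [pol_eq, map_neg, ← pol_eq, hf]⟩

lemma R_zero : (0 : K) ∈ R D x y := ⟨0, fun σ => by rw [pol_eq, map_zero]⟩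

lemma R_one : (1 : K) ∈ R D x y := ⟨1, fun σ => by rw [pol_eq, map_one]⟩

variable (hu : ∀ l l', u (l + l') = u l * u l') (ν : D.I → ℤ)

include hu in
/-- surjectivity of `φ_C` -/
theorem surj (hν : ∀ l, Min D l → l ≠ 0 → wt D ν l ≠ 0) {a : L} (ha : a ∈ coulomb D x y u) :
    ∃ r ∈ R D x y, a - algebraMap K L r ∈ fixI D x y u ν := by
  induction ha using Subring.closure_induction with
  | mem a ha =>
    rcases ha with ⟨r, hr, rfl⟩ | ⟨l, f, hl, h⟩
    · exact ⟨r, hr, by rw [sub_self]; exact AddSubgroup.zero_mem _⟩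
    · by_cases hl0 : l = 0
      · subst hl0
        refine ⟨_, cls_zero_mem D x y f, ?_⟩
        have h1 : a = algebraMap K L (cls D x y 0 f) := by
          rcases h with rfl | rfl
          · exact mono_zero D x y u hu f
          · rw [neg_zero]; exact mono_zero D x y u hu f
        rw [h1, sub_self]
        exact AddSubgroup.zero_mem _
      · refine ⟨0, R_zero D x y, ?_⟩
        rw [map_zero, sub_zero]
        rcases h with rfl | rfl
        · exact mono_mem_fixI D x y u ν hl (hν l hl hl0) f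
        · exact mono_neg_mem_fixI D x y u ν hl (hν l hl hl0) f
  | zero => exact ⟨0, R_zero D x y, by rw [map_zero, sub_zero]; exact AddSubgroup.zero_mem _⟩
  | one => exact ⟨1, R_one D x y, by rw [map_one, sub_self]; exact AddSubgroup.zero_mem _⟩
  | add a b _ _ ha hb =>
    obtain ⟨r, hr, hr'⟩ := ha
    obtain ⟨s, hs, hs'⟩ := hb
    exact ⟨r + s, R_add D x y hr hs, by
      rw [map_add, add_sub_add_comm]
      exact AddSubgroup.add_mem _ hr' hs'⟩
  | neg a _ ha =>
    obtain ⟨r, hr, hr'⟩ := ha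
    exact ⟨-r, R_neg D x y hr, by
      have := AddSubgroup.neg_mem _ hr'
      rw [map_neg]
      rwa [neg_sub, ← neg_sub_neg] at this⟩
  | mul a b ha' hb' ha hb =>
    obtain ⟨r, hr, hr'⟩ := ha
    obtain ⟨s, hs, hs'⟩ := hb
    refine ⟨r * s, R_mul D x y hr hs, ?_⟩
    have h1 : a * b - algebraMap K L (r * s) = a * (b - algebraMap K L s) +
        algebraMap K L s * (a - algebraMap K L r) := by
      rw [map_mul]; ring
    rw [h1]
    exact AddSubgroup.add_mem _ (fixI_mul D x y u ν ha' hs')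
      (fixI_mul D x y u ν (R_mem_coulomb D x y u hs) hr')

end

end Vale.Agent.P291.H
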