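import Vale.Agent.P291.H.WF
import Vale.Agent.P291.H.QDefs
import Vale.Agent.P291.H.Surj

set_option autoImplicit false
set_option linter.unusedSectionVars false

/-! The quadratic relation in terms of monopole operators. -/

namespace Vale.Agent.P291.H

open MvPolynomial Vale.Agent.P291.G

variable (D : QData) {K L : Type} [Field K] [Algebra ℂ K] [CommRing L] [Algebra K L]
  (x : B D → K) (y : Fin D.rk → K) (u : Module.Basis (B D → ℤ) K L)
  (hxy : AlgebraicIndependent ℂ (Sum.elim x y)) (hu : ∀ l l', u (l + l') = u l * u l')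

section quadaux

lemma quad_act_eq (σ : W D) (f : P D) : act D (Fin D.rk) σ f = actP D σ f := rfl

lemma quad_del_eq : del D (Fin D.rk) = Del D := rfl

lemma quad_ind_mp (σ : W D) (A : Finset (B D)) : ind D (mp D σ A) = ind D A ∘ (perm D σ).symm := by
  funext b
  rw [ind, Function.comp, ind]
  exact if_congr (mem_mp' D σ A b) rfl rfl

lemma quad_act_eul (l : B D → ℤ) (σ : W D) :
    actP D σ (eul D (XX D) (YY D) l) = eul D (XX D) (YY D) (l ∘ (perm D σ).symm) := by
  have h := map_eul D (actP D σ).toRingHom (XX D) (YY D) l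
  have h2 : (actP D σ).toRingHom (eul D (XX D) (YY D) l) = actP D σ (eul D (XX D) (YY D) l) := rfl
  rw [← h2, h]
  have h3 : (fun b => (actP D σ).toRingHom (XX D b)) = fun b => XX D (perm D σ b) := by
    funext b; exact actP_XX D σ b
  have h4 : (fun b => (actP D σ).toRingHom (YY D b)) = YY D := by
    funext b; exact actP_YY D σ b
  rw [h3, h4]
  have h5 : l = fun b => (l ∘ (perm D σ).symm) (perm D σ b) := by
    funext b
    rw [Function.comp, Equiv.symm_apply_apply]
  conv_lhs => rw [h5]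
  rw [eul_reindex]

/-- scalars move out of the alternating sum -/
lemma quad_TT_C (l : B D → ℤ) (a : ℂ) (h : P D) :
    TT D x y u l (MvPolynomial.C a * h) = algebraMap ℂ K a • TT D x y u l h := by
  rw [TT, TT, Finset.smul_sum]
  refine Finset.sum_congr rfl fun σ _ => ?_
  rw [smul_smul]
  congr 1
  have h3 : EV D x y (actP D σ (MvPolynomial.C a)) = algebraMap ℂ K a := by
    rw [actP, rename_C, EV, aeval_C]
  rw [mul_assoc, map_mul, map_mul, h3]
  ring

/-- the alternating sum of an alternating family is a multiple of the sum over the subsets -/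
lemma quad_TT_sum {n : D.I → ℕ} {φ : Finset (B D) → S D (Fin D.rk)} (hφ : φ ∈ AF D (Fin D.rk) n)
    {A₀ : Finset (B D)} (hA : typ D A₀ = n) (lam : Finset (B D) → B D → ℤ)
    (hlam : ∀ σ, lam (mp D σ A₀) = lam A₀ ∘ (perm D σ).symm) :
    TT D x y u (lam A₀) (φ A₀) =
      ((Finset.univ.filter fun σ : W D => mp D σ A₀ = A₀).card : K) •
      ∑ A, (EV D x y (φ A * eul D (XX D) (YY D) (lam A))) • u (lam A) := by
  classical
  have h1 : TT D x y u (lam A₀) (φ A₀) = ∑ σ : W D,
      (EV D x y (φ (mp D σ A₀) * eul D (XX D) (YY D) (lam (mp D σ A₀)))) •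
        u (lam (mp D σ A₀)) := by
    rw [TT]
    refine Finset.sum_congr rfl fun σ _ => ?_
    rw [hlam σ, ← quad_act_eul, map_mul, ← quad_act_eq D σ (φ A₀), hφ.1 σ A₀, mul_assoc, map_mul,
      map_intCast, ← mul_assoc, sgn_sqK, one_mul]
  have h2 : (∑ σ : W D,
      (EV D x y (φ (mp D σ A₀) * eul D (XX D) (YY D) (lam (mp D σ A₀)))) •
        u (lam (mp D σ A₀))) = ∑ A, ∑ σ ∈ Finset.univ.filter (fun σ : W D => mp D σ A₀ = A),
      (EV D x y (φ A * eul D (XX D) (YY D) (lam A))) • u (lam A) := by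
    rw [← Finset.sum_fiberwise_of_maps_to (s := (Finset.univ : Finset (W D)))
      (t := (Finset.univ : Finset (Finset (B D)))) (g := fun σ : W D => mp D σ A₀)
      (fun _ _ => Finset.mem_univ _)]
    refine Finset.sum_congr rfl fun A _ => Finset.sum_congr rfl fun σ hσ => ?_
    rw [(Finset.mem_filter.1 hσ).2]
  rw [h1, h2, Finset.smul_sum]
  refine Finset.sum_congr rfl fun A _ => ?_
  rw [Finset.sum_const, ← Nat.cast_smul_eq_nsmul K]
  by_cases hAn : typ D A = n
  · congr 2
    obtain ⟨τ, hτ, -⟩ := exists_mp D (P := A₀) (q := ∅) (P' := A) (q' := ∅)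
      (Finset.empty_subset _) (Finset.empty_subset _) (hA.trans hAn.symm) rfl
    symm
    refine Finset.card_bij (fun σ _ => τ * σ) ?_ ?_ ?_
    · intro σ hσ
      rw [Finset.mem_filter] at hσ ⊢
      exact ⟨Finset.mem_univ _, by rw [mp_mul, hσ.2, hτ]⟩
    · intro σ _ σ' _ h
      exact mul_left_cancel h
    · intro σ hσ
      rw [Finset.mem_filter] at hσ
      refine ⟨τ⁻¹ * σ, ?_, mul_inv_cancel_left _ _⟩
      rw [Finset.mem_filter]
      refine ⟨Finset.mem_univ _, ?_⟩
      rw [mp_mul, hσ.2, ← hτ, ← mp_mul, inv_mul_cancel, mp_one]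
  · rw [hφ.2 A hAn, zero_mul, map_zero, zero_smul, smul_zero, smul_zero]

include hxy in
/-- common version of `pos_mono` and `neg_mono` -/
lemma quad_fam_mono {n : D.I → ℕ} {φ : Finset (B D) → S D (Fin D.rk)} (hφ : φ ∈ AF D (Fin D.rk) n)
    {A₀ : Finset (B D)} (hA : typ D A₀ = n) (lam : Finset (B D) → B D → ℤ)
    (hlam : ∀ σ, lam (mp D σ A₀) = lam A₀ ∘ (perm D σ).symm)
    (hle : ∀ b b', lam A₀ b - lam A₀ b' ≤ 1) :
    ∃ f : P D, ∑ A, (EV D x y (φ A * eul D (XX D) (YY D) (lam A))) • u (lam A) =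
      EV D x y (del D (Fin D.rk)) • mono D x y u (lam A₀) f := by
  classical
  set N : ℂ := ((Finset.univ.filter fun σ : W D => mp D σ A₀ = A₀).card : ℂ) with hN
  have hN0 : N ≠ 0 := by
    rw [hN, Nat.cast_ne_zero]
    refine Finset.card_ne_zero.2 ⟨1, ?_⟩
    rw [Finset.mem_filter]
    exact ⟨Finset.mem_univ _, mp_one D A₀⟩
  obtain ⟨f, hf⟩ := TT_mono D x y u hxy (lam A₀) hle (MvPolynomial.C N⁻¹ * φ A₀)
  refine ⟨f, ?_⟩
  rw [← hf, quad_del_eq, smul_smul, mul_inv_cancel₀ (EV_Del_ne D x y hxy), one_smul, quad_TT_C,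
    quad_TT_sum D x y u hφ hA lam hlam, smul_smul]
  have h4 : algebraMap ℂ K N⁻¹ *
      ((Finset.univ.filter fun σ : W D => mp D σ A₀ = A₀).card : K) = 1 := by
    have h5 : ((Finset.univ.filter fun σ : W D => mp D σ A₀ = A₀).card : K) =
      algebraMap ℂ K N := by rw [hN]; simp
    rw [h5, ← map_mul, inv_mul_cancel₀ hN0, map_one]
  rw [h4, one_smul]

end quadaux

/-- the operator of an alternating family is a monopole operator (up to `del`).
If there is `A₀` with `typ A₀ = n` then `φ = c⁻¹ • orb A₀ (φ A₀)`, `c` the order of the stabilizer,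
and the sum is `TT (ind A₀) (c⁻¹ φ A₀)` (`eul_ind`), so `TT_mono` applies; otherwise `φ = 0` and the
monopole operator with `f = 0` does it (choose any `l` then: here `l` is given with `φ ≠ 0`). -/
lemma pos_mono {n : D.I → ℕ} {φ : Finset (B D) → S D (Fin D.rk)} (hφ : φ ∈ AF D (Fin D.rk) n)
    {A₀ : Finset (B D)} (hA : typ D A₀ = n) (hxy : AlgebraicIndependent ℂ (Sum.elim x y)) :
    ∃ f : P D, ∑ A, (EV D x y (φ A * (e (wF D) A * zs (wF D) A))) • u (ind D A) =
      EV D x y (del D (Fin D.rk)) • mono D x y u (ind D A₀) f := by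
  obtain ⟨f, hf⟩ := quad_fam_mono D x y u hxy hφ hA (ind D) (fun σ => quad_ind_mp D σ A₀)
    (fun b b' => by unfold ind; split_ifs <;> norm_num)
  refine ⟨f, ?_⟩
  rw [← hf]
  exact Finset.sum_congr rfl fun A _ => by rw [eul_ind]

lemma neg_mono {n : D.I → ℕ} {ψ : Finset (B D) → S D (Fin D.rk)} (hψ : ψ ∈ AF D (Fin D.rk) n)
    {A₀ : Finset (B D)} (hA : typ D A₀ = n) (hxy : AlgebraicIndependent ℂ (Sum.elim x y)) :
    ∃ f : P D, ∑ C, (EV D x y (ψ C * e (wF D) Cᶜ)) • u (-ind D C) =
      EV D x y (del D (Fin D.rk)) • mono D x y u (-ind D A₀) f := by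
  obtain ⟨f, hf⟩ := quad_fam_mono D x y u hxy hψ hA (fun C => -ind D C)
    (fun σ => by rw [quad_ind_mp]; rfl)
    (fun b b' => by simp only [Pi.neg_apply]; unfold ind; split_ifs <;> norm_num)
  refine ⟨f, ?_⟩
  rw [← hf]
  exact Finset.sum_congr rfl fun C _ => by rw [eul_neg_ind]

section quadaux2

lemma quad_ind_sub {D1 D2 K : Finset (B D)} (h1 : Disjoint D1 K) (h2 : Disjoint D2 K) :
    ind D (D1 ∪ K) + -ind D (D2 ∪ K) = ind D D1 + -ind D D2 := by
  funext b
  simp only [Pi.add_apply, Pi.neg_apply, ind, Finset.mem_union]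
  by_cases hK : b ∈ K
  · have h3 : b ∉ D1 := fun h => Finset.disjoint_left.1 h1 h hK
    have h4 : b ∉ D2 := fun h => Finset.disjoint_left.1 h2 h hK
    simp [hK, h3, h4]
  · simp [hK]

/-- pairs of subsets, sorted by the differences and the intersection -/
lemma quad_sum_pairs {M : Type} [AddCommMonoid M] (G : Finset (B D) → Finset (B D) → M) :
    ∑ A, ∑ C, G A C = ∑ p ∈ (Finset.univ : Finset (Finset (B D) × Finset (B D))).filter
      (fun p => Disjoint p.1 p.2), ∑ K ∈ (p.1 ∪ p.2)ᶜ.powerset, G (p.1 ∪ K) (p.2 ∪ K) := by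
  classical
  rw [← Finset.sum_product', Finset.sum_sigma']
  refine Finset.sum_bij' (fun q _ => ⟨(q.1 \ q.2, q.2 \ q.1), q.1 ∩ q.2⟩)
    (fun s _ => (s.1.1 ∪ s.2, s.1.2 ∪ s.2)) ?_ ?_ ?_ ?_ ?_
  · rintro ⟨A, C⟩ _
    rw [Finset.mem_sigma, Finset.mem_filter, Finset.mem_powerset]
    refine ⟨⟨Finset.mem_univ _, ?_⟩, ?_⟩
    · rw [Finset.disjoint_left]
      intro b hb hb'
      exact (Finset.mem_sdiff.1 hb).2 (Finset.mem_sdiff.1 hb').1
    · intro b hb
      rw [Finset.mem_inter] at hb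
      rw [Finset.mem_compl, Finset.mem_union, Finset.mem_sdiff, Finset.mem_sdiff]
      tauto
  · rintro ⟨⟨D1, D2⟩, K⟩ _
    exact Finset.mem_product.2 ⟨Finset.mem_univ _, Finset.mem_univ _⟩
  · rintro ⟨A, C⟩ _
    simp only [Prod.mk.injEq]
    constructor
    · ext b; simp only [Finset.mem_union, Finset.mem_sdiff, Finset.mem_inter]; tauto
    · ext b; simp only [Finset.mem_union, Finset.mem_sdiff, Finset.mem_inter]; tauto
  · rintro ⟨⟨D1, D2⟩, K⟩ h
    rw [Finset.mem_sigma, Finset.mem_filter, Finset.mem_powerset] at h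
    obtain ⟨⟨-, h1⟩, h2⟩ := h
    simp only at h1 h2
    have h3 : ∀ b, b ∈ D1 → b ∉ D2 := fun b hb => Finset.disjoint_left.1 h1 hb
    have h4 : ∀ b, b ∈ K → b ∉ D1 ∧ b ∉ D2 := by
      intro b hb
      have := h2 hb
      rw [Finset.mem_compl, Finset.mem_union] at this
      tauto
    have e1 : (D1 ∪ K) \ (D2 ∪ K) = D1 := by
      ext b; simp only [Finset.mem_union, Finset.mem_sdiff]
      have := h3 b; have := h4 b; tauto
    have e2 : (D2 ∪ K) \ (D1 ∪ K) = D2 := by
      ext b; simp only [Finset.mem_union, Finset.mem_sdiff]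
      have := h3 b; have := h4 b; tauto
    have e3 : (D1 ∪ K) ∩ (D2 ∪ K) = K := by
      ext b; simp only [Finset.mem_union, Finset.mem_inter]
      have := h3 b; have := h4 b; tauto
    simp only [e1, e2, e3]
  · rintro ⟨A, C⟩ _
    have e1 : A \ C ∪ A ∩ C = A := by
      ext b; simp only [Finset.mem_union, Finset.mem_sdiff, Finset.mem_inter]; tauto
    have e2 : C \ A ∪ A ∩ C = C := by
      ext b; simp only [Finset.mem_union, Finset.mem_sdiff, Finset.mem_inter]; tauto
    simp only [e1, e2]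

end quadaux2

include hxy hu in
/-- From the quadratic relation: `(∑_A φ_j(A)..u^A) (∑_C ψ_j(C).. u^(-C))`, summed over `j`; sort
the terms by `D1 = A \ C`, `D2 = C \ A`, `K = A ∩ C`: the coefficient of `u^(D1 - D2)` is the left
side of `LinRel`. So the sum is `del ^ 2 * r`, and dividing by `del ^ 2` gives the claim
(`pos_mono`, `neg_mono`; if `n j` is not the type of a subset then `φ j = 0`). -/
theorem quad_of_linRel {r : S D (Fin D.rk)} (h : LinRel (wF D) r) :
    algebraMap K L (EV D x y r) ∈ quad D x y u := by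
  classical
  obtain ⟨m, n, φ, ψ, hj, hrel⟩ := h
  have hdel : EV D x y (del D (Fin D.rk)) ≠ 0 := EV_Del_ne D x y hxy
  set δ : K := EV D x y (del D (Fin D.rk)) with hδ
  -- the operators
  set Pj : Fin m → L := fun j =>
    ∑ A, (EV D x y (φ j A * (e (wF D) A * zs (wF D) A))) • u (ind D A) with hPj
  set Nj : Fin m → L := fun j =>
    ∑ C, (EV D x y (ψ j C * e (wF D) Cᶜ)) • u (-ind D C) with hNj
  -- each product is in `quad`, up to `δ ^ 2`
  have hprod : ∀ j, ∃ c ∈ quad D x y u, Pj j * Nj j = (δ ^ 2) • c := by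
    intro j
    obtain ⟨hn, hφ, hψ⟩ := hj j
    by_cases hA : ∃ A₀ : Finset (B D), typ D A₀ = n j
    · obtain ⟨A₀, hA₀⟩ := hA
      obtain ⟨f, hf⟩ := pos_mono D x y u hφ hA₀ hxy
      obtain ⟨g, hg⟩ := neg_mono D x y u hψ hA₀ hxy
      refine ⟨mono D x y u (ind D A₀) f * mono D x y u (-ind D A₀) g, ?_, ?_⟩
      · refine AddSubgroup.subset_closure ⟨ind D A₀, f, g, ?_, ?_, rfl⟩
        · intro b
          rw [ind]
          split_ifs
          · exact Or.inr rfl
          · exact Or.inl rfl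
        · intro h0
          refine hn ?_
          have h1 : A₀ = ∅ := by
            rw [Finset.eq_empty_iff_forall_notMem]
            intro b hb
            have h2 := congrFun h0 b
            rw [ind, if_pos hb] at h2
            exact one_ne_zero h2
          rw [← hA₀, h1, typ_empty]
      · simp only [hPj, hNj]
        rw [hf, hg, smul_mul_smul_comm, ← pow_two]
    · refine ⟨0, AddSubgroup.zero_mem _, ?_⟩
      have h0 : Pj j = 0 := by
        simp only [hPj]
        refine Finset.sum_eq_zero fun A _ => ?_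
        rw [hφ.2 A (fun h => hA ⟨A, h⟩), zero_mul, map_zero, zero_smul]
      rw [h0, zero_mul, smul_zero]
  choose c hc hc' using hprod
  -- the sum of the products
  have hsum : ∑ j, Pj j * Nj j = algebraMap K L (EV D x y r * δ ^ 2) := by
    have h1 : ∀ j, Pj j * Nj j = ∑ A, ∑ C, (EV D x y (φ j A * ψ j C *
        (e (wF D) A * zs (wF D) A) * e (wF D) Cᶜ)) • u (ind D A + -ind D C) := by
      intro j
      simp only [hPj, hNj]
      rw [Finset.sum_mul_sum]
      refine Finset.sum_congr rfl fun A _ => Finset.sum_congr rfl fun C _ => ?_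
      rw [smul_mul_smul_comm, ← hu, ← map_mul]
      congr 2
      ring
    rw [Finset.sum_congr rfl fun j _ => h1 j,
      Finset.sum_congr rfl fun j _ => quad_sum_pairs D _, Finset.sum_comm]
    have h2 : ∀ p ∈ (Finset.univ : Finset (Finset (B D) × Finset (B D))).filter
        (fun p => Disjoint p.1 p.2), (∑ j, ∑ K ∈ (p.1 ∪ p.2)ᶜ.powerset,
        (EV D x y (φ j (p.1 ∪ K) * ψ j (p.2 ∪ K) *
        (e (wF D) (p.1 ∪ K) * zs (wF D) (p.1 ∪ K)) * e (wF D) (p.2 ∪ K)ᶜ)) •
        u (ind D (p.1 ∪ K) + -ind D (p.2 ∪ K))) =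
        if p = (∅, ∅) then algebraMap K L (EV D x y r * δ ^ 2) else 0 := by
      rintro ⟨D1, D2⟩ hp
      have hd : Disjoint D1 D2 := (Finset.mem_filter.1 hp).2
      have h3 := congrArg (EV D x y) (hrel D1 D2 hd)
      simp only [map_sum] at h3
      have h4 : (∑ j, ∑ K ∈ (D1 ∪ D2)ᶜ.powerset,
        (EV D x y (φ j (D1 ∪ K) * ψ j (D2 ∪ K) *
        (e (wF D) (D1 ∪ K) * zs (wF D) (D1 ∪ K)) * e (wF D) (D2 ∪ K)ᶜ)) •
        u (ind D (D1 ∪ K) + -ind D (D2 ∪ K))) = (∑ j, ∑ K ∈ (D1 ∪ D2)ᶜ.powerset,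
        (EV D x y (φ j (D1 ∪ K) * ψ j (D2 ∪ K) *
        (e (wF D) (D1 ∪ K) * zs (wF D) (D1 ∪ K)) * e (wF D) (D2 ∪ K)ᶜ))) •
        u (ind D D1 + -ind D D2) := by
        rw [Finset.sum_smul]
        refine Finset.sum_congr rfl fun j _ => ?_
        rw [Finset.sum_smul]
        refine Finset.sum_congr rfl fun K hK => ?_
        rw [Finset.mem_powerset] at hK
        rw [quad_ind_sub D (Finset.disjoint_left.2 fun b hb hb' =>
          Finset.mem_compl.1 (hK hb') (Finset.mem_union_left _ hb))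
          (Finset.disjoint_left.2 fun b hb hb' =>
          Finset.mem_compl.1 (hK hb') (Finset.mem_union_right _ hb))]
      simp only
      rw [h4, h3]
      by_cases he : D1 = ∅ ∧ D2 = ∅
      · obtain ⟨rfl, rfl⟩ := he
        rw [if_pos ⟨rfl, rfl⟩, if_pos rfl, add_neg_cancel, G.u_zero D u hu, map_mul, map_pow,
          Algebra.algebraMap_eq_smul_one]
      · rw [if_neg he, if_neg (fun h => he ⟨congrArg Prod.fst h, congrArg Prod.snd h⟩), map_zero,
          zero_smul]
    rw [Finset.sum_congr rfl h2, Finset.sum_ite_eq', if_pos]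
    rw [Finset.mem_filter]
    exact ⟨Finset.mem_univ _, Finset.disjoint_empty_left _⟩
  -- divide
  have hfin : algebraMap K L (EV D x y r) = ∑ j, c j := by
    have h1 : (δ ^ 2) • algebraMap K L (EV D x y r) = (δ ^ 2) • ∑ j, c j := by
      rw [Finset.smul_sum, ← Finset.sum_congr rfl fun j _ => hc' j, hsum, Algebra.smul_def,
        ← map_mul, mul_comm]
    have h2 := congrArg (fun z => (δ ^ 2)⁻¹ • z) h1
    simp only [smul_smul] at h2
    rwa [inv_mul_cancel₀ (pow_ne_zero 2 hdel), one_smul, one_smul] at h2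
  rw [hfin]
  exact AddSubgroup.sum_mem _ fun j _ => hc j

/-- the converse inclusion -/
lemma quad_fixI (ν : D.I → ℤ) (hν : ∀ l, Min D l → l ≠ 0 → wt D ν l ≠ 0) {c : L}
    (hc : c ∈ quad D x y u) : c ∈ fixI D x y u ν := by
  induction hc using AddSubgroup.closure_induction with
  | mem c hc =>
    obtain ⟨l, f, g, hl, hl0, rfl⟩ := hc
    exact fixI_mul D x y u ν (mono_mem_coulomb D x y u hl f)
      (mono_neg_mem_fixI D x y u ν hl (hν l hl hl0) g)
  | zero => exact AddSubgroup.zero_mem _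
  | add a b _ _ ha hb => exact AddSubgroup.add_mem _ ha hb
  | neg a _ ha => exact AddSubgroup.neg_mem _ ha

end Vale.Agent.P291.H
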