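import Vale.Agent.P291.H.BTop
import Vale.Agent.P291.H.BClass
import Vale.Agent.P291.H.BMem

set_option autoImplicit false
set_option linter.unusedSectionVars false

/-! Step B. -/

namespace Vale.Agent.P291.H

open MvPolynomial Vale.Agent.P291.G

variable (D : QData)

/-- STEP B. -/
theorem stepB (ν : D.I → ℤ) (hν : ∀ n : D.I → ℕ, n ≠ 0 → n ≤ D.v → ∑ i, ν i * (n i : ℤ) ≠ 0)
    {r : S D (Fin D.rk)} (h : LinRel (wF D) r) :
    ∃ g : S D (ZZ D), (∀ σ, act D (ZZ D) σ g = g) ∧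
      g * Om D Finset.univ ∈ Ideal.span {p | ∃ l : B D → ℤ, wt D ν l < 0 ∧ p = elq D l} ∧
      spec D g = r := by
  obtain ⟨L, hL⟩ := classical D ν h
  obtain ⟨L', hL', h1⟩ := topdown D ν L fun D1 D2 hd hc => by
    rw [hL D1 D2 hd, if_neg]
    rintro ⟨rfl, -⟩
    simp at hc
  have h2 : Om D (∅ ∪ ∅ : Finset (B D))ᶜ ∣ Num D ν (L ++ L') ∅ ∅ := by
    refine Om_dvd_Num D ν (L ++ L') (Finset.disjoint_empty_left _) fun a _ b _ hab _ => ?_
    refine h1 _ _ ?_ ?_
    · rw [Finset.disjoint_left]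
      intro c hc hc'
      simp only [Finset.mem_insert, Finset.notMem_empty, or_false] at hc hc'
      exact hab (hc'.symm.trans hc)
    · simp
  rw [Finset.empty_union, Finset.compl_empty] at h2
  obtain ⟨g, hg⟩ := h2
  have hOm : Om D (Finset.univ : Finset (B D)) ≠ 0 := fun h0 =>
    spec_Om_ne_zero D Finset.univ (by rw [h0, map_zero])
  refine ⟨g, fun σ => ?_, ?_, ?_⟩
  · apply mul_left_cancel₀ hOm
    have h3 := act_Num D ν (L ++ L') σ ∅ ∅
    have h4 : mp D σ ∅ = ∅ := by rw [mp, Finset.map_empty]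
    rw [h4, hg, map_mul, act_Om] at h3
    have h5 : mp D σ Finset.univ = Finset.univ := by
      ext b; rw [mem_mp']; simp
    rw [h5] at h3
    exact h3
  · rw [mul_comm, ← hg]
    exact Num_mem D ν hν (L ++ L')
  · apply mul_right_cancel₀ (spec_Om_ne_zero D Finset.univ)
    rw [← map_mul, mul_comm, ← hg, Num_append, map_add, spec_Num_inv0 D ν L' hL', add_zero,
      hL ∅ ∅ (Finset.disjoint_empty_left _), if_pos ⟨rfl, rfl⟩]

end Vale.Agent.P291.H
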