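import Vale.Agent.P291.H.StepA
import Vale.Agent.P291.H.StepB
import Vale.Agent.P291.H.Quad

set_option autoImplicit false
set_option linter.unusedSectionVars false

/-! Main theorem, all quivers. -/

namespace Vale.Agent.P291.H

open MvPolynomial Vale.Agent.P291.G

variable (D : QData)

lemma disc_eq : disc D = Om D Finset.univ := by
  rw [disc, Om]
  have h : ∀ F : B D → B D → S D (ZZ D), (∀ p q : B D, p.1 ≠ q.1 → F p q = 1) →
      (∏ p : B D, ∏ q ∈ Finset.univ.erase p, F p q) =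
      ∏ i, ∏ r : Fin (D.v i), ∏ s ∈ Finset.univ.erase r, F ⟨i, r⟩ ⟨i, s⟩ := by
    intro F hF
    rw [Fintype.prod_sigma]
    refine Finset.prod_congr rfl fun i _ => Finset.prod_congr rfl fun r _ => ?_
    rw [← Finset.prod_filter_mul_prod_filter_not _ (fun q : B D => q.1 = i)]
    rw [Finset.prod_eq_one (s := (Finset.univ.erase (⟨i, r⟩ : B D)).filter fun q => ¬ q.1 = i)
      (fun q hq => hF _ _ fun h => (Finset.mem_filter.1 hq).2 h.symm), mul_one]
    refine (Finset.prod_bij (fun s _ => (⟨i, s⟩ : B D)) ?_ ?_ ?_ ?_).symm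
    · intro s hs
      rw [Finset.mem_filter, Finset.mem_erase]
      refine ⟨⟨fun h => ?_, Finset.mem_univ _⟩, rfl⟩
      rw [Sigma.mk.injEq] at h
      exact Finset.ne_of_mem_erase hs (eq_of_heq h.2)
    · intro s _ s' _ h
      rw [Sigma.mk.injEq] at h
      exact eq_of_heq h.2
    · rintro ⟨j, s⟩ hq
      rw [Finset.mem_filter, Finset.mem_erase] at hq
      obtain ⟨⟨h1, -⟩, h2⟩ := hq
      simp only at h2
      subst h2
      refine ⟨s, ?_, rfl⟩
      rw [Finset.mem_erase]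
      exact ⟨fun h => h1 (by rw [h]), Finset.mem_univ _⟩
    · intro s _; rfl
  rw [h (fun p q => g0 D p q * g1 D p q) fun p q hpq => by rw [g0, g1, if_neg hpq, if_neg hpq, one_mul]]
  refine Finset.prod_congr rfl fun i _ => Finset.prod_congr rfl fun r _ =>
    Finset.prod_congr rfl fun s _ => ?_
  rw [g0, g1, if_pos rfl, if_pos rfl]
  rfl

lemma unst_eq (l : B D → ℤ) : unst D l = elq D l := by
  rw [unst, elq]
  congr 1
  · refine Finset.prod_congr rfl fun a _ => Finset.prod_congr rfl fun r _ =>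
      Finset.prod_congr rfl fun s _ => ?_
    rw [fac]
    have e1 : (l ⟨D.tgt a, s⟩ - l ⟨D.src a, r⟩ < 0) = (l ⟨D.tgt a, s⟩ < l ⟨D.src a, r⟩) := by
      apply propext; omega
    have e2 : (0 < l ⟨D.tgt a, s⟩ - l ⟨D.src a, r⟩) = (l ⟨D.src a, r⟩ < l ⟨D.tgt a, s⟩) := by
      apply propext; omega
    simp only [e1, e2]
    rfl
  · refine Finset.prod_congr rfl fun i _ => Finset.prod_congr rfl fun r _ =>
      Finset.prod_congr rfl fun k _ => ?_
    rw [fac]
    have e1 : (-l ⟨i, r⟩ < 0) = (0 < l ⟨i, r⟩) := by apply propext; omega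
    have e2 : (0 < -l ⟨i, r⟩) = (l ⟨i, r⟩ < 0) := by apply propext; omega
    simp only [e1, e2]
    rfl

lemma nu_generic (ν : D.I → ℤ) (hν : ∀ l, Min D l → l ≠ 0 → wt D ν l ≠ 0) (n : D.I → ℕ)
    (hn : n ≠ 0) (hnv : n ≤ D.v) : ∑ i, ν i * (n i : ℤ) ≠ 0 := by
  set l : B D → ℤ := fun b => if (b.2 : ℕ) < n b.1 then 1 else 0 with hl
  have h1 : Min D l := by
    intro b
    simp only [hl]
    split_ifs
    · exact Or.inr rfl
    · exact Or.inl rfl
  have h2 : wt D ν l = ∑ i, ν i * (n i : ℤ) := by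
    rw [wt, Fintype.sum_sigma]
    refine Finset.sum_congr rfl fun i _ => ?_
    simp only [hl]
    rw [← Finset.mul_sum]
    congr 1
    rw [Finset.sum_ite, Finset.sum_const_zero, add_zero, Finset.sum_const, nsmul_eq_mul, mul_one]
    congr 1
    have h3 : (Finset.univ.filter fun r : Fin (D.v i) => (r : ℕ) < n i).card = min (D.v i) (n i) := by
      exact Fin.card_filter_val_lt
    rw [h3]
    exact min_eq_right (hnv i)
  rw [← h2]
  apply hν l h1
  intro h0
  apply hn
  funext i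
  by_contra hi
  have h4 : 0 < n i := Nat.pos_of_ne_zero hi
  have h5 : 0 < D.v i := lt_of_lt_of_le h4 (hnv i)
  have h6 := congrFun h0 (⟨i, ⟨0, h5⟩⟩ : B D)
  simp only [hl, Pi.zero_apply] at h6
  rw [if_pos h4] at h6
  exact one_ne_zero h6

section
variable {K L : Type} [Field K] [Algebra ℂ K] [CommRing L] [Algebra K L]
  (x : B D → K) (y : Fin D.rk → K)

lemma EV_spec (g : S D (ZZ D)) : EV D x y (spec D g) = spc D x y g := by
  have h : (EV D x y).comp (spec D) = spc D x y := by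
    apply MvPolynomial.algHom_ext
    intro b
    rw [AlgHom.comp_apply, spec, spc, aeval_X, aeval_X]
    rcases b with b | ((a | p) | (_ | j))
    · exact EV_XX D x y b
    · exact EV_lin D x y _
    · exact EV_lin D x y _
    · exact map_zero _
    · exact EV_YY D x y j
  exact DFunLike.congr_fun h g

lemma kerH_of {ν : D.I → ℤ} {f : S D (Fin D.rk)} (h : ∃ g : S D (ZZ D),
    (∀ σ, act D (ZZ D) σ g = g) ∧ g * Om D Finset.univ ∈
      Ideal.span {p | ∃ l : B D → ℤ, wt D ν l < 0 ∧ p = elq D l} ∧ spec D g = f) :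
    EV D x y f ∈ kerH D x y ν := by
  obtain ⟨g, h1, h2, rfl⟩ := h
  refine ⟨g, h1, ?_, (EV_spec D x y g).symm⟩
  rw [disc_eq]
  have h3 : ({p | ∃ l : B D → ℤ, wt D ν l < 0 ∧ p = unst D l} : Set (Pmax D)) =
      {p | ∃ l : B D → ℤ, wt D ν l < 0 ∧ p = elq D l} := by
    ext p
    simp only [Set.mem_ofPred_eq, unst_eq]
  rw [h3]
  exact h2

end

/-- main theorem -/
theorem main (K L : Type) [Field K] [Algebra ℂ K] [CommRing L] [Algebra K L]
    (x : B D → K) (y : Fin D.rk → K) (hxy : AlgebraicIndependent ℂ (Sum.elim x y))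
    (u : Module.Basis (B D → ℤ) K L) (hu : ∀ l l', u (l + l') = u l * u l')
    (ν : D.I → ℤ) (hν : ∀ l, Min D l → l ≠ 0 → wt D ν l ≠ 0) :
    (∀ a ∈ coulomb D x y u, ∃ r ∈ R D x y, a - algebraMap K L r ∈ fixI D x y u ν) ∧
    (∀ r ∈ R D x y, algebraMap K L r ∈ fixI D x y u ν →
      r ∈ kerH D x y ν ∧ algebraMap K L r ∈ quad D x y u) ∧
    ((∀ a, D.v (D.tgt a) ≤ 1) →
      ∀ r ∈ R D x y, algebraMap K L r ∈ fixI D x y u ν ↔ r ∈ Kdec D x y) := by
  refine ⟨fun a ha => surj D x y u hu ν hν ha, fun r hr h => ?_, fun hD =>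
    (Vale.Agent.P291.G.main D K L x y hxy u hu hD ν hν).2⟩
  obtain ⟨s, rfl⟩ := (mem_R_iff D x y hxy r).1 hr
  have h1 : LinRel (wF D) (s : P D) := stepA D x y u hxy hu ν (fun σ => (mem_Ainv D).1 s.2 σ) h
  exact ⟨kerH_of D x y (stepB D ν (nu_generic D ν hν) h1), quad_of_linRel D x y u hxy hu h1⟩

end Vale.Agent.P291.H
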