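import Vale.Agent.P291.H.Coef
import Vale.Agent.P291.H.WF

set_option autoImplicit false
set_option linter.unusedSectionVars false

/-! From the ideal `fixI` to products of slots. -/

namespace Vale.Agent.P291.H

open MvPolynomial Vale.Agent.P291.G

variable (D : QData)

namespace PadAux

/-! ### charges -/

/-- the charge of a cocharacter -/
def pchg (l : B D → ℤ) (i : D.I) : ℤ := ∑ r : Fin (D.v i), l ⟨i, r⟩

lemma pchg_add (l l' : B D → ℤ) : pchg D (l + l') = pchg D l + pchg D l' := by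
  funext i
  rw [Pi.add_apply, pchg, pchg, pchg, ← Finset.sum_add_distrib]
  rfl

lemma pchg_ind (A : Finset (B D)) : pchg D (ind D A) = fun i => ((typ D A i : ℕ) : ℤ) := by
  funext i
  rw [pchg, typ, Finset.card_filter]
  simp only [ind]
  push_cast
  rw [← Finset.sum_filter, ← Finset.sum_filter]
  simp only [Finset.sum_const, mul_one, nsmul_eq_mul]
  congr 1
  refine Finset.card_bij' (fun r _ => (⟨i, r⟩ : B D)) (fun b hb => by
    have hb' := (Finset.mem_filter.1 hb).2
    exact hb' ▸ b.2) ?_ ?_ ?_ ?_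
  · intro r hr
    simpa using hr
  · rintro ⟨j, r⟩ hb
    obtain ⟨h1, h2⟩ := Finset.mem_filter.1 hb
    simp only at h2
    subst h2
    simpa using h1
  · intro r hr
    rfl
  · rintro ⟨j, r⟩ hb
    obtain ⟨h1, h2⟩ := Finset.mem_filter.1 hb
    simp only at h2
    subst h2
    rfl

lemma pwt_chg (ν : D.I → ℤ) (l : B D → ℤ) : wt D ν l = ∑ i, ν i * pchg D l i := by
  rw [wt, Fintype.sum_sigma]
  refine Finset.sum_congr rfl fun i _ => ?_
  rw [pchg, Finset.mul_sum]

/-- the algebra -/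
abbrev MA : Type := AddMonoidAlgebra (S D (Fin D.rk)) (B D → ℤ)

/-- homogeneous elements -/
noncomputable def Mc (d : D.I → ℤ) : Submodule ℂ (MA D) :=
  Submodule.span ℂ {y | ∃ l s, pchg D l = d ∧ y = AddMonoidAlgebra.single l s}

lemma Mc_mul (d d' : D.I → ℤ) : Mc D d * Mc D d' ≤ Mc D (d + d') := by
  rw [Mc, Mc, Submodule.span_mul_span, Submodule.span_le]
  rintro z hz
  obtain ⟨a, ⟨l, s, hl, rfl⟩, b, ⟨l', s', hl', rfl⟩, rfl⟩ := Set.mem_mul.1 hz
  refine Submodule.subset_span ⟨l + l', s * s', ?_, ?_⟩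
  · rw [pchg_add, hl, hl']
  · rw [AddMonoidAlgebra.single_mul_single]

/-- the projection to a charge -/
noncomputable def prj (d : D.I → ℤ) : MA D →ₗ[ℂ] MA D where
  toFun Y := AddMonoidAlgebra.ofCoeff (Y.coeff.filter fun l => pchg D l = d)
  map_add' Y Z := by
    rw [AddMonoidAlgebra.coeff_add, Finsupp.filter_add, AddMonoidAlgebra.ofCoeff_add]
  map_smul' c Y := by
    rw [AddMonoidAlgebra.coeff_smul, Finsupp.filter_smul, RingHom.id_apply]
    rfl

lemma prj_single_of {d : D.I → ℤ} {l : B D → ℤ} (h : pchg D l = d) (s : S D (Fin D.rk)) :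
    prj D d (AddMonoidAlgebra.single l s) = AddMonoidAlgebra.single l s := by
  change AddMonoidAlgebra.ofCoeff (Finsupp.filter _ (Finsupp.single l s)) = _
  rw [Finsupp.filter_single_of_pos (fun l => pchg D l = d) h]
  rfl

lemma prj_single_ne {d : D.I → ℤ} {l : B D → ℤ} (h : pchg D l ≠ d) (s : S D (Fin D.rk)) :
    prj D d (AddMonoidAlgebra.single l s) = 0 := by
  change AddMonoidAlgebra.ofCoeff (Finsupp.filter _ (Finsupp.single l s)) = _
  rw [Finsupp.filter_single_of_neg (fun l => pchg D l = d) h]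
  rfl

lemma prj_Mc {d : D.I → ℤ} {y : MA D} (h : y ∈ Mc D d) : prj D d y = y := by
  induction h using Submodule.span_induction with
  | mem y hy => obtain ⟨l, s, hl, rfl⟩ := hy; exact prj_single_of D hl s
  | zero => rw [map_zero]
  | add a b _ _ ha hb => rw [map_add, ha, hb]
  | smul c a _ ha => rw [map_smul, ha]

lemma prj_Mc_ne {d d' : D.I → ℤ} (hd : d' ≠ d) {y : MA D} (h : y ∈ Mc D d') : prj D d y = 0 := by
  induction h using Submodule.span_induction with
  | mem y hy => obtain ⟨l, s, hl, rfl⟩ := hy; exact prj_single_ne D (hl ▸ hd) s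
  | zero => rw [map_zero]
  | add a b _ _ ha hb => rw [map_add, ha, hb, add_zero]
  | smul c a _ ha => rw [map_smul, ha, smul_zero]

lemma prj_eq_zero {d : D.I → ℤ} {y : MA D} (h : ∀ l, pchg D l = d → y.coeff l = 0) :
    prj D d y = 0 := by
  change AddMonoidAlgebra.ofCoeff (Finsupp.filter _ y.coeff) = _
  have : Finsupp.filter (fun l => pchg D l = d) y.coeff = 0 := by
    rw [Finsupp.filter_eq_zero_iff]
    exact h
  rw [this]
  rfl

/-! ### products of slots -/

lemma U_le_Mc (ε : ℕ) (n : D.I → ℕ) : U (wF D) ε n ≤ Mc D (fun i => (n i : ℤ)) := by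
  rintro y ⟨φ, hφ, rfl⟩
  change ∑ A, AddMonoidAlgebra.single (ind D A) (φ A * (e (wF D) A * zs (wF D) A ^ ε)) ∈ _
  refine Submodule.sum_mem _ fun A _ => ?_
  by_cases hA : typ D A = n
  · exact Submodule.subset_span ⟨_, _, by rw [pchg_ind, hA], rfl⟩
  · rw [hφ.2 A hA, zero_mul, AddMonoidAlgebra.single_zero]
    exact Submodule.zero_mem _

/-- product of the slot spaces of a multiset of types -/
noncomputable def PA (ε : ℕ) (s : Multiset (D.I → ℕ)) : Submodule ℂ (MA D) :=
  (s.map (U (wF D) ε)).prod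

lemma PA_add (ε : ℕ) (s t : Multiset (D.I → ℕ)) : PA D ε (s + t) = PA D ε s * PA D ε t := by
  rw [PA, Multiset.map_add, Multiset.prod_add, PA, PA]

lemma PA_le_Mc (ε : ℕ) (s : Multiset (D.I → ℕ)) : PA D ε s ≤ Mc D (fun i => ((s.sum i : ℕ) : ℤ)) := by
  induction s using Multiset.induction_on with
  | empty =>
    rw [PA, Multiset.map_zero, Multiset.prod_zero, Submodule.one_le]
    refine Submodule.subset_span ⟨0, 1, ?_, rfl⟩
    funext i
    simp [pchg]
  | cons n s ih =>
    rw [PA, Multiset.map_cons, Multiset.prod_cons, Multiset.sum_cons]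
    refine (mul_le_mul' (U_le_Mc D ε n) ih).trans ((Mc_mul D _ _).trans (le_of_eq ?_))
    congr 1

/-- pairs of multisets of types -/
abbrev MP : Type := Multiset (D.I → ℕ) × Multiset (D.I → ℕ)

/-- products of `N` plain and `N` other slots, with a condition on the types -/
noncomputable def VQ (Q : MP D → Prop) (N : ℕ) : Submodule ℂ (MA D) :=
  ⨆ p : MP D, ⨆ _ : Multiset.card p.1 = N ∧ Multiset.card p.2 = N ∧ Q p,
    PA D 0 p.1 * PA D 1 p.2

/-- not all types are trivial -/
def NT (p : MP D) : Prop := ¬ ((∀ n ∈ p.1, n = D.v) ∧ ∀ n ∈ p.2, n = 0)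

lemma VQ_mul {Q Q' Q'' : MP D → Prop} (h : ∀ p q, Q p → Q' q → Q'' (p + q)) (N N' : ℕ) :
    VQ D Q N * VQ D Q' N' ≤ VQ D Q'' (N + N') := by
  simp only [VQ, Submodule.iSup_mul, Submodule.mul_iSup, iSup_le_iff]
  rintro q ⟨h4, h5, h6⟩ p ⟨h1, h2, h3⟩
  refine le_iSup₂_of_le (p + q) ⟨?_, ?_, h p q h3 h6⟩ ?_
  · rw [Prod.fst_add, Multiset.card_add, h1, h4]
  · rw [Prod.snd_add, Multiset.card_add, h2, h5]
  · rw [Prod.fst_add, Prod.snd_add, PA_add, PA_add]
    exact le_of_eq (mul_mul_mul_comm (G := Submodule ℂ (MA D)) _ _ _ _)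

lemma VQ_mono {Q Q' : MP D → Prop} (h : ∀ p, Q p → Q' p) (N : ℕ) : VQ D Q N ≤ VQ D Q' N := by
  refine iSup₂_le fun p hp => ?_
  exact le_iSup₂_of_le p ⟨hp.1, hp.2.1, h p hp.2.2⟩ le_rfl

/-- all products -/
noncomputable abbrev VT (N : ℕ) : Submodule ℂ (MA D) := VQ D (fun _ => True) N

/-- nontrivial products -/
noncomputable abbrev VN (N : ℕ) : Submodule ℂ (MA D) := VQ D (NT D) N

lemma VT_mul (N N' : ℕ) : VT D N * VT D N' ≤ VT D (N + N') := VQ_mul D (fun _ _ _ _ => trivial) N N'

lemma VT_VN (N N' : ℕ) : VT D N * VN D N' ≤ VN D (N + N') := by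
  refine VQ_mul D (fun p q _ hq hpq => hq ⟨fun n hn => ?_, fun n hn => ?_⟩) N N'
  · exact hpq.1 n (by rw [Prod.fst_add]; exact Multiset.mem_add.2 (Or.inr hn))
  · exact hpq.2 n (by rw [Prod.snd_add]; exact Multiset.mem_add.2 (Or.inr hn))

lemma slot_mem_VT {n m : D.I → ℕ} {a b : MA D} (ha : a ∈ U (wF D) 0 n) (hb : b ∈ U (wF D) 1 m) :
    a * b ∈ VT D 1 := by
  have h1 : PA D 0 {n} * PA D 1 {m} ≤ VT D 1 :=
    le_iSup₂_of_le (({n}, {m}) : MP D) ⟨rfl, rfl, trivial⟩ le_rfl
  refine h1 (Submodule.mul_mem_mul ?_ ?_)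
  · rw [PA, Multiset.map_singleton, Multiset.prod_singleton]; exact ha
  · rw [PA, Multiset.map_singleton, Multiset.prod_singleton]; exact hb

/-- the projection of a nontrivial product is nontrivial -/
lemma prj_VN (d : D.I → ℤ) {N : ℕ} {y : MA D} (h : y ∈ VN D N) : prj D d y ∈ VN D N := by
  have h1 : (VN D N).map (prj D d) ≤ VN D N := by
    simp only [VN, VQ, Submodule.map_iSup, iSup_le_iff]
    rintro p hp
    rintro z ⟨y, hy, rfl⟩
    have h2 : PA D 0 p.1 * PA D 1 p.2 ≤ Mc D ((fun i => ((p.1.sum i : ℕ) : ℤ)) +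
        fun i => ((p.2.sum i : ℕ) : ℤ)) :=
      (mul_le_mul' (PA_le_Mc D 0 p.1) (PA_le_Mc D 1 p.2)).trans (Mc_mul D _ _)
    by_cases hd : ((fun i => ((p.1.sum i : ℕ) : ℤ)) + fun i => ((p.2.sum i : ℕ) : ℤ)) = d
    · rw [prj_Mc D (hd ▸ h2 hy)]
      exact (le_iSup₂_of_le (f := fun (p : MP D) (_ : Multiset.card p.1 = N ∧
        Multiset.card p.2 = N ∧ NT D p) => PA D 0 p.1 * PA D 1 p.2) p hp le_rfl) hy
    · rw [prj_Mc_ne D hd (h2 hy)]
      exact Submodule.zero_mem _
  exact h1 ⟨y, h, rfl⟩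

/-- decomposition of a product -/
lemma VT_decomp {N : ℕ} {y : MA D} (h : y ∈ VT D N) : ∃ y' ∈ VN D N, ∃ z ∈
    Mc D (fun i => ((N * D.v i : ℕ) : ℤ)), y = y' + z := by
  have h1 : VT D N ≤ VN D N ⊔ Mc D (fun i => ((N * D.v i : ℕ) : ℤ)) := by
    refine iSup₂_le fun p hp => ?_
    by_cases hn : NT D p
    · exact le_sup_of_le_left (le_iSup₂_of_le p ⟨hp.1, hp.2.1, hn⟩ le_rfl)
    · refine le_sup_of_le_right ?_
      rw [NT, not_not] at hn
      refine (mul_le_mul' (PA_le_Mc D 0 p.1) (PA_le_Mc D 1 p.2)).trans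
        ((Mc_mul D _ _).trans (le_of_eq ?_))
      congr 1
      funext i
      have e1 : p.1 = Multiset.replicate N D.v := Multiset.eq_replicate.2 ⟨hp.1, hn.1⟩
      have e2 : p.2 = Multiset.replicate N 0 := Multiset.eq_replicate.2 ⟨hp.2.1, hn.2⟩
      rw [Pi.add_apply, e1, e2, Multiset.sum_replicate, Multiset.sum_replicate]
      simp
  obtain ⟨y', hy', z, hz, rfl⟩ := Submodule.mem_sup.1 (h1 h)
  exact ⟨y', hy', z, hz, rfl⟩

/-- a product without component of charge `N v` is nontrivial -/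
lemma VN_of_VT {N : ℕ} {y : MA D} (h : y ∈ VT D N)
    (h0 : prj D (fun i => ((N * D.v i : ℕ) : ℤ)) y = 0) : y ∈ VN D N := by
  obtain ⟨y', hy', z, hz, rfl⟩ := VT_decomp D h
  rw [map_add, prj_Mc D hz] at h0
  have : y' + z = y' - prj D (fun i => ((N * D.v i : ℕ) : ℤ)) y' := by
    rw [sub_eq_add_neg, ← eq_neg_of_add_eq_zero_right h0]
  rw [this]
  exact Submodule.sub_mem _ hy' (prj_VN D _ hy')

/-! ### from multisets to sequences -/

lemma prod_getD {M : Type*} [CommMonoid M] (g : (D.I → ℕ) → M) (l : List (D.I → ℕ)) :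
    (l.map g).prod = ∏ j ∈ Finset.range l.length, g (l.getD j 0) := by
  induction l with
  | nil => simp
  | cons a l ih =>
    rw [List.map_cons, List.prod_cons, List.length_cons, Finset.prod_range_succ', ih, mul_comm]
    rfl

lemma sum_getD (l : List (D.I → ℕ)) : l.sum = ∑ j ∈ Finset.range l.length, l.getD j 0 := by
  induction l with
  | nil => simp
  | cons a l ih =>
    rw [List.sum_cons, List.length_cons, Finset.sum_range_succ', ih, add_comm]
    rfl

lemma VN_seq {N : ℕ} {y : MA D} (h : y ∈ VN D N)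
    (hy : prj D (fun i => ((N * D.v i : ℕ) : ℤ)) y = y) :
    y ∈ ⨆ n : ℕ → D.I → ℕ, ⨆ _ : seqOK (2 * N) N n, UU (wF D) (ep N) (2 * N) n := by
  rw [← hy]
  have h1 : (VN D N).map (prj D (fun i => ((N * D.v i : ℕ) : ℤ))) ≤
      ⨆ n : ℕ → D.I → ℕ, ⨆ _ : seqOK (2 * N) N n, UU (wF D) (ep N) (2 * N) n := by
    simp only [VN, VQ, Submodule.map_iSup]
    refine iSup₂_le ?_
    rintro p ⟨hp1, hp2, hp3⟩
    have h2 : PA D 0 p.1 * PA D 1 p.2 ≤ Mc D ((fun i => ((p.1.sum i : ℕ) : ℤ)) +
        fun i => ((p.2.sum i : ℕ) : ℤ)) :=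
      (mul_le_mul' (PA_le_Mc D 0 p.1) (PA_le_Mc D 1 p.2)).trans (Mc_mul D _ _)
    rintro z ⟨y, hy, rfl⟩
    by_cases hd : ((fun i => ((p.1.sum i : ℕ) : ℤ)) + fun i => ((p.2.sum i : ℕ) : ℤ)) =
        fun i => ((N * D.v i : ℕ) : ℤ)
    · rw [prj_Mc D (hd ▸ h2 hy)]
      obtain ⟨s, t⟩ := p
      obtain ⟨l1, rfl⟩ := Quot.exists_rep s
      obtain ⟨l2, rfl⟩ := Quot.exists_rep t
      have e1 : l1.length = N := hp1
      have e2 : l2.length = N := hp2
      have e3 : (l1 ++ l2).length = 2 * N := by rw [List.length_append, e1, e2, two_mul]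
      have g1 : ∀ j ∈ Finset.range N, (l1 ++ l2).getD j 0 = l1.getD j 0 := by
        intro j hj
        rw [Finset.mem_range] at hj
        rw [List.getD_append _ _ _ _ (by omega)]
      have g2 : ∀ j ∈ Finset.range N, (l1 ++ l2).getD (N + j) 0 = l2.getD j 0 := by
        intro j hj
        rw [List.getD_append_right _ _ _ _ (by omega)]
        congr 1
        omega
      have hle : PA D 0 (Quot.mk _ l1) * PA D 1 (Quot.mk _ l2) ≤
          ⨆ n : ℕ → D.I → ℕ, ⨆ _ : seqOK (2 * N) N n, UU (wF D) (ep N) (2 * N) n := ?_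
      exact hle hy
      refine le_iSup₂_of_le (fun j => (l1 ++ l2).getD j 0) ?_ ?_
      · refine ⟨fun j hj => List.getD_eq_default _ _ (by omega), ?_, ?_⟩
        · rw [← e3, ← sum_getD, List.sum_append]
          funext i
          have h3 := congrFun hd i
          rw [Pi.add_apply] at h3
          have h4 : (Multiset.sum (Quot.mk _ l1 : Multiset (D.I → ℕ))) = l1.sum :=
            Multiset.sum_coe l1
          have h5 : (Multiset.sum (Quot.mk _ l2 : Multiset (D.I → ℕ))) = l2.sum :=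
            Multiset.sum_coe l2
          simp only [h4, h5] at h3
          rw [Pi.add_apply, Pi.smul_apply, smul_eq_mul]
          exact_mod_cast h3
        · intro hT
          apply hp3
          refine ⟨fun n hn => ?_, fun n hn => ?_⟩
          · have hn' : n ∈ l1 := hn
            obtain ⟨j, hj, rfl⟩ := List.getElem_of_mem hn'
            have := congrFun hT j
            simp only [seqT] at this
            rw [if_pos (by omega), g1 j (Finset.mem_range.2 (by omega)),
              List.getD_eq_getElem _ _ hj] at this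
            exact this
          · have hn' : n ∈ l2 := hn
            obtain ⟨j, hj, rfl⟩ := List.getElem_of_mem hn'
            have := congrFun hT (N + j)
            simp only [seqT] at this
            rw [if_neg (by omega), g2 j (Finset.mem_range.2 (by omega)),
              List.getD_eq_getElem _ _ hj] at this
            exact this
      · rw [UU, two_mul, Finset.prod_range_add]
        refine le_of_eq ?_
        congr 1
        · have h3 : PA D 0 (Quot.mk _ l1) = (l1.map (U (wF D) 0)).prod := by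
            change (Multiset.map (U (wF D) 0) (l1 : Multiset (D.I → ℕ))).prod = _
            rw [Multiset.map_coe, Multiset.prod_coe]
          change PA D 0 (Quot.mk _ l1) = _
          rw [h3]
          refine (prod_getD D (U (wF D) 0) l1).trans ?_
          rw [e1]
          refine Finset.prod_congr rfl fun j hj => ?_
          rw [g1 j hj, ep, if_pos (Finset.mem_range.1 hj)]
        · have h3 : PA D 1 (Quot.mk _ l2) = (l2.map (U (wF D) 1)).prod := by
            change (Multiset.map (U (wF D) 1) (l2 : Multiset (D.I → ℕ))).prod = _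
            rw [Multiset.map_coe, Multiset.prod_coe]
          change PA D 1 (Quot.mk _ l2) = _
          rw [h3]
          refine (prod_getD D (U (wF D) 1) l2).trans ?_
          rw [e2]
          refine Finset.prod_congr rfl fun j hj => ?_
          rw [g2 j hj, ep, if_neg (by omega)]
    · rw [prj_Mc_ne D hd (h2 hy)]
      exact Submodule.zero_mem _
  exact h1 ⟨y, h, rfl⟩

/-! ### the padding element -/

/-- `del² u^1` -/
noncomputable def Tt : MA D :=
  AddMonoidAlgebra.single (ind D Finset.univ) (del D (Fin D.rk) ^ 2)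

lemma mp_univ (σ : W D) : mp D σ Finset.univ = Finset.univ := by
  ext b
  rw [mem_mp']
  simp

lemma mp_empty (σ : W D) : mp D σ ∅ = ∅ := by
  ext b
  rw [mem_mp']
  simp

lemma univ_mem_U {s : S D (Fin D.rk)} (hs : ∀ σ : W D, act D (Fin D.rk) σ s = s) :
    AddMonoidAlgebra.single (ind D Finset.univ) (del D (Fin D.rk) * s) ∈ U (wF D) 0 D.v := by
  classical
  refine ⟨fun A => if A = Finset.univ then del D (Fin D.rk) * s else 0, ⟨fun σ A => ?_,
    fun A hA => ?_⟩, ?_⟩
  · by_cases h : A = Finset.univ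
    · subst h
      simp only [mp_univ, if_true]
      rw [map_mul, act_del, hs, mul_assoc]
    · have h2 : mp D σ A ≠ Finset.univ := fun h3 => h (mp_inj D σ (h3.trans (mp_univ D σ).symm))
      simp only [if_neg h, if_neg h2, map_zero, mul_zero]
  · simp only
    rw [if_neg]
    rintro rfl
    exact hA (typ_univ D)
  · change ∑ A, AddMonoidAlgebra.single (ind D A) (_ * (e (wF D) A * zs (wF D) A ^ 0)) = _
    rw [Finset.sum_eq_single Finset.univ]
    · simp only [if_true, e, Finset.compl_univ, Finset.prod_empty, Finset.prod_const_one, pow_zero,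
        mul_one]
    · intro A _ hA
      rw [if_neg hA, zero_mul, AddMonoidAlgebra.single_zero]
    · intro h
      exact absurd (Finset.mem_univ _) h

lemma ind_empty : ind D ∅ = 0 := by
  funext b
  simp [ind]

lemma empty_mem_U :
    AddMonoidAlgebra.single (0 : B D → ℤ) (del D (Fin D.rk)) ∈ U (wF D) 1 0 := by
  classical
  refine ⟨fun A => if A = ∅ then del D (Fin D.rk) else 0, ⟨fun σ A => ?_,
    fun A hA => ?_⟩, ?_⟩
  · by_cases h : A = ∅
    · subst h
      simp only [mp_empty, if_true]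
      rw [act_del]
    · have h2 : mp D σ A ≠ ∅ := fun h3 => h (mp_inj D σ (h3.trans (mp_empty D σ).symm))
      simp only [if_neg h, if_neg h2, map_zero, mul_zero]
  · simp only
    rw [if_neg]
    rintro rfl
    exact hA (typ_empty D)
  · change ∑ A, AddMonoidAlgebra.single (ind D A) (_ * (e (wF D) A * zs (wF D) A ^ 1)) = _
    rw [Finset.sum_eq_single ∅]
    · simp only [if_true, e, zs, Finset.prod_empty, pow_one, mul_one, ind_empty]
    · intro A _ hA
      rw [if_neg hA, zero_mul, AddMonoidAlgebra.single_zero]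
    · intro h
      exact absurd (Finset.mem_univ _) h

lemma Tt_eq : Tt D = AddMonoidAlgebra.single (ind D Finset.univ) (del D (Fin D.rk) * 1) *
    AddMonoidAlgebra.single (0 : B D → ℤ) (del D (Fin D.rk)) := by
  rw [AddMonoidAlgebra.single_mul_single, add_zero, mul_one, ← sq, Tt]

lemma Tt_mem : Tt D ∈ VT D 1 := by
  rw [Tt_eq]
  exact slot_mem_VT D (univ_mem_U D fun σ => map_one _) (empty_mem_U D)

lemma one_mem_VT : (1 : MA D) ∈ VT D 0 := by
  have h1 : PA D 0 0 * PA D 1 0 ≤ VT D 0 :=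
    le_iSup₂_of_le ((0, 0) : MP D) ⟨rfl, rfl, trivial⟩ le_rfl
  refine h1 ?_
  rw [PA, PA, Multiset.map_zero, Multiset.map_zero, Multiset.prod_zero]
  have h3 : (1 : MA D) ∈ (1 : Submodule ℂ (MA D)) := Submodule.one_le.1 le_rfl
  have h2 := Submodule.mul_mem_mul h3 h3
  rwa [show (1 : MA D) * 1 = 1 from one_mul 1] at h2

lemma Tt_pow_mem (k : ℕ) : Tt D ^ k ∈ VT D k := by
  induction k with
  | zero => rw [pow_zero]; exact one_mem_VT D
  | succ k ih =>
    rw [pow_succ]
    exact VT_mul D k 1 (Submodule.mul_mem_mul ih (Tt_mem D))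

lemma Tt_pow (k : ℕ) : Tt D ^ k =
    AddMonoidAlgebra.single (k • ind D Finset.univ) (del D (Fin D.rk) ^ (2 * k)) := by
  rw [Tt, AddMonoidAlgebra.single_pow, ← pow_mul]

lemma pchg_nsmul_univ (k : ℕ) :
    pchg D (k • ind D Finset.univ) = fun i => ((k * D.v i : ℕ) : ℤ) := by
  funext i
  have h := congrFun (pchg_ind D Finset.univ) i
  rw [typ_univ] at h
  rw [pchg] at h ⊢
  simp only [Pi.smul_apply]
  rw [← Finset.smul_sum, h]
  simp

section
variable {K L : Type} [Field K] [Algebra ℂ K] [CommRing L] [Algebra K L]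
  (x : B D → K) (y : Fin D.rk → K) (u : Module.Basis (B D → ℤ) K L)
  (hxy : AlgebraicIndependent ℂ (Sum.elim x y)) (hu : ∀ l l', u (l + l') = u l * u l')
  (ν : D.I → ℤ)

include hu in
lemma pu_zero : u 0 = 1 := by
  have h : ∀ a : L, u 0 * a = a := by
    intro a
    have h1 : (LinearMap.mulLeft K (u 0)) = LinearMap.id := by
      apply u.ext
      intro l
      rw [LinearMap.mulLeft_apply, ← hu, zero_add, LinearMap.id_apply]
    have h2 := congrArg (fun g => g a) h1
    exact h2
  rw [← mul_one (u 0), h 1]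

/-- evaluation of the coefficients -/
noncomputable def Th : MA D →+* L :=
  AddMonoidAlgebra.liftNCRingHom ((algebraMap K L).comp (EV D x y).toRingHom)
    { toFun := fun l => u (Multiplicative.toAdd l)
      map_one' := pu_zero D u hu
      map_mul' := fun _ _ => hu _ _ }
    (fun _ _ => Commute.all _ _)

lemma Th_single (l : B D → ℤ) (s : S D (Fin D.rk)) :
    Th D x y u hu (AddMonoidAlgebra.single l s) = EV D x y s • u l := by
  rw [Algebra.smul_def]
  exact AddMonoidAlgebra.liftNC_single _ _ _ _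

lemma repr_Th (Y : MA D) (l : B D → ℤ) :
    u.repr (Th D x y u hu Y) l = EV D x y (Y.coeff l) := by
  classical
  induction Y using AddMonoidAlgebra.induction_linear with
  | zero => simp
  | add a b ha hb =>
    rw [map_add, map_add, Finsupp.add_apply, ha, hb, AddMonoidAlgebra.coeff_add, Finsupp.add_apply,
      map_add]
  | single l' s =>
    rw [Th_single, map_smul, Finsupp.smul_apply, Module.Basis.repr_self,
      AddMonoidAlgebra.coeff_single, Finsupp.single_apply, Finsupp.single_apply]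
    split_ifs
    · rw [smul_eq_mul, mul_one]
    · rw [smul_zero, map_zero]

include hxy in
lemma Th_inj : Function.Injective (Th D x y u hu) := by
  intro Y Z h
  apply AddMonoidAlgebra.coeff_injective
  ext1 l
  apply EV_inj D x y hxy
  rw [← repr_Th D x y u hu, ← repr_Th D x y u hu, h]

lemma Th_Tt : Th D x y u hu (Tt D) = (EV D x y (del D (Fin D.rk)) ^ 2) • u (ind D Finset.univ) := by
  rw [Tt, Th_single, map_pow]

lemma ind_comp (σ : W D) (A : Finset (B D)) : ind D A ∘ (perm D σ).symm = ind D (mp D σ A) := by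
  funext b
  simp only [Function.comp, ind, mem_mp']

lemma Th_slot (ε : ℕ) (A₀ : Finset (B D)) (h : S D (Fin D.rk)) :
    Th D x y u hu (slot (wF D) ε (orb D (Fin D.rk) A₀ h)) =
      ∑ τ : W D, ((sgn D τ : K) * EV D x y (act D (Fin D.rk) τ
        (h * (e (wF D) A₀ * zs (wF D) A₀ ^ ε)))) • u (ind D (mp D τ A₀)) := by
  classical
  change Th D x y u hu (∑ A, AddMonoidAlgebra.single (ind D A)
    (orb D (Fin D.rk) A₀ h A * (e (wF D) A * zs (wF D) A ^ ε))) = _
  rw [map_sum]
  have h1 : ∀ A : Finset (B D), Th D x y u hu (AddMonoidAlgebra.single (ind D A)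
      (orb D (Fin D.rk) A₀ h A * (e (wF D) A * zs (wF D) A ^ ε))) =
      ∑ τ : W D, if mp D τ A₀ = A then ((sgn D τ : K) * EV D x y (act D (Fin D.rk) τ
        (h * (e (wF D) A₀ * zs (wF D) A₀ ^ ε)))) • u (ind D (mp D τ A₀)) else 0 := by
    intro A
    rw [Th_single, orb, Finset.sum_mul, map_sum, Finset.sum_smul]
    refine Finset.sum_congr rfl fun τ _ => ?_
    split_ifs with hA
    · subst hA
      congr 1
      rw [map_mul (act D (Fin D.rk) τ), map_mul (act D (Fin D.rk) τ), map_pow, act_e, act_zs,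
        mul_assoc, map_mul, map_intCast]
    · rw [zero_mul, map_zero, zero_smul]
  rw [Finset.sum_congr rfl fun A _ => h1 A, Finset.sum_comm]
  refine Finset.sum_congr rfl fun τ _ => ?_
  rw [Finset.sum_ite_eq Finset.univ (mp D τ A₀), if_pos (Finset.mem_univ _)]

lemma Th_slot_pos (A₀ : Finset (B D)) (h : S D (Fin D.rk)) :
    Th D x y u hu (slot (wF D) 1 (orb D (Fin D.rk) A₀ h)) = TT D x y u (ind D A₀) h := by
  rw [Th_slot, TT]
  refine Finset.sum_congr rfl fun τ _ => ?_
  rw [ind_comp, eul_ind, pow_one]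
  rfl

lemma Th_slot_neg (A₀ : Finset (B D)) (h : S D (Fin D.rk)) :
    Th D x y u hu (slot (wF D) 0 (orb D (Fin D.rk) A₀ᶜ h)) =
      u (ind D Finset.univ) * TT D x y u (-ind D A₀) h := by
  rw [Th_slot, TT, Finset.mul_sum]
  refine Finset.sum_congr rfl fun τ _ => ?_
  rw [eul_neg_ind, pow_zero, mul_one, mul_smul_comm, ← hu]
  congr 2
  funext b
  have h1 := congrFun (ind_comp D τ A₀) b
  have h2 : (-ind D A₀ ∘ (perm D τ).symm) b = -((ind D A₀ ∘ (perm D τ).symm) b) := rfl
  have h3 : ((-ind D A₀) ∘ (perm D τ).symm) b = -((ind D A₀ ∘ (perm D τ).symm) b) := rfl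
  rw [Pi.add_apply, h3, h1, mp_compl]
  simp only [ind, Finset.mem_univ, if_true, Finset.mem_compl]
  split_ifs <;> simp_all

/-- `a`, multiplied with a power of `del² u^1`, comes from a product of slots -/
def GoodP (Q : MP D → Prop) (a : L) : Prop :=
  ∃ N, ∃ Y ∈ VQ D Q N, Th D x y u hu Y = Th D x y u hu (Tt D) ^ N * a

lemma lift_T (N k : ℕ) {Y : MA D} (hY : Y ∈ VT D N) : Tt D ^ k * Y ∈ VT D (k + N) :=
  VT_mul D k N (Submodule.mul_mem_mul (Tt_pow_mem D k) hY)

lemma lift_N (N k : ℕ) {Y : MA D} (hY : Y ∈ VN D N) : Tt D ^ k * Y ∈ VN D (k + N) :=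
  VT_VN D k N (Submodule.mul_mem_mul (Tt_pow_mem D k) hY)

lemma GoodP_add {Q : MP D → Prop} (hQ : ∀ (N k : ℕ) {Y : MA D}, Y ∈ VQ D Q N →
    Tt D ^ k * Y ∈ VQ D Q (k + N)) {a b : L} (ha : GoodP D x y u hu Q a)
    (hb : GoodP D x y u hu Q b) : GoodP D x y u hu Q (a + b) := by
  obtain ⟨N, Y, hY, hY'⟩ := ha
  obtain ⟨N', Y', hZ, hZ'⟩ := hb
  refine ⟨N + N', Tt D ^ N' * Y + Tt D ^ N * Y', Submodule.add_mem _ ?_ (hQ N' N hZ), ?_⟩
  · rw [add_comm N]; exact hQ N N' hY
  · rw [map_add, map_mul, map_mul, map_pow, map_pow, hY', hZ']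
    ring

lemma GoodP_neg {Q : MP D → Prop} {a : L} (ha : GoodP D x y u hu Q a) :
    GoodP D x y u hu Q (-a) := by
  obtain ⟨N, Y, hY, hY'⟩ := ha
  exact ⟨N, -Y, Submodule.neg_mem _ hY, by rw [map_neg, hY', mul_neg]⟩

lemma GoodP_zero {Q : MP D → Prop} : GoodP D x y u hu Q 0 :=
  ⟨0, 0, Submodule.zero_mem _, by rw [map_zero, mul_zero]⟩

lemma GoodP_mul {Q Q' : MP D → Prop} (h : ∀ p q, Q p → Q' q → Q' (p + q)) {a b : L}
    (ha : GoodP D x y u hu Q a) (hb : GoodP D x y u hu Q' b) : GoodP D x y u hu Q' (a * b) := by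
  obtain ⟨N, Y, hY, hY'⟩ := ha
  obtain ⟨N', Y', hZ, hZ'⟩ := hb
  refine ⟨N + N', Y * Y', VQ_mul D h N N' (Submodule.mul_mem_mul hY hZ), ?_⟩
  rw [map_mul, hY', hZ']
  ring

lemma algebraMap_eq (f : S D (Fin D.rk)) :
    algebraMap K L (EV D x y f) = Th D x y u hu (AddMonoidAlgebra.single 0 f) := by
  rw [Th_single, pu_zero D u hu, Algebra.algebraMap_eq_smul_one]

include hxy in
lemma good_mono_pos (A₀ : Finset (B D)) (f : P D) :
    GoodP D x y u hu (fun _ => True) (mono D x y u (ind D A₀) f) := by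
  have hl : ∀ b b', ind D A₀ b - ind D A₀ b' ≤ 1 := by
    intro b b'
    simp only [ind]
    split_ifs <;> norm_num
  obtain ⟨h, hh⟩ := mono_TT D x y u hxy (ind D A₀) hl f
  refine ⟨1, _, slot_mem_VT D (univ_mem_U D (s := 1) fun σ => map_one _)
    (n := D.v) (m := typ D A₀) ⟨_, orb_mem D (Fin D.rk) A₀ h, rfl⟩, ?_⟩
  rw [map_mul, Th_single, Th_slot_pos, hh, Th_Tt, pow_one, mul_one]
  have h1 : EV D x y (del D (Fin D.rk)) ≠ 0 := EV_Del_ne D x y hxy
  have h2 : EV D x y (Del D) = EV D x y (del D (Fin D.rk)) := rfl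
  rw [h2, smul_mul_smul_comm, smul_mul_assoc]
  congr 1
  field_simp

include hxy in
lemma good_mono_neg (A₀ : Finset (B D)) (f : P D) :
    GoodP D x y u hu (fun _ => True) (mono D x y u (-ind D A₀) f) := by
  have hl : ∀ b b', (-ind D A₀) b - (-ind D A₀) b' ≤ 1 := by
    intro b b'
    simp only [ind, Pi.neg_apply]
    split_ifs <;> norm_num
  obtain ⟨h, hh⟩ := mono_TT D x y u hxy (-ind D A₀) hl f
  refine ⟨1, _, slot_mem_VT D (n := typ D A₀ᶜ) (m := 0)
    ⟨_, orb_mem D (Fin D.rk) A₀ᶜ h, rfl⟩ (empty_mem_U D), ?_⟩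
  rw [map_mul, Th_single, Th_slot_neg, hh, Th_Tt, pow_one, pu_zero D u hu]
  have h1 : EV D x y (del D (Fin D.rk)) ≠ 0 := EV_Del_ne D x y hxy
  have h2 : EV D x y (Del D) = EV D x y (del D (Fin D.rk)) := rfl
  rw [h2, smul_mul_smul_comm, mul_smul_comm, mul_one]
  congr 1
  field_simp

include hxy in
lemma good_R {r : K} (hr : r ∈ R D x y) :
    GoodP D x y u hu (fun _ => True) (algebraMap K L r) := by
  obtain ⟨f, hf⟩ := hr
  have h1 : ∀ σ : W D, act D (Fin D.rk) σ f = f := by
    intro σ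
    apply EV_inj D x y hxy
    have e1 : EV D x y (act D (Fin D.rk) σ f) = r := by
      rw [← hf σ, pol_act]; rfl
    have e2 : EV D x y (act D (Fin D.rk) 1 f) = r := by
      rw [← hf 1, pol_act]; rfl
    rw [act_one] at e2
    rw [e1, e2]
  have h2 : r = EV D x y f := by
    rw [← hf 1, pol_act]
    congr 1
    exact act_one D (Fin D.rk) f
  refine ⟨1, _, slot_mem_VT D (univ_mem_U D h1) (empty_mem_U D), ?_⟩
  rw [h2, algebraMap_eq D x y u hu, pow_one, ← map_mul, Tt, AddMonoidAlgebra.single_mul_single,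
    AddMonoidAlgebra.single_mul_single]
  congr 2
  ring

include hxy in
lemma coulomb_good {a : L} (ha : a ∈ coulomb D x y u) :
    GoodP D x y u hu (fun _ => True) a := by
  induction ha using Subring.closure_induction with
  | mem a ha =>
    rcases ha with ⟨r, hr, rfl⟩ | ⟨l, f, hl, h⟩
    · exact good_R D x y u hxy hu hr
    · classical
      have h1 : l = ind D (Finset.univ.filter fun b => l b = 1) := by
        funext b
        rcases hl b with h | h <;> simp [ind, h]
      rw [h1] at h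
      rcases h with rfl | rfl
      · exact good_mono_pos D x y u hxy hu _ f
      · exact good_mono_neg D x y u hxy hu _ f
  | zero => exact GoodP_zero D x y u hu
  | one => exact ⟨0, 1, one_mem_VT D, by rw [map_one, pow_zero, one_mul]⟩
  | add a b _ _ ha hb => exact GoodP_add D x y u hu (fun N k {_} h => lift_T D N k h) ha hb
  | neg a _ ha => exact GoodP_neg D x y u hu ha
  | mul a b _ _ ha hb => exact GoodP_mul D x y u hu (fun _ _ _ _ => trivial) ha hb

include hu in
lemma span_shift {m : ℤ} {b : L} (hb : b ∈ Submodule.span K (u '' {l | wt D ν l = m}))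
    (l₀ : B D → ℤ) :
    u l₀ * b ∈ Submodule.span K (u '' {l | wt D ν l = wt D ν l₀ + m}) := by
  induction hb using Submodule.span_induction with
  | mem b hb =>
    obtain ⟨l, hl, rfl⟩ := hb
    rw [← hu]
    refine Submodule.subset_span ⟨l₀ + l, ?_, rfl⟩
    have hl' : wt D ν l = m := hl
    change wt D ν (l₀ + l) = _
    rw [← hl', wt, wt, wt, ← Finset.sum_add_distrib]
    exact Finset.sum_congr rfl fun b _ => by rw [Pi.add_apply, mul_add]
  | zero => rw [mul_zero]; exact Submodule.zero_mem _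
  | add a b _ _ ha hb => rw [mul_add]; exact Submodule.add_mem _ ha hb
  | smul c a _ ha => rw [mul_smul_comm]; exact Submodule.smul_mem _ _ ha

include hxy in
lemma coulomb_nt {b : L} (hb : b ∈ coulomb D x y u) {m : ℤ} (hm : m ≠ 0)
    (hbm : b ∈ Submodule.span K (u '' {l | wt D ν l = m})) : GoodP D x y u hu (NT D) b := by
  obtain ⟨N, Y, hY, hY'⟩ := coulomb_good D x y u hxy hu hb
  refine ⟨N, Y, VN_of_VT D hY (prj_eq_zero D fun l hl => ?_), hY'⟩
  apply EV_inj D x y hxy
  rw [← repr_Th D x y u hu, hY', ← map_pow, Tt_pow, Th_single, map_zero, smul_mul_assoc, map_smul,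
    Finsupp.smul_apply]
  have h1 := span_shift D u hu ν hbm (N • ind D Finset.univ)
  rw [Module.Basis.mem_span_image] at h1
  have h2 : u.repr (u (N • ind D Finset.univ) * b) l = 0 := by
    by_contra hne
    have h3 := h1 (Finsupp.mem_support_iff.2 hne)
    have h4 : wt D ν l = wt D ν (N • ind D Finset.univ) + m := h3
    rw [pwt_chg, pwt_chg, hl, pchg_nsmul_univ] at h4
    exact hm (by linarith)
  rw [h2, smul_zero]

include hxy in
lemma fixI_nt {c : L} (hc : c ∈ fixI D x y u ν) : GoodP D x y u hu (NT D) c := by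
  induction hc using AddSubgroup.closure_induction with
  | mem c hc =>
    obtain ⟨a, ha, b, hb, m, hm, hbm, rfl⟩ := hc
    refine GoodP_mul D x y u hu (fun p q _ hq hpq => hq ⟨fun n hn => ?_, fun n hn => ?_⟩)
      (coulomb_good D x y u hxy hu ha) (coulomb_nt D x y u hxy hu ν hb hm hbm)
    · exact hpq.1 n (by rw [Prod.fst_add]; exact Multiset.mem_add.2 (Or.inr hn))
    · exact hpq.2 n (by rw [Prod.snd_add]; exact Multiset.mem_add.2 (Or.inr hn))
  | zero => exact GoodP_zero D x y u hu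
  | add a b _ _ ha hb => exact GoodP_add D x y u hu (fun N k {_} h => lift_N D N k h) ha hb
  | neg a _ ha => exact GoodP_neg D x y u hu ha

end

end PadAux

section
variable {K L : Type} [Field K] [Algebra ℂ K] [CommRing L] [Algebra K L]
  (x : B D → K) (y : Fin D.rk → K) (u : Module.Basis (B D → ℤ) K L)
  (hxy : AlgebraicIndependent ℂ (Sum.elim x y)) (hu : ∀ l l', u (l + l') = u l * u l')
  (ν : D.I → ℤ)

open PadAux

include hxy hu in
/-- Every element of `fixI`, after multiplication with a power of `del` and of `u^1`, comes from a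
sum of products of slots, not all of them trivial; an invariant polynomial has charge zero.

Proof. Let `Θ : AddMonoidAlgebra (S D (Fin rk)) (B D → ℤ) → L`, `single l s ↦ EV s • u l`, an
injective ring homomorphism (`EV_inj`, `u` a basis, `hu`; `GMain.u_zero`, or
`AddMonoidAlgebra.liftNCRingHom`). Put `𝔸 = ⨆ n, U w 0 n`, `𝔹 = ⨆ n, U w 1 n`,
`𝔸' = ⨆ n ≠ v, U w 0 n`, `𝔹' = ⨆ n ≠ 0, U w 1 n`, `w = wF D`, `V N = 𝔸^N * 𝔹^N`,
`V' N = 𝔸' * 𝔸^(N-1) * 𝔹^N + 𝔸^N * 𝔹' * 𝔹^(N-1)` (`N ≥ 1`).
(1) For `l = ind A₀` (`Min`), `del • mono l f = Θ (slot 1 (orb A₀ h))` and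
`del • mono (-l) f * u(1) = Θ (slot 0 (fun A => orb A₀ h Aᶜ))` for suitable `h` (`mono_TT`, `TT`,
`eul_ind`, `eul_neg_ind`).
(2) `single 0 del ∈ U 1 0`, `single (ind univ) del ∈ U 0 v`, and `U ε n`, `N ≥ 1` products are stable
under multiplication by invariant polynomials. So for every `a ∈ coulomb` there is `N ≥ 1` with
`del^(2N) • u(N•1) * a ∈ Θ (V N)` (closure induction; `V N * V N' ≤ V (N+N')`, and
`del^2 u(1) V N ≤ V (N+1)`).
(3) `V N = V' N + (U 0 v)^N * (U 1 0)^N`, the last summand consists of elements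
`single (N•1) s`. Every `U ε n` is homogeneous for the charge (`∑_r l ⟨i, r⟩`), and `V' N` is stable
under the projection to any set of charges. If `b ∈ coulomb` is in the span of the `u l` with
`wt l = m ≠ 0` and `del^(2N) • u(N•1) * b = Θ Y`, `Y ∈ V N`, projecting `Y` to the charges `c` with
`ν·c = m + N ν·v` gives `Y ∈ V' N`.
(4) So every `c ∈ fixI` satisfies `del^(2N) • u(N•1) * c ∈ Θ (V' N)` for some `N ≥ 1`
(`V N * V' N' ≤ V' (N+N')`, `del^2 u(1) V' N ≤ V' (N+1)`).
(5) For `c = algebraMap (EV f)`: `single (N•1) (f * del^(2N)) ∈ V' N` by injectivity of `Θ`.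
(6) `V' N` is the sum of the `UU w (ep N) (2N) n` over the `n` (`n j = 0` for `j ≥ 2N`) different
from `seqT N`; project to charge `N • v`. -/
theorem pad {f : S D (Fin D.rk)} (hf : ∀ σ : W D, act D (Fin D.rk) σ f = f)
    (h : algebraMap K L (EV D x y f) ∈ fixI D x y u ν) :
    ∃ N : ℕ, 1 ≤ N ∧ AddMonoidAlgebra.single (N • ind D Finset.univ)
      (f * del D (Fin D.rk) ^ (2 * N)) ∈
        ⨆ n : ℕ → D.I → ℕ, ⨆ _ : seqOK (2 * N) N n, UU (wF D) (ep N) (2 * N) n := by
  obtain ⟨N, Y, hY, hY'⟩ := fixI_nt D x y u hxy hu ν h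
  have h1 : Y = Tt D ^ N * AddMonoidAlgebra.single 0 f := by
    apply Th_inj D x y u hxy hu
    rw [hY', map_mul, map_pow, algebraMap_eq D x y u hu]
  have h2 := lift_N D N 1 hY
  have h3 : Tt D ^ 1 * Y = AddMonoidAlgebra.single ((1 + N) • ind D Finset.univ)
      (f * del D (Fin D.rk) ^ (2 * (1 + N))) := by
    rw [h1, ← mul_assoc, ← pow_add, Tt_pow, AddMonoidAlgebra.single_mul_single, add_zero,
      mul_comm]
  rw [h3] at h2
  exact ⟨1 + N, by omega, VN_seq D h2 (prj_single_of D (pchg_nsmul_univ D (1 + N)) _)⟩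

end

end Vale.Agent.P291.H
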