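import Vale.Agent.P291.H.Reg
import Vale.Agent.P291.H.Lift

set_option autoImplicit false
set_option linter.unusedSectionVars false

/-! The pair lemma. -/

namespace Vale.Agent.P291.H

open MvPolynomial Vale.Agent.P291.G

variable {D : QData} {Z : Type} (w : Wts D Z)

/-! ### auxiliary lemmas -/

/-- `cr` splits in the first argument -/
lemma cr_split {P q : Finset (B D)} (hq : q ⊆ P) (C : Finset (B D)) :
    cr D Z P C = cr D Z q C * cr D Z (P \ q) C := by
  rw [cr, cr, cr, ← Finset.prod_sdiff hq, mul_comm]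

lemma sum_typ_insert {q : Finset (B D)} {b : B D} (hb : b ∉ q) :
    ∑ i, typ D (insert b q) i = (∑ i, typ D q i) + 1 := by
  rw [sum_typ, sum_typ, Finset.card_insert_of_notMem hb]

lemma sgn_mul_self' (σ : W D) : (sgn D σ : S D Z) * (sgn D σ : S D Z) = 1 := by
  have h : sgn D σ * sgn D σ = 1 := by
    rw [sgn, ← Finset.prod_mul_distrib]
    refine Finset.prod_eq_one fun i _ => ?_
    rw [← Units.val_mul, Int.units_mul_self, Units.val_one]
  rw [← Int.cast_mul, h, Int.cast_one]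

/-- the weights in the coefficients -/
lemma wt_ne_zero (ε1 ε2 : ℕ) (P q : Finset (B D)) :
    (e w P * zs w P ^ ε1) * (e w q * zs w q ^ ε2) ≠ 0 :=
  mul_ne_zero (mul_ne_zero (e_ne_zero w P) (pow_ne_zero _ (zs_ne_zero w P)))
    (mul_ne_zero (e_ne_zero w q) (pow_ne_zero _ (zs_ne_zero w q)))

/-- the coefficients of a sum of products of slots -/
lemma coeff_sum_slot {ε1 ε2 : ℕ} (h : ε1 ≤ ε2) {J : Type} (s : Finset J)
    (φ ψ : J → Finset (B D) → S D Z) {P q : Finset (B D)} (hq : q ⊆ P) :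
    (∑ j ∈ s, slot w ε1 (φ j) * slot w ε2 (ψ j)).coeff (ind D P + ind D q) =
      (e w P * zs w P ^ ε1) * (e w q * zs w q ^ ε2) *
        ∑ j ∈ s, GG w (ε2 - ε1) (φ j) (ψ j) P q := by
  rw [AddMonoidAlgebra.coeff_sum, Finsupp.finsetSum_apply, Finset.mul_sum]
  exact Finset.sum_congr rfl fun j _ => coeff_slot_mul w h _ _ hq

/-- equivariance of the sums of reduced coefficients -/
lemma act_sum_GG {J : Type} (s : Finset J) {n1 n2 : J → D.I → ℕ}
    {φ ψ : J → Finset (B D) → S D Z}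
    (hφ : ∀ j, φ j ∈ AF D Z (n1 j)) (hψ : ∀ j, ψ j ∈ AF D Z (n2 j)) (δ : ℕ) (σ : W D)
    (P q : Finset (B D)) :
    act D Z σ (∑ j ∈ s, GG w δ (φ j) (ψ j) P q) =
      ∑ j ∈ s, GG w δ (φ j) (ψ j) (mp D σ P) (mp D σ q) := by
  rw [map_sum]
  exact Finset.sum_congr rfl fun j _ => act_GG w δ (hφ j) (hψ j) σ P q

/-- the sum of reduced coefficients vanishes unless the total type is right -/
lemma sum_GG_ne {J : Type} (s : Finset J) {n1 n2 : J → D.I → ℕ}
    {φ ψ : J → Finset (B D) → S D Z}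
    (hφ : ∀ j, φ j ∈ AF D Z (n1 j)) (hψ : ∀ j, ψ j ∈ AF D Z (n2 j)) (δ : ℕ)
    {P q : Finset (B D)} (hq : q ⊆ P) (h : ∑ j ∈ s, GG w δ (φ j) (ψ j) P q ≠ 0) :
    ∃ j ∈ s, typ D P + typ D q = n1 j + n2 j ∧ typ D q ≤ n1 j ∧ typ D q ≤ n2 j := by
  obtain ⟨j, hj, hne⟩ := Finset.exists_ne_zero_of_sum_ne_zero h
  exact ⟨j, hj, GG_ne w (hφ j) (hψ j) hq hne⟩

/-! ### the lifting step -/

/-- One lifting step: `G` at the nested pairs of the type of `(P, q)` is the reduced coefficient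
of an explicit sum of products of slots. -/
lemma lift_step {J : Type} (s : Finset J) (n1 n2 : J → D.I → ℕ)
    (φ ψ : J → Finset (B D) → S D Z)
    (hφ : ∀ j, φ j ∈ AF D Z (n1 j)) (hψ : ∀ j, ψ j ∈ AF D Z (n2 j)) (δ : ℕ)
    {P q : Finset (B D)} (hq : q ⊆ P) (hN : ∀ j, n1 j + n2 j = typ D P + typ D q)
    (H : ∀ b ∈ P \ q, ∀ c ∈ P \ q, b ≠ c → b.1 = c.1 →
      ∑ j ∈ s, GG w δ (φ j) (ψ j) (P.erase c) (insert b q) = 0) :
    ∃ K : S D Z, ∑ j ∈ s, GG w δ (φ j) (ψ j) P q = Dl D Z P * cr D Z (P \ q) Pᶜ * K ∧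
      (∀ σ, mp D σ P = P → mp D σ q = q → act D Z σ K = (sgn D σ : S D Z) * K) ∧
      ∀ P' q' : Finset (B D), q' ⊆ P' → typ D q' = typ D q →
        ∑ j ∈ s, GG w δ (φ j) (ψ j) P' q' =
          ∑ t ∈ (prs D P q).powerset, GG w δ (liftP D Z P q t)
            (liftQ D Z q t (C ((liftc D P q : ℂ)⁻¹) * K)) P' q' := by
  have hdis : Disjoint q Pᶜ := Finset.disjoint_of_subset_left hq disjoint_compl_right
  have hdis2 : Disjoint (P \ q) Pᶜ :=
    Finset.disjoint_of_subset_left Finset.sdiff_subset disjoint_compl_right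
  have hne1 : cr D Z q Pᶜ ≠ 0 := cr_ne_zero D Z hdis
  have hne2 : Dl D Z P * cr D Z (P \ q) Pᶜ ≠ 0 :=
    mul_ne_zero (Dl_ne_zero D Z P) (cr_ne_zero D Z hdis2)
  obtain ⟨K, hK⟩ : Dl D Z P * cr D Z (P \ q) Pᶜ ∣ ∑ j ∈ s, GG w δ (φ j) (ψ j) P q := by
    have h1 := reg w s n1 n2 φ ψ hφ hψ δ hq H
    have h2 : del D Z = (Dl D Z P * cr D Z (P \ q) Pᶜ) * cr D Z q Pᶜ := by
      rw [Dl_spec D Z P, cr_split hq]; ring
    rw [h2] at h1
    exact (mul_dvd_mul_iff_right hne1).1 h1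
  have halt : ∀ σ, mp D σ P = P → mp D σ q = q → act D Z σ K = (sgn D σ : S D Z) * K := by
    intro σ hσP hσq
    have h1 := act_sum_GG w s hφ hψ δ σ P q
    rw [hσP, hσq, hK, map_mul, map_mul, act_Dl, act_cr, mp_sdiff, mp_compl, hσP, hσq] at h1
    have h2 : Dl D Z P * cr D Z (P \ q) Pᶜ * ((sgn D σ : S D Z) * act D Z σ K) =
        Dl D Z P * cr D Z (P \ q) Pᶜ * K := by
      rw [← h1]; ring
    have h3 := mul_left_cancel₀ hne2 h2
    calc act D Z σ K = ((sgn D σ : S D Z) * (sgn D σ : S D Z)) * act D Z σ K := by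
          rw [sgn_mul_self', one_mul]
      _ = (sgn D σ : S D Z) * ((sgn D σ : S D Z) * act D Z σ K) := by rw [mul_assoc]
      _ = (sgn D σ : S D Z) * K := by rw [h3]
  refine ⟨K, hK, halt, ?_⟩
  set c : ℂ := ((liftc D P q : ℂ)⁻¹) with hc
  have halt' : ∀ σ, mp D σ P = P → mp D σ q = q →
      act D Z σ (C c * K) = (sgn D σ : S D Z) * (C c * K) := by
    intro σ h1 h2
    rw [map_mul, halt σ h1 h2, act, rename_C]
    ring
  have hbase : ∑ t ∈ (prs D P q).powerset, GG w δ (liftP D Z P q t)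
      (liftQ D Z q t (C c * K)) P q = ∑ j ∈ s, GG w δ (φ j) (ψ j) P q := by
    have h1 : ∑ t ∈ (prs D P q).powerset, GG w δ (liftP D Z P q t)
        (liftQ D Z q t (C c * K)) P q =
        ∑ t ∈ (prs D P q).powerset, liftP D Z P q t P * liftQ D Z q t (C c * K) q :=
      Finset.sum_congr rfl fun t _ =>
        GG_top w (liftP_mem D Z P q t) (liftQ_mem D Z q t _) hq rfl
    rw [h1, lift D Z hq halt', hK]
    have h2 : (liftc D P q : S D Z) * C c = 1 := by
      have h3 : (liftc D P q : S D Z) = C (liftc D P q : ℂ) := (map_natCast C _).symm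
      rw [h3, ← C_mul, hc, mul_inv_cancel₀ (Nat.cast_ne_zero.2 (liftc_ne_zero D P q)), C_1]
    calc (liftc D P q : S D Z) * (Dl D Z P * cr D Z (P \ q) Pᶜ * (C c * K)) =
          ((liftc D P q : S D Z) * C c) * (Dl D Z P * cr D Z (P \ q) Pᶜ * K) := by ring
      _ = Dl D Z P * cr D Z (P \ q) Pᶜ * K := by rw [h2, one_mul]
  intro P' q' hq' hty
  by_cases hP : typ D P' = typ D P
  · obtain ⟨σ, h1, h2⟩ := exists_mp D hq hq' hP.symm hty.symm
    have h3 := act_sum_GG w s hφ hψ δ σ P q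
    have h4 := act_sum_GG w (prs D P q).powerset (n1 := fun _ => typ D P)
      (n2 := fun _ => typ D q) (fun t => liftP_mem D Z P q t)
      (fun t => liftQ_mem D Z q t (C c * K)) δ σ P q
    rw [h1, h2] at h3 h4
    rw [← h3, ← h4, hbase]
  · have h1 : ∑ j ∈ s, GG w δ (φ j) (ψ j) P' q' = 0 := by
      by_contra hne
      obtain ⟨j, -, h2, -⟩ := sum_GG_ne w s hφ hψ δ hq' hne
      rw [hN j, hty] at h2
      exact hP (add_right_cancel h2)
    have h3 : ∑ t ∈ (prs D P q).powerset, GG w δ (liftP D Z P q t)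
        (liftQ D Z q t (C c * K)) P' q' = 0 := by
      by_contra hne
      obtain ⟨j, -, h2, -⟩ := sum_GG_ne w (prs D P q).powerset (n1 := fun _ => typ D P)
        (n2 := fun _ => typ D q) (fun t => liftP_mem D Z P q t)
        (fun t => liftQ_mem D Z q t (C c * K)) δ hq' hne
      rw [hty] at h2
      exact hP (add_right_cancel h2)
    rw [h1, h3]

/-! ### sums of products of two slots -/

/-- finite sums of products of two slots of total type `N` -/
def Rep (ε1 ε2 : ℕ) (N : D.I → ℕ) (X : AddMonoidAlgebra (S D Z) (B D → ℤ)) : Prop :=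
  ∃ (J : Type) (s : Finset J) (n1 n2 : J → D.I → ℕ) (φ ψ : J → Finset (B D) → S D Z),
    (∀ j, φ j ∈ AF D Z (n1 j)) ∧ (∀ j, ψ j ∈ AF D Z (n2 j)) ∧ (∀ j, n1 j + n2 j = N) ∧
    X = ∑ j ∈ s, slot w ε1 (φ j) * slot w ε2 (ψ j)

lemma Rep.zero (ε1 ε2 : ℕ) (N : D.I → ℕ) : Rep w ε1 ε2 N 0 :=
  ⟨Empty, ∅, fun _ => 0, fun _ => 0, fun _ => 0, fun _ => 0, fun j => j.elim, fun j => j.elim,
    fun j => j.elim, (Finset.sum_empty).symm⟩

lemma Rep.add {ε1 ε2 : ℕ} {N : D.I → ℕ} {X Y : AddMonoidAlgebra (S D Z) (B D → ℤ)}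
    (hX : Rep w ε1 ε2 N X) (hY : Rep w ε1 ε2 N Y) : Rep w ε1 ε2 N (X + Y) := by
  obtain ⟨J, s, n1, n2, φ, ψ, h1, h2, h3, rfl⟩ := hX
  obtain ⟨J', s', n1', n2', φ', ψ', h1', h2', h3', rfl⟩ := hY
  refine ⟨J ⊕ J', s.disjSum s', Sum.elim n1 n1', Sum.elim n2 n2', Sum.elim φ φ', Sum.elim ψ ψ',
    ?_, ?_, ?_, ?_⟩
  · rintro (j | j)
    · exact h1 j
    · exact h1' j
  · rintro (j | j)
    · exact h2 j
    · exact h2' j
  · rintro (j | j)
    · exact h3 j
    · exact h3' j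
  · rw [Finset.sum_disjSum]
    rfl

lemma Rep.smul {ε1 ε2 : ℕ} {N : D.I → ℕ} {X : AddMonoidAlgebra (S D Z) (B D → ℤ)} (c : ℂ)
    (hX : Rep w ε1 ε2 N X) : Rep w ε1 ε2 N (c • X) := by
  obtain ⟨J, s, n1, n2, φ, ψ, h1, h2, h3, rfl⟩ := hX
  refine ⟨J, s, n1, n2, fun j => c • φ j, ψ, fun j => (AF D Z (n1 j)).smul_mem c (h1 j), h2, h3, ?_⟩
  rw [Finset.smul_sum]
  refine Finset.sum_congr rfl fun j _ => ?_
  rw [map_smul, smul_mul_assoc]

/-- the submodule of these sums -/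
def RepS (ε1 ε2 : ℕ) (N : D.I → ℕ) : Submodule ℂ (AddMonoidAlgebra (S D Z) (B D → ℤ)) where
  carrier := {X | Rep w ε1 ε2 N X}
  add_mem' := fun hX hY => Rep.add w hX hY
  zero_mem' := Rep.zero w ε1 ε2 N
  smul_mem' := fun c _ hX => Rep.smul w c hX

lemma rep_of_mem {ε1 ε2 : ℕ} {N : D.I → ℕ} {X : AddMonoidAlgebra (S D Z) (B D → ℤ)}
    (hX : X ∈ ⨆ n1 : D.I → ℕ, ⨆ n2 : D.I → ℕ, ⨆ _ : n1 + n2 = N, U w ε1 n1 * U w ε2 n2) :
    Rep w ε1 ε2 N X := by
  have hle : (⨆ n1 : D.I → ℕ, ⨆ n2 : D.I → ℕ, ⨆ _ : n1 + n2 = N, U w ε1 n1 * U w ε2 n2) ≤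
      RepS w ε1 ε2 N := by
    refine iSup_le fun n1 => iSup_le fun n2 => iSup_le fun h => Submodule.mul_le.2 ?_
    rintro _ ⟨φ, hφ, rfl⟩ _ ⟨ψ, hψ, rfl⟩
    refine ⟨Unit, Finset.univ, fun _ => n1, fun _ => n2, fun _ => φ, fun _ => ψ, fun _ => hφ,
      fun _ => hψ, fun _ => h, ?_⟩
    rw [Finset.univ_unique, Finset.sum_singleton]
  exact hle hX

lemma mem_iSup_mul {ε1 ε2 : ℕ} {N n1 n2 : D.I → ℕ} (h : n1 + n2 = N)
    {x : AddMonoidAlgebra (S D Z) (B D → ℤ)} (hx : x ∈ U w ε1 n1 * U w ε2 n2) :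
    x ∈ ⨆ n1 : D.I → ℕ, ⨆ n2 : D.I → ℕ, ⨆ _ : n1 + n2 = N, U w ε1 n1 * U w ε2 n2 :=
  Submodule.mem_iSup_of_mem n1 (Submodule.mem_iSup_of_mem n2 (Submodule.mem_iSup_of_mem h hx))

lemma slot_mem {ε : ℕ} {n : D.I → ℕ} {φ : Finset (B D) → S D Z} (h : φ ∈ AF D Z n) :
    slot w ε φ ∈ U w ε n := ⟨φ, h, rfl⟩

/-- PAIR LEMMA. Let `X` be a sum of products of two slots of total type `N`, whose coefficients at
`ind P + ind q`, `q ⊆ P`, vanish unless `typ q` is in the finite lower set `𝒮`. Then `X` is a sum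
of products of slots of types `(n1, s)`, `s ∈ 𝒮`, `s ≤ n1`, `n1 + s = N`.

Proof: induction on the cardinality of `𝒮`. If `𝒮` is empty all coefficients vanish
(`coeff_slot_mul_ne`), so `X = 0`. Otherwise let `s ∈ 𝒮` be of maximal `∑ i, s i`; put
`𝒮' = 𝒮.erase s`, a lower set. Write `X = ∑ j, slot (φ j) * slot (ψ j)`, `φ j ∈ AF (n1 j)`,
`ψ j ∈ AF (n2 j)`, `n1 j + n2 j = N`, and `G P q = ∑ j, GG w (ε2 - ε1) (φ j) (ψ j) P q`, so that
the coefficient of `X` at `ind P + ind q` is a nonzero multiple of `G P q` (`coeff_slot_mul`).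
If there is no nested pair `q ⊆ P` of types `typ q = s`, `typ P + s = N` then the coefficients with
`typ q = s` vanish (`GG_ne`) and the induction hypothesis for `𝒮'` applies to `X`. Otherwise fix
such a pair `(P, q)`. For `b ≠ c` in `P \ q` at the same vertex, `typ (insert b q)` has a larger sum
so it is not in `𝒮`, and `G (P.erase c) (insert b q) = 0`. By `reg`, `del ∣ G P q * cr q Pᶜ`. Since
`del = cr P Pᶜ * Dl P` and `cr P Pᶜ = cr q Pᶜ * cr (P \ q) Pᶜ` we get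
`G P q = Dl P * cr (P \ q) Pᶜ * K`; `K` is alternating under the common stabilizer because `G` is
invariant (`act_GG`) and `act_Dl`, `act_cr`. By `lift`,
`X' = ∑_t slot (liftP P q t) * slot (liftQ q t (C (1/c) * K))` has
`G' P q = liftP P(..) * liftQ q(..)` summed `= G P q` (`GG_top`), hence `G' = G` at all nested pairs
of these types (`exists_mp`, `act_GG`). Also `G' P' q' ≠ 0` implies `typ q' ≤ s` (`GG_ne`). So
`X - X'` satisfies the hypotheses for `𝒮'`. -/
theorem pair {ε1 ε2 : ℕ} (h12 : ε1 ≤ ε2) (N : D.I → ℕ) (𝒮 : Finset (D.I → ℕ))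
    (hS : ∀ s ∈ 𝒮, ∀ s' : D.I → ℕ, s' ≤ s → s' ∈ 𝒮)
    (T : Submodule ℂ (AddMonoidAlgebra (S D Z) (B D → ℤ)))
    (hT : ∀ n1 s : D.I → ℕ, s ∈ 𝒮 → s ≤ n1 → n1 + s = N → U w ε1 n1 * U w ε2 s ≤ T)
    (X : AddMonoidAlgebra (S D Z) (B D → ℤ))
    (hX : X ∈ ⨆ n1 : D.I → ℕ, ⨆ n2 : D.I → ℕ, ⨆ _ : n1 + n2 = N, U w ε1 n1 * U w ε2 n2)
    (h0 : ∀ P q : Finset (B D), q ⊆ P → typ D q ∉ 𝒮 → X.coeff (ind D P + ind D q) = 0) :
    X ∈ T := by
  induction hk : 𝒮.card using Nat.strong_induction_on generalizing 𝒮 X with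
  | _ k ih =>
  obtain ⟨J, S0, n1, n2, φ, ψ, hφ, hψ, hN, hXe⟩ := rep_of_mem w hX
  have hcoef : ∀ P q : Finset (B D), q ⊆ P → X.coeff (ind D P + ind D q) =
      (e w P * zs w P ^ ε1) * (e w q * zs w q ^ ε2) *
        ∑ j ∈ S0, GG w (ε2 - ε1) (φ j) (ψ j) P q := by
    intro P q hq
    rw [hXe]
    exact coeff_sum_slot w h12 S0 φ ψ hq
  have hG0 : ∀ P q : Finset (B D), q ⊆ P → typ D q ∉ 𝒮 →
      ∑ j ∈ S0, GG w (ε2 - ε1) (φ j) (ψ j) P q = 0 := by
    intro P q hq ht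
    have h1 := h0 P q hq ht
    rw [hcoef P q hq] at h1
    exact (mul_eq_zero.1 h1).resolve_left (wt_ne_zero w ε1 ε2 P q)
  rcases 𝒮.eq_empty_or_nonempty with hemp | hne
  · -- all coefficients vanish
    have hX0 : X = 0 := by
      apply AddMonoidAlgebra.coeff_injective
      rw [AddMonoidAlgebra.coeff_zero]
      ext1 l
      rw [Finsupp.zero_apply]
      by_contra hl
      have h1 : ∑ j ∈ S0, (slot w ε1 (φ j) * slot w ε2 (ψ j)).coeff l ≠ 0 := by
        rw [hXe, AddMonoidAlgebra.coeff_sum, Finsupp.finsetSum_apply] at hl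
        exact hl
      obtain ⟨j, -, hj⟩ := Finset.exists_ne_zero_of_sum_ne_zero h1
      obtain ⟨P, q, hq, rfl⟩ := coeff_slot_mul_ne w hj
      exact hl (h0 P q hq (by rw [hemp]; exact Finset.notMem_empty _))
    rw [hX0]
    exact T.zero_mem
  · obtain ⟨s, hs, hmax⟩ := Finset.exists_max_image 𝒮 (fun s => ∑ i, s i) hne
    have hcard : (𝒮.erase s).card < k := by
      rw [← hk]; exact Finset.card_erase_lt_of_mem hs
    have hlow : ∀ s1 ∈ 𝒮.erase s, ∀ s' : D.I → ℕ, s' ≤ s1 → s' ∈ 𝒮.erase s := by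
      intro s1 hs1 s' hle
      rw [Finset.mem_erase] at hs1 ⊢
      refine ⟨?_, hS s1 hs1.2 s' hle⟩
      rintro rfl
      apply hs1.1
      have h1 : ∑ i, s1 i ≤ ∑ i, s' i := hmax s1 hs1.2
      have h2 : ∀ i ∈ Finset.univ, s' i ≤ s1 i := fun i _ => hle i
      have h3 : ∑ i, s' i = ∑ i, s1 i := le_antisymm (Finset.sum_le_sum h2) h1
      have h4 := (Finset.sum_eq_sum_iff_of_le h2).1 h3
      funext i
      exact (h4 i (Finset.mem_univ i)).symm
    have hT' : ∀ n1 s1 : D.I → ℕ, s1 ∈ 𝒮.erase s → s1 ≤ n1 → n1 + s1 = N →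
        U w ε1 n1 * U w ε2 s1 ≤ T := fun n1 s1 hs1 h1 h2 =>
      hT n1 s1 (Finset.mem_of_mem_erase hs1) h1 h2
    by_cases hex : ∃ P q : Finset (B D), q ⊆ P ∧ typ D q = s ∧ typ D P + s = N
    · obtain ⟨P, q, hq, hts, htN⟩ := hex
      have hN' : ∀ j, n1 j + n2 j = typ D P + typ D q := fun j => by rw [hN j, hts, htN]
      have H : ∀ b ∈ P \ q, ∀ c ∈ P \ q, b ≠ c → b.1 = c.1 →
          ∑ j ∈ S0, GG w (ε2 - ε1) (φ j) (ψ j) (P.erase c) (insert b q) = 0 := by
        intro b hb c hc hbc _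
        rw [Finset.mem_sdiff] at hb hc
        refine hG0 _ _ ?_ ?_
        · intro a ha
          rcases Finset.mem_insert.1 ha with rfl | ha
          · exact Finset.mem_erase.2 ⟨hbc, hb.1⟩
          · exact Finset.mem_erase.2 ⟨fun h => hc.2 (h ▸ ha), hq ha⟩
        · intro hmem
          have h1 : ∑ i, typ D (insert b q) i ≤ ∑ i, s i := hmax _ hmem
          rw [sum_typ_insert hb.2, hts] at h1
          exact absurd h1 (by omega)
      obtain ⟨K, -, -, hKG⟩ := lift_step w S0 n1 n2 φ ψ hφ hψ (ε2 - ε1) hq hN' H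
      set K' : S D Z := C ((liftc D P q : ℂ)⁻¹) * K with hK'
      set X' : AddMonoidAlgebra (S D Z) (B D → ℤ) := ∑ t ∈ (prs D P q).powerset,
        slot w ε1 (liftP D Z P q t) * slot w ε2 (liftQ D Z q t K') with hX'
      have hterm : ∀ t, slot w ε1 (liftP D Z P q t) * slot w ε2 (liftQ D Z q t K') ∈
          U w ε1 (typ D P) * U w ε2 (typ D q) := fun t =>
        Submodule.mul_mem_mul (slot_mem w (liftP_mem D Z P q t))
          (slot_mem w (liftQ_mem D Z q t K'))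
      have hX'U : X' ∈ U w ε1 (typ D P) * U w ε2 (typ D q) :=
        Submodule.sum_mem _ fun t _ => hterm t
      have hX'T : X' ∈ T := by
        have h1 : s ≤ typ D P := by rw [← hts]; exact typ_mono D hq
        have h2 := hT (typ D P) s hs h1 htN
        rw [← hts] at h2
        exact h2 hX'U
      have hXX : X - X' ∈ T := by
        refine ih _ hcard (𝒮.erase s) hlow hT' (X - X') (Submodule.sub_mem _ hX
          (mem_iSup_mul w (by rw [hts]; exact htN) hX'U)) ?_ rfl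
        intro P' q' hq' ht'
        have hc' : X'.coeff (ind D P' + ind D q') =
            (e w P' * zs w P' ^ ε1) * (e w q' * zs w q' ^ ε2) *
              ∑ t ∈ (prs D P q).powerset, GG w (ε2 - ε1) (liftP D Z P q t)
                (liftQ D Z q t K') P' q' := coeff_sum_slot w h12 _ _ _ hq'
        rw [AddMonoidAlgebra.coeff_sub, Finsupp.sub_apply, hcoef P' q' hq', hc', ← mul_sub]
        by_cases hq's : typ D q' = s
        · rw [hKG P' q' hq' (by rw [hq's, hts]), sub_self, mul_zero]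
        · have h1 : typ D q' ∉ 𝒮 := fun h => ht' (Finset.mem_erase.2 ⟨hq's, h⟩)
          have h2 : ∑ t ∈ (prs D P q).powerset, GG w (ε2 - ε1) (liftP D Z P q t)
              (liftQ D Z q t K') P' q' = 0 := by
            by_contra hne
            obtain ⟨j, -, -, -, h3⟩ := sum_GG_ne w (prs D P q).powerset
              (n1 := fun _ => typ D P) (n2 := fun _ => typ D q)
              (fun t => liftP_mem D Z P q t) (fun t => liftQ_mem D Z q t K') (ε2 - ε1) hq' hne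
            rw [hts] at h3
            exact h1 (hS s hs _ h3)
          rw [hG0 P' q' hq' h1, h2, sub_self, mul_zero]
      have h1 := T.add_mem hXX hX'T
      rwa [sub_add_cancel] at h1
    · refine ih _ hcard (𝒮.erase s) hlow hT' X hX ?_ rfl
      intro P' q' hq' ht'
      rw [hcoef P' q' hq']
      by_cases hq's : typ D q' = s
      · have h1 : ∑ j ∈ S0, GG w (ε2 - ε1) (φ j) (ψ j) P' q' = 0 := by
          by_contra hne
          obtain ⟨j, -, h3, -⟩ := sum_GG_ne w S0 hφ hψ (ε2 - ε1) hq' hne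
          rw [hN j, hq's] at h3
          exact hex ⟨P', q', hq', hq's, h3⟩
        rw [h1, mul_zero]
      · rw [hG0 P' q' hq' fun h => ht' (Finset.mem_erase.2 ⟨hq's, h⟩), mul_zero]


/-- first consequence: arbitrary pairs (`𝒮 = {s | s ≤ n1, s ≤ n2}`, finite as
`Finset.Iic`-like set, e.g. the image/filter of `Fintype.piFinset fun i => Finset.range (n2 i + 1)`;
use `GG_ne`) -/
theorem pair_mul {ε1 ε2 : ℕ} (h12 : ε1 ≤ ε2) (n1 n2 : D.I → ℕ)
    (T : Submodule ℂ (AddMonoidAlgebra (S D Z) (B D → ℤ)))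
    (hT : ∀ n1' s : D.I → ℕ, s ≤ n1 → s ≤ n2 → s ≤ n1' → n1' + s = n1 + n2 →
      U w ε1 n1' * U w ε2 s ≤ T) :
    U w ε1 n1 * U w ε2 n2 ≤ T := by
  classical
  refine Submodule.mul_le.2 ?_
  rintro _ ⟨φ, hφ, rfl⟩ _ ⟨ψ, hψ, rfl⟩
  have hmem : ∀ s : D.I → ℕ, s ∈ (Fintype.piFinset fun i => Finset.range (n2 i + 1)).filter
      (fun s => s ≤ n1) ↔ s ≤ n1 ∧ s ≤ n2 := by
    intro s
    rw [Finset.mem_filter, Fintype.mem_piFinset, and_comm]
    refine and_congr_right fun _ => forall_congr' fun i => ?_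
    rw [Finset.mem_range, Nat.lt_succ_iff]
  refine pair w h12 (n1 + n2) ((Fintype.piFinset fun i => Finset.range (n2 i + 1)).filter
      (fun s => s ≤ n1)) ?_ T ?_ _ (mem_iSup_mul w rfl
        (Submodule.mul_mem_mul (slot_mem w hφ) (slot_mem w hψ))) ?_
  · intro s hs s' hle
    rw [hmem] at hs ⊢
    exact ⟨hle.trans hs.1, hle.trans hs.2⟩
  · intro n1' s hs h1 h2
    rw [hmem] at hs
    exact hT n1' s hs.1 hs.2 h1 h2
  · intro P q hq ht
    rw [coeff_slot_mul w h12 φ ψ hq]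
    have h1 : GG w (ε2 - ε1) φ ψ P q = 0 := by
      by_contra hne
      obtain ⟨-, h3, h4⟩ := GG_ne w hφ hψ hq hne
      exact ht ((hmem _).2 ⟨h3, h4⟩)
    rw [h1, mul_zero]

/-- second consequence: normal form of a product of slots with nested types (`𝒮` is the set of all
`s ≤ typ q`, `s ≠ typ q`). Here `K` is given by `φ P * ψ q = Dl P * cr (P \ q) Pᶜ * K`. -/
theorem pair_lift {ε1 ε2 : ℕ} (h12 : ε1 ≤ ε2) {P q : Finset (B D)} (hq : q ⊆ P)
    {φ ψ : Finset (B D) → S D Z} (hφ : φ ∈ AF D Z (typ D P)) (hψ : ψ ∈ AF D Z (typ D q)) :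
    ∃ K : S D Z, φ P * ψ q = Dl D Z P * cr D Z (P \ q) Pᶜ * K ∧
      (∀ σ, mp D σ P = P → mp D σ q = q → act D Z σ K = (sgn D σ : S D Z) * K) ∧
      ∀ T : Submodule ℂ (AddMonoidAlgebra (S D Z) (B D → ℤ)),
        (∀ δ : D.I → ℕ, δ ≠ 0 → δ ≤ typ D q →
          U w ε1 (typ D P + δ) * U w ε2 (typ D q - δ) ≤ T) →
        slot w ε1 φ * slot w ε2 ψ - ∑ t ∈ (prs D P q).powerset,
          slot w ε1 (liftP D Z P q t) *
            slot w ε2 (liftQ D Z q t (C ((liftc D P q : ℂ)⁻¹) * K)) ∈ T := by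
  have H : ∀ b ∈ P \ q, ∀ c ∈ P \ q, b ≠ c → b.1 = c.1 →
      ∑ j ∈ (Finset.univ : Finset Unit), GG w (ε2 - ε1) ((fun _ => φ) j) ((fun _ => ψ) j)
        (P.erase c) (insert b q) = 0 := by
    intro b hb c hc hbc _
    rw [Finset.mem_sdiff] at hb hc
    have hsub : insert b q ⊆ P.erase c := by
      intro a ha
      rcases Finset.mem_insert.1 ha with rfl | ha
      · exact Finset.mem_erase.2 ⟨hbc, hb.1⟩
      · exact Finset.mem_erase.2 ⟨fun h => hc.2 (h ▸ ha), hq ha⟩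
    rw [Finset.univ_unique, Finset.sum_singleton]
    by_contra hne
    obtain ⟨-, -, h3⟩ := GG_ne w hφ hψ hsub hne
    have h4 : ∑ i, typ D (insert b q) i ≤ ∑ i, typ D q i := Finset.sum_le_sum fun i _ => h3 i
    rw [sum_typ_insert hb.2] at h4
    exact absurd h4 (by omega)
  obtain ⟨K, hK, halt, hKG⟩ := lift_step w (Finset.univ : Finset Unit) (fun _ => typ D P)
    (fun _ => typ D q) (fun _ => φ) (fun _ => ψ) (fun _ => hφ) (fun _ => hψ) (ε2 - ε1) hq
    (fun _ => rfl) H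
  rw [Finset.univ_unique, Finset.sum_singleton, GG_top w hφ hψ hq rfl] at hK
  refine ⟨K, hK, halt, ?_⟩
  intro T hT
  set K' : S D Z := C ((liftc D P q : ℂ)⁻¹) * K with hK'
  have hterm : ∀ t, slot w ε1 (liftP D Z P q t) * slot w ε2 (liftQ D Z q t K') ∈
      U w ε1 (typ D P) * U w ε2 (typ D q) := fun t =>
    Submodule.mul_mem_mul (slot_mem w (liftP_mem D Z P q t))
      (slot_mem w (liftQ_mem D Z q t K'))
  have hmem : ∀ s : D.I → ℕ, s ∈ (Fintype.piFinset fun i => Finset.range (typ D q i + 1)).filter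
      (fun s => s ≠ typ D q) ↔ s ≤ typ D q ∧ s ≠ typ D q := by
    intro s
    rw [Finset.mem_filter, Fintype.mem_piFinset]
    refine and_congr_left fun _ => forall_congr' fun i => ?_
    rw [Finset.mem_range, Nat.lt_succ_iff]
  refine pair w h12 (typ D P + typ D q)
    ((Fintype.piFinset fun i => Finset.range (typ D q i + 1)).filter
      (fun s => s ≠ typ D q)) ?_ T ?_ _ (mem_iSup_mul w rfl (Submodule.sub_mem _
        (Submodule.mul_mem_mul (slot_mem w hφ) (slot_mem w hψ))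
        (Submodule.sum_mem _ fun t _ => hterm t))) ?_
  · intro s hs s' hle
    rw [hmem] at hs ⊢
    refine ⟨hle.trans hs.1, ?_⟩
    rintro rfl
    exact hs.2 (le_antisymm hs.1 hle)
  · intro n1 s hs h1 h2
    rw [hmem] at hs
    have h3 : typ D P + (typ D q - s) = n1 := by
      funext i
      have h4 := congrFun h2 i
      have h5 : s i ≤ typ D q i := hs.1 i
      rw [Pi.add_apply] at h4 ⊢
      rw [Pi.sub_apply]
      rw [Pi.add_apply] at h4
      omega
    have h4 : typ D q - (typ D q - s) = s := by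
      funext i
      have h5 : s i ≤ typ D q i := hs.1 i
      rw [Pi.sub_apply, Pi.sub_apply]
      omega
    have h5 := hT (typ D q - s) ?_ tsub_le_self
    · rwa [h3, h4] at h5
    · intro h6
      apply hs.2
      exact le_antisymm hs.1 (tsub_eq_zero_iff_le.1 h6)
  · intro P' q' hq' ht'
    have hc' : (∑ t ∈ (prs D P q).powerset,
          slot w ε1 (liftP D Z P q t) * slot w ε2 (liftQ D Z q t K')).coeff
            (ind D P' + ind D q') =
        (e w P' * zs w P' ^ ε1) * (e w q' * zs w q' ^ ε2) *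
          ∑ t ∈ (prs D P q).powerset, GG w (ε2 - ε1) (liftP D Z P q t)
            (liftQ D Z q t K') P' q' := coeff_sum_slot w h12 _ _ _ hq'
    rw [AddMonoidAlgebra.coeff_sub, Finsupp.sub_apply, coeff_slot_mul w h12 φ ψ hq', hc',
      ← mul_sub]
    by_cases hty : typ D q' = typ D q
    · have h1 := hKG P' q' hq' hty
      rw [Finset.univ_unique, Finset.sum_singleton] at h1
      rw [h1, sub_self, mul_zero]
    · have h1 : ¬ typ D q' ≤ typ D q := fun h => ht' ((hmem _).2 ⟨h, hty⟩)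
      have h2 : GG w (ε2 - ε1) φ ψ P' q' = 0 := by
        by_contra hne
        exact h1 (GG_ne w hφ hψ hq' hne).2.2
      have h3 : ∑ t ∈ (prs D P q).powerset, GG w (ε2 - ε1) (liftP D Z P q t)
          (liftQ D Z q t K') P' q' = 0 := by
        by_contra hne
        obtain ⟨j, -, -, -, h3⟩ := sum_GG_ne w (prs D P q).powerset
          (n1 := fun _ => typ D P) (n2 := fun _ => typ D q)
          (fun t => liftP_mem D Z P q t) (fun t => liftQ_mem D Z q t K') (ε2 - ε1) hq' hne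
        exact h1 h3
      rw [h2, h3, sub_self, mul_zero]

end Vale.Agent.P291.H
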