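import Vale.Agent.P291.H.Coef

set_option autoImplicit false
set_option linter.unusedSectionVars false

/-! Regularity of the reduced coefficients. -/

namespace Vale.Agent.P291.H

open MvPolynomial Vale.Agent.P291.G

variable {D : QData} {Z : Type} (w : Wts D Z)

lemma rg_mem_swap {a b : B D} {τ : W D} (hτ : perm D τ = Equiv.swap a b) (A : Finset (B D))
    (x : B D) : x ∈ mp D τ A ↔ Equiv.swap a b x ∈ A := by
  rw [mem_mp', hτ, Equiv.symm_swap]

lemma rg_mp_swap {a b : B D} (hab : a ≠ b) {τ : W D} (hτ : perm D τ = Equiv.swap a b)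
    {P X : Finset (B D)} (ha : a ∈ P) (hb : b ∈ P) (haX : a ∉ X) (hbX : b ∉ X) :
    mp D τ (P \ insert a X) = P.erase b \ X := by
  ext x
  rw [rg_mem_swap hτ]
  by_cases h1 : x = a
  · subst h1
    rw [Equiv.swap_apply_left]
    simp [ha, hb, haX, hbX, hab, hab.symm]
  · by_cases h2 : x = b
    · subst h2
      rw [Equiv.swap_apply_right]
      simp
    · rw [Equiv.swap_apply_of_ne_of_ne h1 h2]
      simp [h1, h2]

lemma rg_h {A : Type} [CommRing A] (π : S D Z →+* A) {a b : B D} {τ : W D}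
    (hτ : perm D τ = Equiv.swap a b) (hπ : ∀ f, π (act D Z τ f) = π f) {x : B D} (h1 : x ≠ a)
    (h2 : x ≠ b) : π (w.h x b) = π (w.h x a) ∧ π (w.h b x) = π (w.h a x) := by
  constructor
  · rw [← hπ (w.h x a), w.h_act, hτ, Equiv.swap_apply_left, Equiv.swap_apply_of_ne_of_ne h1 h2]
  · rw [← hπ (w.h a x), w.h_act, hτ, Equiv.swap_apply_left, Equiv.swap_apply_of_ne_of_ne h1 h2]

lemma rg_key {A : Type} [CommRing A] (π : S D Z →+* A) {a b : B D} (hab : a ≠ b) {τ : W D}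
    (hτ : perm D τ = Equiv.swap a b) (hs : sgn D τ = -1) (hπ : ∀ f, π (act D Z τ f) = π f)
    (φ : Finset (B D) → S D Z) {ψ : Finset (B D) → S D Z} {n2 : D.I → ℕ} (hψ : ψ ∈ AF D Z n2)
    (δ : ℕ) {P q X : Finset (B D)} (ha : a ∈ P \ q) (hb : b ∈ P \ q)
    (hX : X ⊆ ((P \ q).erase a).erase b) :
    π (φ (q ∪ insert a X) * ψ (P \ insert a X) * wgt w δ (insert a X) ((P \ q) \ insert a X)) =
      -π (w.h a b * w.h b a * w.z b ^ δ * ∏ d ∈ ((P \ q).erase a).erase b, w.h a d * w.h d a) *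
        π (φ (insert a q ∪ X) * ψ (P.erase b \ X) *
          wgt w δ X ((P.erase b \ insert a q) \ X)) := by
  rw [Finset.mem_sdiff] at ha hb
  have haX : a ∉ X := fun h => by
    have := hX h
    simp at this
  have hbX : b ∉ X := fun h => by
    have := hX h
    simp at this
  have e1 : q ∪ insert a X = insert a q ∪ X := by
    ext x; simp only [Finset.mem_union, Finset.mem_insert]; tauto
  have e2 : π (ψ (P \ insert a X)) = -π (ψ (P.erase b \ X)) := by
    rw [← hπ, hψ.1, hs, rg_mp_swap hab hτ ha.1 hb.1 haX hbX, map_mul]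
    simp
  have e3 : (P \ q) \ insert a X = insert b ((((P \ q).erase a).erase b) \ X) := by
    ext x
    simp only [Finset.mem_sdiff, Finset.mem_insert, Finset.mem_erase]
    by_cases h : x = b
    · subst h; simp [hb.1, hb.2, hbX, hab.symm]
    · simp only [h, false_or, ne_eq, not_false_eq_true, true_and]; tauto
  have e4 : (P.erase b \ insert a q) \ X = (((P \ q).erase a).erase b) \ X := by
    ext x
    simp only [Finset.mem_sdiff, Finset.mem_insert, Finset.mem_erase]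
    tauto
  have hbY : b ∉ (((P \ q).erase a).erase b) \ X := by simp
  have hne : ∀ d ∈ ((P \ q).erase a).erase b, d ≠ a ∧ d ≠ b := by
    intro d hd
    simp only [Finset.mem_erase] at hd
    exact ⟨hd.2.1, hd.1⟩
  rw [e1, e3, e4, ← Finset.prod_sdiff hX]
  set Y := (((P \ q).erase a).erase b) \ X with hY
  have e5 : π (∏ x ∈ X, (w.h x b * w.h b x)) = π (∏ x ∈ X, (w.h a x * w.h x a)) := by
    rw [map_prod, map_prod]
    refine Finset.prod_congr rfl fun x hx => ?_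
    obtain ⟨h1, h2⟩ := rg_h w π hτ hπ (hne x (hX hx)).1 (hne x (hX hx)).2
    rw [map_mul, map_mul, h1, h2, mul_comm]
  have e6 : wgt w δ (insert a X) (insert b Y) = (w.h a b * w.h b a) *
      (∏ c ∈ Y, (w.h a c * w.h c a)) * (∏ x ∈ X, (w.h x b * w.h b x)) * w.z b ^ δ *
      wgt w δ X Y := by
    rw [wgt, wgt, zs, Finset.prod_insert haX, Finset.prod_insert hbY, Finset.prod_insert hbY]
    have : ∀ x ∈ X, ∏ c ∈ insert b Y, w.h x c * w.h c x =
        (w.h x b * w.h b x) * ∏ c ∈ Y, w.h x c * w.h c x := fun x _ => Finset.prod_insert hbY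
    have h7 : ∏ x ∈ X, ((w.h x b * w.h b x) * ∏ c ∈ Y, w.h x c * w.h c x) =
        (∏ x ∈ X, (w.h x b * w.h b x)) * ∏ x ∈ X, ∏ c ∈ Y, w.h x c * w.h c x :=
      Finset.prod_mul_distrib
    rw [Finset.prod_congr rfl this, h7, mul_pow, zs]
    ring
  rw [e6]
  simp only [map_mul] at e5 ⊢
  rw [e2, e5]
  ring

lemma rg_sum {A : Type} [CommRing A] (π : S D Z →+* A) {a b : B D} (hab : a ≠ b) {τ : W D}
    (hτ : perm D τ = Equiv.swap a b) (hs : sgn D τ = -1) (hπ : ∀ f, π (act D Z τ f) = π f)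
    {J : Type} (s : Finset J) (n2 : J → D.I → ℕ) (φ ψ : J → Finset (B D) → S D Z)
    (hψ : ∀ j, ψ j ∈ AF D Z (n2 j)) (δ : ℕ)
    {P q : Finset (B D)} (ha : a ∈ P \ q) (hb : b ∈ P \ q)
    (H : ∑ j ∈ s, GG w δ (φ j) (ψ j) (P.erase b) (insert a q) = 0) :
    ∑ j ∈ s, ∑ X ∈ (((P \ q).erase a).erase b).powerset,
      π (φ j (q ∪ insert a X) * ψ j (P \ insert a X) *
        wgt w δ (insert a X) ((P \ q) \ insert a X)) = 0 := by
  have e : (P.erase b) \ (insert a q) = ((P \ q).erase a).erase b := by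
    ext x
    simp only [Finset.mem_sdiff, Finset.mem_insert, Finset.mem_erase]
    tauto
  have h1 := congrArg π H
  rw [map_zero] at h1
  rw [← mul_zero (-π (w.h a b * w.h b a * w.z b ^ δ *
    ∏ d ∈ ((P \ q).erase a).erase b, w.h a d * w.h d a)), ← h1, map_sum, Finset.mul_sum]
  refine Finset.sum_congr rfl fun j _ => ?_
  rw [GG, map_sum, Finset.mul_sum, e]
  refine Finset.sum_congr rfl fun X hX => ?_
  rw [rg_key w π hab hτ hs hπ (φ j) (hψ j) δ ha hb (Finset.mem_powerset.1 hX), e]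

lemma rg_prop {aq aP aX bq bP bX : Prop} (h1 : aq → aP) (h2 : bq → bP) (h3 : aX → aP ∧ ¬aq)
    (h4 : bX → bP ∧ ¬bq) (hc1 : ¬(aq ∧ ¬bP)) (hc2 : ¬(bq ∧ ¬aP))
    (hc3 : ¬((aP ∧ ¬aq) ∧ (bP ∧ ¬bq))) :
    ((aq ∨ aX) ↔ (bq ∨ bX)) ∨ ((aP ∧ ¬aX) ↔ (bP ∧ ¬bX)) := by
  by_cases haP : aP
  · by_cases hbP : bP
    · by_cases haq : aq
      · by_cases hbq : bq
        · exact Or.inl ⟨fun _ => Or.inl hbq, fun _ => Or.inl haq⟩
        · by_cases hbX : bX
          · exact Or.inl ⟨fun _ => Or.inr hbX, fun _ => Or.inl haq⟩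
          · exact Or.inr ⟨fun _ => ⟨hbP, hbX⟩, fun _ => ⟨haP, fun h => (h3 h).2 haq⟩⟩
      · by_cases hbq : bq
        · by_cases haX : aX
          · exact Or.inl ⟨fun _ => Or.inl hbq, fun _ => Or.inr haX⟩
          · exact Or.inr ⟨fun _ => ⟨hbP, fun h => (h4 h).2 hbq⟩, fun _ => ⟨haP, haX⟩⟩
        · exact absurd ⟨⟨haP, haq⟩, hbP, hbq⟩ hc3
    · by_cases haX : aX
      · exact Or.inr ⟨fun h => absurd haX h.2, fun h => absurd h.1 hbP⟩
      · refine Or.inl ⟨fun h => ?_, fun h => ?_⟩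
        · rcases h with h | h
          · exact absurd ⟨h, hbP⟩ hc1
          · exact absurd h haX
        · rcases h with h | h
          · exact absurd (h2 h) hbP
          · exact absurd (h4 h).1 hbP
  · by_cases hbX : bX
    · exact Or.inr ⟨fun h => absurd h.1 haP, fun h => absurd hbX h.2⟩
    · refine Or.inl ⟨fun h => ?_, fun h => ?_⟩
      · rcases h with h | h
        · exact absurd (h1 h) haP
        · exact absurd (h3 h).1 haP
      · rcases h with h | h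
        · exact absurd ⟨h, haP⟩ hc2
        · exact absurd h hbX

lemma rg_split {M : Type} [AddCommMonoid M] (F : Finset (B D) → M) {a b : B D}
    {T R : Finset (B D)} (hT : T = insert a (insert b R)) (ha : a ∉ insert b R) (hb : b ∉ R)
    (h0 : ∀ X ⊆ R, F X = 0) (h3 : ∀ X ⊆ R, F (insert a (insert b X)) = 0) :
    ∑ X ∈ T.powerset, F X =
      ∑ X ∈ R.powerset, F (insert a X) + ∑ X ∈ R.powerset, F (insert b X) := by
  rw [hT, Finset.sum_powerset_insert ha, Finset.sum_powerset_insert hb,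
    Finset.sum_powerset_insert hb,
    Finset.sum_eq_zero (fun X hX => h0 X (Finset.mem_powerset.1 hX)),
    Finset.sum_eq_zero (s := R.powerset) (f := fun X => F (insert a (insert b X)))
      (fun X hX => h3 X (Finset.mem_powerset.1 hX)), zero_add, add_zero, add_comm]

lemma rg_dvd_cr {a b : B D} {A C : Finset (B D)} (ha : a ∈ A) (hb : b ∈ C) (h : a.1 = b.1) :
    (xx D Z a - xx D Z b) ∣ cr D Z A C := by
  have h1 : (xx D Z a - xx D Z b) ∣
      ∏ b ∈ C, if a.1 = b.1 then xx D Z a - xx D Z b else 1 := by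
    have := Finset.dvd_prod_of_mem (fun b => if a.1 = b.1 then xx D Z a - xx D Z b else 1) hb
    rwa [if_pos h] at this
  exact h1.trans (Finset.dvd_prod_of_mem
    (fun a => ∏ b ∈ C, if a.1 = b.1 then xx D Z a - xx D Z b else 1) ha)

lemma rg_special {A : Type} [CommRing A] (π : S D Z →+* A) {a b : B D} (hab : a ≠ b) {τ : W D}
    (hτ : perm D τ = Equiv.swap a b) (hsg : sgn D τ = -1) (hπ : ∀ f, π (act D Z τ f) = π f)
    (hz : ∀ {n : D.I → ℕ} {χ : Finset (B D) → S D Z} (_ : χ ∈ AF D Z n) (C : Finset (B D))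
        (_ : a ∈ C ↔ b ∈ C), π (χ C) = 0)
    {J : Type} (s : Finset J) (n1 n2 : J → D.I → ℕ) (φ ψ : J → Finset (B D) → S D Z)
    (hφ : ∀ j, φ j ∈ AF D Z (n1 j)) (hψ : ∀ j, ψ j ∈ AF D Z (n2 j)) (δ : ℕ)
    {P q : Finset (B D)} (ha1 : a ∈ P \ q) (hb1 : b ∈ P \ q)
    (H1 : ∑ j ∈ s, GG w δ (φ j) (ψ j) (P.erase b) (insert a q) = 0)
    (H2 : ∑ j ∈ s, GG w δ (φ j) (ψ j) (P.erase a) (insert b q) = 0) :
    π (∑ j ∈ s, GG w δ (φ j) (ψ j) P q) = 0 := by
  have h1 := rg_sum w π hab hτ hsg hπ s n2 φ ψ hψ δ ha1 hb1 H1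
  have h2 := rg_sum w π hab.symm (hτ.trans (Equiv.swap_comm a b)) hsg hπ s n2 φ ψ hψ δ hb1 ha1 H2
  rw [Finset.erase_right_comm] at h2
  set R := ((P \ q).erase a).erase b with hR
  have haR : a ∉ insert b R := by simp [hR, hab]
  have hbR : b ∉ R := by simp [hR]
  have hPq : P \ q = insert a (insert b R) := by
    rw [hR, Finset.insert_erase (Finset.mem_erase.2 ⟨hab.symm, hb1⟩), Finset.insert_erase ha1]
  have h3 : ∀ j ∈ s, π (GG w δ (φ j) (ψ j) P q) =
      ∑ X ∈ R.powerset, π (φ j (q ∪ insert a X) * ψ j (P \ insert a X) *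
        wgt w δ (insert a X) ((P \ q) \ insert a X)) +
      ∑ X ∈ R.powerset, π (φ j (q ∪ insert b X) * ψ j (P \ insert b X) *
        wgt w δ (insert b X) ((P \ q) \ insert b X)) := by
    intro j _
    rw [GG, map_sum]
    refine rg_split (fun X => π (φ j (q ∪ X) * ψ j (P \ X) * wgt w δ X ((P \ q) \ X)))
      hPq haR hbR (fun X hX => ?_) (fun X hX => ?_)
    · have ha2 : a ∉ q ∪ X := by
        rw [Finset.mem_union, not_or]
        refine ⟨(Finset.mem_sdiff.1 ha1).2, fun h => haR (Finset.mem_insert_of_mem (hX h))⟩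
      have hb2 : b ∉ q ∪ X := by
        rw [Finset.mem_union, not_or]
        exact ⟨(Finset.mem_sdiff.1 hb1).2, fun h => hbR (hX h)⟩
      show π (φ j (q ∪ X) * ψ j (P \ X) * wgt w δ X ((P \ q) \ X)) = 0
      rw [map_mul, map_mul, hz (hφ j) _ ⟨fun h => absurd h ha2, fun h => absurd h hb2⟩, zero_mul,
        zero_mul]
    · have ha2 : a ∈ q ∪ insert a (insert b X) := by simp
      have hb2 : b ∈ q ∪ insert a (insert b X) := by simp
      show π (φ j (q ∪ insert a (insert b X)) * ψ j (P \ insert a (insert b X)) *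
        wgt w δ (insert a (insert b X)) ((P \ q) \ insert a (insert b X))) = 0
      rw [map_mul, map_mul, hz (hφ j) _ ⟨fun _ => hb2, fun _ => ha2⟩, zero_mul, zero_mul]
  rw [map_sum, Finset.sum_congr rfl h3, Finset.sum_add_distrib, h1, h2, add_zero]

/-- REGULARITY. Put `G P q = ∑ j ∈ s, GG w δ (φ j) (ψ j) P q`. If `G (P \ c) (q ∪ b) = 0` for all
`b ≠ c` in `P \ q` at the same vertex, then `del` divides `G P q * cr q Pᶜ`. -/
theorem reg {J : Type} (s : Finset J) (n1 n2 : J → D.I → ℕ) (φ ψ : J → Finset (B D) → S D Z)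
    (hφ : ∀ j, φ j ∈ AF D Z (n1 j)) (hψ : ∀ j, ψ j ∈ AF D Z (n2 j)) (δ : ℕ)
    {P q : Finset (B D)} (hq : q ⊆ P)
    (H : ∀ b ∈ P \ q, ∀ c ∈ P \ q, b ≠ c → b.1 = c.1 →
      ∑ j ∈ s, GG w δ (φ j) (ψ j) (P.erase c) (insert b q) = 0) :
    del D Z ∣ (∑ j ∈ s, GG w δ (φ j) (ψ j) P q) * cr D Z q Pᶜ := by
  refine del_dvd D Z _ fun i r t hrt => ?_
  set a : B D := ⟨i, r⟩ with ha
  set b : B D := ⟨i, t⟩ with hb
  have hab : a ≠ b := by
    intro h
    rw [ha, hb, Sigma.mk.injEq] at h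
    exact hrt (eq_of_heq h.2)
  have hτ : perm D (tr D i r t) = Equiv.swap a b := perm_tr D i r t
  have hsg : sgn D (tr D i r t) = -1 := sgn_tr D i hrt
  -- a term is divisible if the two vectors are both in or both out
  have hdiv : ∀ {n : D.I → ℕ} {χ : Finset (B D) → S D Z} (_ : χ ∈ AF D Z n) (C : Finset (B D))
      (_ : a ∈ C ↔ b ∈ C), (xx D Z a - xx D Z b) ∣ χ C := by
    intro n χ hχ C hC
    refine dvd_of_tr D Z i hrt ?_
    rw [hχ.1, hsg, mp_tr D hC]
    simp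
  by_cases hc1 : a ∈ q ∧ b ∉ P
  · refine Dvd.dvd.mul_left ?_ _
    exact rg_dvd_cr hc1.1 (Finset.mem_compl.2 hc1.2) rfl
  by_cases hc2 : b ∈ q ∧ a ∉ P
  · refine Dvd.dvd.mul_left ?_ _
    rw [← neg_sub, neg_dvd]
    exact rg_dvd_cr hc2.1 (Finset.mem_compl.2 hc2.2) rfl
  refine Dvd.dvd.mul_right ?_ _
  by_cases hc3 : a ∈ P \ q ∧ b ∈ P \ q
  · -- the special case
    set I : Ideal (S D Z) := Ideal.span {xx D Z a - xx D Z b} with hI
    rw [← Ideal.mem_span_singleton, ← hI, ← Ideal.Quotient.eq_zero_iff_mem]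
    set π := Ideal.Quotient.mk I with hπd
    have hπ : ∀ f, π (act D Z (tr D i r t) f) = π f := by
      intro f
      rw [hπd, Ideal.Quotient.eq, hI, Ideal.mem_span_singleton]
      exact dvd_sub_tr D Z i hrt f
    have hz : ∀ {n : D.I → ℕ} {χ : Finset (B D) → S D Z} (_ : χ ∈ AF D Z n) (C : Finset (B D))
        (_ : a ∈ C ↔ b ∈ C), π (χ C) = 0 := by
      intro n χ hχ C hC
      rw [hπd, Ideal.Quotient.eq_zero_iff_mem, hI, Ideal.mem_span_singleton]
      exact hdiv hχ C hC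
    exact rg_special w π hab hτ hsg hπ (fun hχ C hC => hz hχ C hC) s n1 n2 φ ψ hφ hψ δ hc3.1 hc3.2
      (H a hc3.1 b hc3.2 hab rfl) (H b hc3.2 a hc3.1 hab.symm rfl)
  · refine Finset.dvd_sum fun j _ => Finset.dvd_sum fun X hX => ?_
    rw [Finset.mem_powerset] at hX
    have hXa : a ∈ X → a ∈ P ∧ a ∉ q := fun h => Finset.mem_sdiff.1 (hX h)
    have hXb : b ∈ X → b ∈ P ∧ b ∉ q := fun h => Finset.mem_sdiff.1 (hX h)
    have hqa : a ∈ q → a ∈ P := fun h => hq h
    have hqb : b ∈ q → b ∈ P := fun h => hq h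
    rw [Finset.mem_sdiff, Finset.mem_sdiff] at hc3
    have key : (a ∈ q ∪ X ↔ b ∈ q ∪ X) ∨ (a ∈ P \ X ↔ b ∈ P \ X) := by
      rw [Finset.mem_union, Finset.mem_union, Finset.mem_sdiff, Finset.mem_sdiff]
      exact rg_prop hqa hqb hXa hXb hc1 hc2 hc3
    rcases key with h | h
    · exact Dvd.dvd.mul_right (Dvd.dvd.mul_right (hdiv (hφ j) _ h) _) _
    · exact Dvd.dvd.mul_right (Dvd.dvd.mul_left (hdiv (hψ j) _ h) _) _

end Vale.Agent.P291.H
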