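import Vale.Agent.P291.H.Desc
import Vale.Agent.P291.H.Extract
import Vale.Agent.P291.H.Pad

set_option autoImplicit false
set_option linter.unusedSectionVars false

/-! Step A: quadratic presentation. -/

namespace Vale.Agent.P291.H

open MvPolynomial Vale.Agent.P291.G

variable (D : QData) {K L : Type} [Field K] [Algebra ℂ K] [CommRing L] [Algebra K L]
  (x : B D → K) (y : Fin D.rk → K) (u : Module.Basis (B D → ℤ) K L)
  (hxy : AlgebraicIndependent ℂ (Sum.elim x y)) (hu : ∀ l l', u (l + l') = u l * u l')
  (ν : D.I → ℤ)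

include hxy hu in
/-- invariant polynomials in the ideal `fixI` satisfy a quadratic relation -/
theorem stepA {f : S D (Fin D.rk)} (hf : ∀ σ : W D, act D (Fin D.rk) σ f = f)
    (h : algebraMap K L (EV D x y f) ∈ fixI D x y u ν) : LinRel (wF D) f := by
  obtain ⟨N, hN, h1⟩ := pad D x y u hxy hu ν hf h
  refine linRel_of (wF D) (extract (wF D) hN (by omega : N < 2 * N) (descend (wF D) hN
    (by omega) h1 fun lam hlam => ?_))
  rw [AddMonoidAlgebra.coeff_single, Finsupp.single_apply, if_neg (Ne.symm hlam)]

end Vale.Agent.P291.H
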