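import Vale.Agent.P291.H.Act

set_option autoImplicit false
set_option linter.unusedSectionVars false

/-! Types of subsets and conjugacy. -/

namespace Vale.Agent.P291.H

open MvPolynomial Vale.Agent.P291.G

variable (D : QData) (Z : Type)

/-- the fibre of a subset over a vertex -/
def fib (A : Finset (B D)) (i : D.I) : Finset (Fin (D.v i)) :=
  Finset.univ.filter fun r => (⟨i, r⟩ : B D) ∈ A

lemma mem_fib (A : Finset (B D)) (i : D.I) (r : Fin (D.v i)) :
    r ∈ fib D A i ↔ (⟨i, r⟩ : B D) ∈ A := by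
  rw [fib, Finset.mem_filter]
  exact ⟨fun h => h.2, fun h => ⟨Finset.mem_univ _, h⟩⟩

lemma card_fib (A : Finset (B D)) (i : D.I) : (fib D A i).card = typ D A i := by
  rw [typ]
  refine Finset.card_bij (fun r _ => (⟨i, r⟩ : B D)) ?_ ?_ ?_
  · intro r hr
    rw [Finset.mem_filter]
    exact ⟨(mem_fib D A i r).1 hr, rfl⟩
  · intro r _ r' _ h
    simpa using h
  · rintro ⟨j, r⟩ hb
    rw [Finset.mem_filter] at hb
    obtain ⟨h1, h2⟩ := hb
    obtain rfl : j = i := h2
    exact ⟨r, (mem_fib D A j r).2 h1, rfl⟩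

lemma typ_le (A : Finset (B D)) : typ D A ≤ D.v := by
  intro i
  rw [← card_fib]
  exact (Finset.card_le_univ _).trans (by rw [Fintype.card_fin])

lemma typ_compl (A : Finset (B D)) : typ D Aᶜ = D.v - typ D A := by
  classical
  funext i
  rw [Pi.sub_apply, ← card_fib, ← card_fib]
  have h1 : fib D Aᶜ i = (fib D A i)ᶜ := by
    ext r
    rw [Finset.mem_compl, mem_fib, mem_fib, Finset.mem_compl]
  rw [h1, Finset.card_compl, Fintype.card_fin]

lemma typ_mono {A C : Finset (B D)} (h : A ⊆ C) : typ D A ≤ typ D C := by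
  intro i
  rw [typ, typ]
  exact Finset.card_le_card (Finset.filter_subset_filter _ h)

/-- `∑ i, typ A i = card A` -/
lemma sum_typ (A : Finset (B D)) : ∑ i, typ D A i = A.card :=
  (Finset.card_eq_sum_card_fiberwise (f := fun b : B D => b.1) (t := Finset.univ)
    (fun _ _ => Finset.mem_coe.2 (Finset.mem_univ _))).symm

/-- a subset of the same type is equal -/
lemma eq_of_subset {A C : Finset (B D)} (h : A ⊆ C) (ht : typ D A = typ D C) : A = C := by
  refine Finset.eq_of_subset_of_card_le h ?_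
  rw [← sum_typ, ← sum_typ, ht]

lemma typ_union_inter (A C : Finset (B D)) :
    typ D (A ∪ C) + typ D (A ∩ C) = typ D A + typ D C := by
  classical
  funext i
  rw [Pi.add_apply, Pi.add_apply, typ, typ, typ, typ, Finset.filter_union,
    Finset.filter_inter_distrib]
  exact Finset.card_union_add_card_inter _ _

lemma typ_eq_zero {A : Finset (B D)} (h : typ D A = 0) : A = ∅ := by
  rw [← Finset.card_eq_zero, ← sum_typ, h]
  simp

lemma typ_empty : typ D ∅ = 0 := by
  funext i
  rw [typ, Finset.filter_empty, Finset.card_empty]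
  rfl

lemma typ_univ : typ D Finset.univ = D.v := by
  rw [← Finset.compl_empty, typ_compl, typ_empty]
  funext i
  rw [Pi.sub_apply, Pi.zero_apply, Nat.sub_zero]

/-- nested pairs of subsets of a finite type with the same cardinalities are conjugate -/
lemma exists_perm_nested {n : ℕ} {P q P' q' : Finset (Fin n)} (h1 : q ⊆ P) (h2 : q' ⊆ P')
    (hP : P.card = P'.card) (hq : q.card = q'.card) :
    ∃ e : Equiv.Perm (Fin n), (∀ r, e r ∈ P' ↔ r ∈ P) ∧ (∀ r, e r ∈ q' ↔ r ∈ q) := by
  classical
  let f : Fin n → Bool × Bool := fun r => (decide (r ∈ q), decide (r ∈ P))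
  let g : Fin n → Bool × Bool := fun r => (decide (r ∈ q'), decide (r ∈ P'))
  have key : ∀ (X Y : Finset (Fin n)), Y ⊆ X → ∀ c : Bool × Bool,
      Fintype.card {r : Fin n // (decide (r ∈ Y), decide (r ∈ X)) = c} =
        match c with
        | (true, true) => Y.card
        | (true, false) => 0
        | (false, true) => X.card - Y.card
        | (false, false) => n - X.card := by
    intro X Y hYX c
    rw [Fintype.card_subtype]
    obtain ⟨c1, c2⟩ := c
    cases c1 <;> cases c2
    · have h3 : (Finset.univ.filter fun r : Fin n =>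
          (decide (r ∈ Y), decide (r ∈ X)) = (false, false)) = Xᶜ := by
        ext r
        simp only [Finset.mem_filter, Finset.mem_univ, true_and, Prod.mk.injEq,
          decide_eq_false_iff_not, Finset.mem_compl]
        exact ⟨fun h => h.2, fun h => ⟨fun h' => h (hYX h'), h⟩⟩
      rw [h3, Finset.card_compl, Fintype.card_fin]
    · have h3 : (Finset.univ.filter fun r : Fin n =>
          (decide (r ∈ Y), decide (r ∈ X)) = (false, true)) = X \ Y := by
        ext r
        simp only [Finset.mem_filter, Finset.mem_univ, true_and, Prod.mk.injEq,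
          decide_eq_false_iff_not, decide_eq_true_eq, Finset.mem_sdiff]
        exact And.comm
      rw [h3, Finset.card_sdiff_of_subset hYX]
    · have h3 : (Finset.univ.filter fun r : Fin n =>
          (decide (r ∈ Y), decide (r ∈ X)) = (true, false)) = ∅ := by
        ext r
        simp only [Finset.mem_filter, Finset.mem_univ, true_and, Prod.mk.injEq,
          decide_eq_false_iff_not, decide_eq_true_eq, Finset.notMem_empty, iff_false]
        exact fun h => h.2 (hYX h.1)
      rw [h3, Finset.card_empty]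
    · have h3 : (Finset.univ.filter fun r : Fin n =>
          (decide (r ∈ Y), decide (r ∈ X)) = (true, true)) = Y := by
        ext r
        simp only [Finset.mem_filter, Finset.mem_univ, true_and, Prod.mk.injEq,
          decide_eq_true_eq]
        exact ⟨fun h => h.1, fun h => ⟨h, hYX h⟩⟩
      rw [h3]
  have hc : ∀ c, Fintype.card {r // f r = c} = Fintype.card {r // g r = c} := by
    intro c
    rw [key P q h1 c, key P' q' h2 c, hP, hq]
  let e : Equiv.Perm (Fin n) := Equiv.ofFiberEquiv (f := f) (g := g)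
    fun c => Fintype.equivOfCardEq (hc c)
  have he : ∀ r, g (e r) = f r := fun r => Equiv.ofFiberEquiv_map _ r
  refine ⟨e, fun r => ?_, fun r => ?_⟩
  · have h3 := congrArg Prod.snd (he r)
    simpa [f, g] using h3
  · have h3 := congrArg Prod.fst (he r)
    simpa [f, g] using h3

/-- nested pairs of the same types are conjugate -/
lemma exists_mp {P q P' q' : Finset (B D)} (h1 : q ⊆ P) (h2 : q' ⊆ P') (hP : typ D P = typ D P')
    (hq : typ D q = typ D q') : ∃ σ : W D, mp D σ P = P' ∧ mp D σ q = q' := by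
  have h3 : ∀ i, ∃ e : Equiv.Perm (Fin (D.v i)), (∀ r, e r ∈ fib D P' i ↔ r ∈ fib D P i) ∧
      (∀ r, e r ∈ fib D q' i ↔ r ∈ fib D q i) := by
    intro i
    refine exists_perm_nested ?_ ?_ ?_ ?_
    · intro r hr
      rw [mem_fib] at hr ⊢
      exact h1 hr
    · intro r hr
      rw [mem_fib] at hr ⊢
      exact h2 hr
    · rw [card_fib, card_fib, hP]
    · rw [card_fib, card_fib, hq]
  choose e he1 he2 using h3
  have key : ∀ X X' : Finset (B D), (∀ i r, e i r ∈ fib D X' i ↔ r ∈ fib D X i) →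
      mp D e X = X' := by
    intro X X' h
    ext b
    obtain ⟨c, rfl⟩ : ∃ c, perm D e c = b := ⟨(perm D e).symm b, Equiv.apply_symm_apply _ _⟩
    rw [mem_mp]
    obtain ⟨i, r⟩ := c
    have h4 := h i r
    rw [mem_fib, mem_fib] at h4
    exact h4.symm
  exact ⟨e, key P P' he1, key q q' he2⟩

/-- disjoint pairs of the same types are conjugate -/
lemma exists_mp_disj {P q P' q' : Finset (B D)} (h1 : Disjoint P q) (h2 : Disjoint P' q')
    (hP : typ D P = typ D P') (hq : typ D q = typ D q') :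
    ∃ σ : W D, mp D σ P = P' ∧ mp D σ q = q' := by
  classical
  have h3 := typ_union_inter D P q
  have h4 := typ_union_inter D P' q'
  rw [Finset.disjoint_iff_inter_eq_empty.1 h1, typ_empty, add_zero] at h3
  rw [Finset.disjoint_iff_inter_eq_empty.1 h2, typ_empty, add_zero] at h4
  obtain ⟨σ, hσ1, hσ2⟩ := exists_mp D (P := P ∪ q) (q := q) (P' := P' ∪ q') (q' := q')
    Finset.subset_union_right Finset.subset_union_right (by rw [h3, h4, hP, hq]) hq
  refine ⟨σ, ?_, hσ2⟩
  have h5 : ∀ X Y : Finset (B D), Disjoint X Y → X = (X ∪ Y) \ Y := by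
    intro X Y h
    rw [Finset.union_sdiff_right, Finset.sdiff_eq_self_of_disjoint h]
  rw [h5 P q h1, mp_sdiff, hσ1, hσ2, ← h5 P' q' h2]

/-- decomposition of an element of the stabilizer of `C` -/
lemma exists_factor {τ : W D} {C : Finset (B D)} (h : mp D τ C = C) :
    ∃ τ1 τ2 : W D, τ = τ2 * τ1 ∧ (∀ b ∉ C, perm D τ1 b = b) ∧ (∀ b ∈ C, perm D τ2 b = b) := by
  classical
  have hC : ∀ i (r : Fin (D.v i)), (⟨i, τ i r⟩ : B D) ∈ C ↔ (⟨i, r⟩ : B D) ∈ C := by
    intro i r
    have h1 := mem_mp D τ C ⟨i, r⟩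
    rw [h] at h1
    exact h1
  let τ1 : W D := fun i => Equiv.Perm.ofSubtype
    ((τ i).subtypePerm (p := fun r => (⟨i, r⟩ : B D) ∈ C) (fun r => hC i r))
  let τ2 : W D := fun i => Equiv.Perm.ofSubtype
    ((τ i).subtypePerm (p := fun r => (⟨i, r⟩ : B D) ∉ C) (fun r => not_congr (hC i r)))
  have a1 : ∀ i (r : Fin (D.v i)), (⟨i, r⟩ : B D) ∉ C → τ1 i r = r := fun i r hr =>
    Equiv.Perm.ofSubtype_apply_of_not_mem _ hr
  have a2 : ∀ i (r : Fin (D.v i)), (⟨i, r⟩ : B D) ∈ C → τ1 i r = τ i r := fun i r hr => by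
    have := Equiv.Perm.ofSubtype_apply_of_mem
      ((τ i).subtypePerm (p := fun r => (⟨i, r⟩ : B D) ∈ C) (fun r => hC i r)) hr
    simpa using this
  have b1 : ∀ i (r : Fin (D.v i)), (⟨i, r⟩ : B D) ∈ C → τ2 i r = r := fun i r hr =>
    Equiv.Perm.ofSubtype_apply_of_not_mem _ (not_not.2 hr)
  have b2 : ∀ i (r : Fin (D.v i)), (⟨i, r⟩ : B D) ∉ C → τ2 i r = τ i r := fun i r hr => by
    have := Equiv.Perm.ofSubtype_apply_of_mem
      ((τ i).subtypePerm (p := fun r => (⟨i, r⟩ : B D) ∉ C) (fun r => not_congr (hC i r))) hr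
    simpa using this
  refine ⟨τ1, τ2, ?_, ?_, ?_⟩
  · funext i
    ext r : 1
    change τ i r = τ2 i (τ1 i r)
    by_cases hr : (⟨i, r⟩ : B D) ∈ C
    · rw [a2 i r hr, b1 i (τ i r) ((hC i r).2 hr)]
    · rw [a1 i r hr, b2 i r hr]
  · rintro ⟨i, r⟩ hb
    change (⟨i, τ1 i r⟩ : B D) = ⟨i, r⟩
    rw [a1 i r hb]
  · rintro ⟨i, r⟩ hb
    change (⟨i, τ2 i r⟩ : B D) = ⟨i, r⟩
    rw [b1 i r hb]

end Vale.Agent.P291.H
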