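import Vale.Agent.P291.H.Typ

set_option autoImplicit false
set_option linter.unusedSectionVars false

/-! Transpositions, the Vandermonde product, alternating families. -/

namespace Vale.Agent.P291.H

open MvPolynomial Vale.Agent.P291.G

variable (D : QData) (Z : Type)

/-! ### the transposition -/

lemma mp_tr {i : D.I} {r s : Fin (D.v i)} {A : Finset (B D)}
    (h : (⟨i, r⟩ : B D) ∈ A ↔ (⟨i, s⟩ : B D) ∈ A) : mp D (tr D i r s) A = A := by
  ext b
  rw [mem_mp', perm_tr, Equiv.symm_swap, Equiv.swap_apply_def]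
  split_ifs with h1 h2
  · rw [h1, h]
  · rw [h2, h]
  · rfl

open Classical in
/-- the action of a transposition -/
lemma act_tr (i : D.I) (r s : Fin (D.v i)) (f : S D Z) : act D Z (tr D i r s) f =
    rename (Equiv.swap (Sum.inl ⟨i, r⟩ : B D ⊕ Z) (Sum.inl ⟨i, s⟩)) f := by
  rw [act]
  congr 2
  funext b
  cases b with
  | inl b =>
    rw [Sum.map_inl, perm_tr, Equiv.swap_apply_def, Equiv.swap_apply_def]
    by_cases h1 : b = ⟨i, r⟩
    · simp [h1]
    · by_cases h2 : b = ⟨i, s⟩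
      · subst h2
        rw [if_neg h1, if_pos rfl, if_neg (fun h => h1 (Sum.inl_injective h)), if_pos rfl]
      · rw [if_neg h1, if_neg h2, if_neg (fun h => h1 (Sum.inl_injective h)),
          if_neg (fun h => h2 (Sum.inl_injective h))]
  | inr j =>
    rw [Equiv.swap_apply_of_ne_of_ne (by simp) (by simp)]
    rfl

/-- a polynomial alternating under a transposition is divisible by the difference -/
lemma dvd_of_tr (i : D.I) {r s : Fin (D.v i)} (hrs : r ≠ s) {f : S D Z}
    (h : act D Z (tr D i r s) f = -f) : (xx D Z ⟨i, r⟩ - xx D Z ⟨i, s⟩) ∣ f := by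
  classical
  refine Vale.Agent.P291.GUfd.dvd_of_alt f ?_
  rw [← h, act_tr]

/-- the difference of a polynomial and its transpose is divisible by the difference -/
lemma dvd_sub_tr (i : D.I) {r s : Fin (D.v i)} (hrs : r ≠ s) (f : S D Z) :
    (xx D Z ⟨i, r⟩ - xx D Z ⟨i, s⟩) ∣ act D Z (tr D i r s) f - f := by
  refine dvd_of_tr D Z i hrs ?_
  have h1 : tr D i r s * tr D i r s = 1 := by
    rw [tr, ← Pi.mulSingle_mul, Equiv.swap_mul_self, Pi.mulSingle_one]
  rw [map_sub, ← act_mul, h1, act_one, neg_sub]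

/-- `x a - x b` is prime -/
lemma prime_sub {a b : B D} (h : a ≠ b) : Prime (xx D Z a - xx D Z b) := by
  classical
  have h1 : Irreducible (xx D Z a - xx D Z b) :=
    Vale.Agent.P291.GUfd.irreducible_sub (fun e => h (Sum.inl_injective e))
  exact h1.prime

lemma vdm_relPrime {b b' c c' : B D} (h : b ≠ b') (hc : c ≠ c')
    (hne : ¬ ((c = b ∧ c' = b') ∨ (c = b' ∧ c' = b))) :
    IsRelPrime (xx D Z b - xx D Z b') (xx D Z c - xx D Z c') := by
  classical
  refine Vale.Agent.P291.GUfd.isRelPrime_sub (fun e => h (Sum.inl_injective e))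
    (fun e => hc (Sum.inl_injective e)) ?_
  rintro (⟨h1, h2⟩ | ⟨h1, h2⟩)
  · exact hne (Or.inl ⟨Sum.inl_injective h1, Sum.inl_injective h2⟩)
  · exact hne (Or.inr ⟨Sum.inl_injective h1, Sum.inl_injective h2⟩)

lemma vdm_sub_ne {a b : B D} (h : a ≠ b) : xx D Z a - xx D Z b ≠ 0 := (prime_sub D Z h).ne_zero

/-! ### the Vandermonde product -/

lemma act_del (σ : W D) : act D Z σ (del D Z) = (sgn D σ : S D Z) * del D Z := by
  rw [del, map_prod, sgn, Int.cast_prod, ← Finset.prod_mul_distrib]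
  refine Finset.prod_congr rfl fun i _ => ?_
  rw [AlgHom.map_det]
  have : (act D Z σ).mapMatrix (Matrix.vandermonde fun r : Fin (D.v i) => xx D Z ⟨i, r⟩) =
      (Matrix.vandermonde fun r : Fin (D.v i) => xx D Z ⟨i, r⟩).submatrix (σ i) id := by
    ext1 r c
    rw [AlgHom.mapMatrix_apply, Matrix.map_apply, Matrix.vandermonde_apply, map_pow, act_xx,
      Matrix.submatrix_apply, Matrix.vandermonde_apply]
    rfl
  rw [this, Matrix.det_permute]

lemma vdm_del_eq : del D Z = ∏ p ∈ pairs D, (xx D Z ⟨p.1, p.2.2⟩ - xx D Z ⟨p.1, p.2.1⟩) := by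
  rw [del, pairs, Finset.prod_filter, ← Finset.univ_sigma_univ, Finset.prod_sigma]
  refine Finset.prod_congr rfl fun i _ => ?_
  rw [Matrix.det_vandermonde, ← Finset.univ_product_univ, Finset.prod_product]
  refine Finset.prod_congr rfl fun r _ => ?_
  rw [← Finset.prod_filter]
  refine Finset.prod_congr ?_ fun _ _ => rfl
  ext s
  simp

lemma del_ne_zero : del D Z ≠ 0 := by
  rw [vdm_del_eq, Finset.prod_ne_zero_iff]
  intro p hp
  rw [pairs, Finset.mem_filter] at hp
  refine vdm_sub_ne D Z fun h => ?_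
  rw [Sigma.mk.injEq] at h
  exact absurd (eq_of_heq h.2) (ne_of_gt hp.2)

/-- if all linear factors divide `f` then so does `del` -/
lemma del_dvd (f : S D Z) (h : ∀ (i : D.I) (r s : Fin (D.v i)), r ≠ s →
    (xx D Z ⟨i, r⟩ - xx D Z ⟨i, s⟩) ∣ f) : del D Z ∣ f := by
  rw [vdm_del_eq]
  refine Finset.prod_dvd_of_isRelPrime ?_ fun p hp => ?_
  · intro p hp q hq hpq
    have hp' : p.2.1 < p.2.2 := (Finset.mem_filter.1 hp).2
    have hq' : q.2.1 < q.2.2 := (Finset.mem_filter.1 hq).2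
    obtain ⟨i, r, s⟩ := p
    obtain ⟨j, r', s'⟩ := q
    simp only at hp' hq'
    refine vdm_relPrime D Z ?_ ?_ ?_
    · intro h; rw [Sigma.mk.injEq] at h
      exact absurd (eq_of_heq h.2) (ne_of_gt hp')
    · intro h; rw [Sigma.mk.injEq] at h
      exact absurd (eq_of_heq h.2) (ne_of_gt hq')
    · by_cases hij : i = j
      · subst hij
        simp only [Sigma.mk.injEq, heq_eq_eq, true_and, ne_eq, Prod.mk.injEq, not_and] at hpq ⊢
        rintro (⟨h1, h2⟩ | ⟨h1, h2⟩)
        · exact hpq h2.symm h1.symm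
        · rw [h1, h2] at hq'
          exact lt_asymm hp' hq'
      · rintro (⟨h1, -⟩ | ⟨h1, -⟩)
        · rw [Sigma.mk.injEq] at h1; exact hij h1.1.symm
        · rw [Sigma.mk.injEq] at h1; exact hij h1.1.symm
  · exact h _ _ _ (ne_of_gt (Finset.mem_filter.1 hp).2)

lemma vdm_dvd_del' (i : D.I) (r s : Fin (D.v i)) (h2 : r < s) :
    (xx D Z ⟨i, s⟩ - xx D Z ⟨i, r⟩) ∣ del D Z := by
  rw [vdm_del_eq]
  have h3 : (⟨i, r, s⟩ : Σ i : D.I, Fin (D.v i) × Fin (D.v i)) ∈ pairs D :=
    Finset.mem_filter.2 ⟨Finset.mem_univ _, h2⟩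
  classical
  rw [← Finset.mul_prod_erase _ _ h3]
  exact Dvd.intro _ rfl

lemma dvd_del (i : D.I) (r s : Fin (D.v i)) (h : r ≠ s) :
    (xx D Z ⟨i, r⟩ - xx D Z ⟨i, s⟩) ∣ del D Z := by
  rcases lt_or_gt_of_ne h with h2 | h2
  · have h5 := (neg_dvd (α := S D Z)).2 (vdm_dvd_del' D Z i r s h2)
    rwa [neg_sub] at h5
  · exact vdm_dvd_del' D Z i s r h2

lemma cr_ne_zero {A C : Finset (B D)} (h : Disjoint A C) : cr D Z A C ≠ 0 := by
  rw [cr, Finset.prod_ne_zero_iff]
  intro a ha
  rw [Finset.prod_ne_zero_iff]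
  intro b hb
  split_ifs with h1
  · refine vdm_sub_ne D Z ?_
    rintro rfl
    exact (Finset.disjoint_left.1 h ha) hb
  · exact one_ne_zero

lemma act_cr (σ : W D) (A C : Finset (B D)) :
    act D Z σ (cr D Z A C) = cr D Z (mp D σ A) (mp D σ C) := by
  rw [cr, cr, mp, mp, Finset.prod_map, map_prod]
  refine Finset.prod_congr rfl fun a _ => ?_
  rw [Finset.prod_map, map_prod]
  refine Finset.prod_congr rfl fun b _ => ?_
  by_cases h1 : a.1 = b.1
  · have h2 : ((perm D σ).toEmbedding a).1 = ((perm D σ).toEmbedding b).1 := h1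
    rw [if_pos h1, if_pos h2, map_sub, act_xx, act_xx]
    rfl
  · have h2 : ¬ ((perm D σ).toEmbedding a).1 = ((perm D σ).toEmbedding b).1 := h1
    rw [if_neg h1, if_neg h2, map_one]

/-- `cr A C` is a product of distinct factors of `del` -/
lemma cr_dvd_del {A C : Finset (B D)} (h : Disjoint A C) : cr D Z A C ∣ del D Z := by
  have e : cr D Z A C = ∏ p ∈ A ×ˢ C, if p.1.1 = p.2.1 then xx D Z p.1 - xx D Z p.2 else 1 := by
    rw [cr, Finset.prod_product]
  rw [e]
  have hne : ∀ p ∈ A ×ˢ C, p.1 ≠ p.2 := by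
    intro p hp hpe
    rw [Finset.mem_product] at hp
    exact Finset.disjoint_left.1 h hp.1 (hpe ▸ hp.2)
  refine Finset.prod_dvd_of_isRelPrime ?_ fun p hp => ?_
  · intro p hp q hq hpq
    simp only [Function.onFun]
    split_ifs with h1 h2 h2
    · refine vdm_relPrime D Z (hne p hp) (hne q hq) ?_
      rintro (⟨h3, h4⟩ | ⟨h3, h4⟩)
      · exact hpq (Prod.ext h3.symm h4.symm)
      · have hp' := Finset.mem_product.1 hp
        have hq' := Finset.mem_product.1 hq
        exact Finset.disjoint_left.1 h hq'.1 (h3 ▸ hp'.2)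
    · exact isRelPrime_one_right
    · exact isRelPrime_one_left
    · exact isRelPrime_one_left
  · have hn := hne p hp
    obtain ⟨⟨i, r⟩, ⟨j, s⟩⟩ := p
    simp only at hn ⊢
    split_ifs with h1
    · subst h1
      exact dvd_del D Z i r s (fun h2 => hn (by rw [h2]))
    · exact one_dvd _

/-- the factor of `del` complementary to `cr A Aᶜ` -/
noncomputable def Dl (A : Finset (B D)) : S D Z := (cr_dvd_del D Z (disjoint_compl_right (a := A))).choose

lemma Dl_spec (A : Finset (B D)) : del D Z = cr D Z A Aᶜ * Dl D Z A :=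
  (cr_dvd_del D Z (disjoint_compl_right (a := A))).choose_spec

lemma Dl_ne_zero (A : Finset (B D)) : Dl D Z A ≠ 0 := by
  intro h
  have h1 := Dl_spec D Z A
  rw [h, mul_zero] at h1
  exact del_ne_zero D Z h1

lemma act_Dl (σ : W D) (A : Finset (B D)) :
    act D Z σ (Dl D Z A) = (sgn D σ : S D Z) * Dl D Z (mp D σ A) := by
  have h1 := congrArg (act D Z σ) (Dl_spec D Z A)
  rw [act_del, map_mul, act_cr, mp_compl] at h1
  have h2 := Dl_spec D Z (mp D σ A)
  have h3 : cr D Z (mp D σ A) (mp D σ A)ᶜ ≠ 0 := cr_ne_zero D Z disjoint_compl_right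
  refine mul_left_cancel₀ h3 ?_
  rw [← h1, h2]
  ring

/-- alternating families are divisible by `Dl` -/
lemma Dl_dvd {n : D.I → ℕ} {φ : Finset (B D) → S D Z} (h : φ ∈ AF D Z n) (A : Finset (B D)) :
    Dl D Z A ∣ φ A := by
  have h3 : cr D Z A Aᶜ ≠ 0 := cr_ne_zero D Z disjoint_compl_right
  have key : del D Z ∣ cr D Z A Aᶜ * φ A := by
    refine del_dvd D Z _ fun i r s hrs => ?_
    -- membership in a factor
    have hfac : ∀ r s : Fin (D.v i), (⟨i, r⟩ : B D) ∈ A → (⟨i, s⟩ : B D) ∉ A →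
        (xx D Z ⟨i, r⟩ - xx D Z ⟨i, s⟩) ∣ cr D Z A Aᶜ := by
      intro r s hr hs
      rw [cr]
      refine dvd_trans ?_ (Finset.dvd_prod_of_mem _ hr)
      refine dvd_trans ?_ (Finset.dvd_prod_of_mem _ (Finset.mem_compl.2 hs))
      rw [if_pos rfl]
    by_cases hr : (⟨i, r⟩ : B D) ∈ A
    · by_cases hs : (⟨i, s⟩ : B D) ∈ A
      · refine Dvd.dvd.mul_left (dvd_of_tr D Z i hrs ?_) _
        rw [h.1, mp_tr D (by simp [hr, hs]), sgn_tr D i hrs]
        simp
      · exact Dvd.dvd.mul_right (hfac r s hr hs) _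
    · by_cases hs : (⟨i, s⟩ : B D) ∈ A
      · have h5 := (neg_dvd (α := S D Z)).2 (hfac s r hs hr)
        rw [neg_sub] at h5
        exact Dvd.dvd.mul_right h5 _
      · refine Dvd.dvd.mul_left (dvd_of_tr D Z i hrs ?_) _
        rw [h.1, mp_tr D (by simp [hr, hs]), sgn_tr D i hrs]
        simp
  rw [Dl_spec D Z A] at key
  exact (mul_dvd_mul_iff_left h3).1 key

/-- orbit sums are alternating families -/
lemma orb_mem (A₀ : Finset (B D)) (p : S D Z) : orb D Z A₀ p ∈ AF D Z (typ D A₀) := by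
  refine ⟨fun σ A => ?_, fun A hA => ?_⟩
  · rw [orb, orb, map_sum, Finset.mul_sum]
    refine Finset.sum_bij' (fun τ _ => σ * τ) (fun τ _ => σ⁻¹ * τ)
      (fun τ _ => Finset.mem_univ _) (fun τ _ => Finset.mem_univ _)
      (fun τ _ => by rw [inv_mul_cancel_left]) (fun τ _ => by rw [mul_inv_cancel_left])
      (fun τ _ => ?_)
    rw [mp_mul]
    by_cases h1 : mp D τ A₀ = A
    · rw [if_pos h1, if_pos (by rw [h1]), map_mul, map_intCast, act_mul, sgn_mul, ← mul_assoc,
        ← Int.cast_mul, ← mul_assoc, sgn_sq, one_mul]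
    · rw [if_neg h1, if_neg (fun h2 => h1 (mp_inj D σ h2)), map_zero, mul_zero]
  · rw [orb]
    refine Finset.sum_eq_zero fun τ _ => ?_
    rw [if_neg]
    rintro rfl
    exact hA (typ_mp D τ A₀)

/-- an alternating family vanishing at one subset of its type is zero -/
lemma AF_eq_zero {n : D.I → ℕ} {φ : Finset (B D) → S D Z} (h : φ ∈ AF D Z n) {C : Finset (B D)}
    (hC : typ D C = n) (h0 : φ C = 0) : φ = 0 := by
  funext A
  rw [Pi.zero_apply]
  by_cases hA : typ D A = n
  · obtain ⟨σ, hσ, -⟩ := exists_mp D (P := C) (q := ∅) (P' := A) (q' := ∅)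
      (Finset.empty_subset _) (Finset.empty_subset _) (hC.trans hA.symm) rfl
    have h1 := h.1 σ C
    rw [h0, map_zero, hσ] at h1
    have h2 : ((sgn D σ : S D Z) * sgn D σ) * φ A = 0 := by
      rw [mul_assoc, ← h1, mul_zero]
    rwa [← Int.cast_mul, sgn_sq, Int.cast_one, one_mul] at h2
  · exact h.2 A hA

end Vale.Agent.P291.H
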